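import Mathlib

/-!
# P165, SL route: frames from Zariski density over a proper normed field

A product of finitely many conditions `r g u ≠ 0` can be met inside the special linear group, so
inside every Zariski dense set; compactness makes this uniform. Matrices with entries in an infinite
subring are Zariski dense.
-/

namespace Vale.Agent.P165.SL

open Matrix

section Field

variable {ι : Type} [Fintype ι] [DecidableEq ι] {k : Type} [Field k]

/-- Every polynomial in the entries which vanishes on `S` vanishes at every matrix of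
determinant one. -/
def ZariskiDense (S : Set (Matrix ι ι k)) : Prop :=
  ∀ f : MvPolynomial (ι × ι) k,
    (∀ g ∈ S, MvPolynomial.eval (fun q => g q.1 q.2) f = 0) →
    ∀ g : Matrix ι ι k, g.det = 1 → MvPolynomial.eval (fun q => g q.1 q.2) f = 0

/-- The matrices of determinant one with entries in the image of a ring. -/
def ringSL (ι : Type) [Fintype ι] [DecidableEq ι] {R : Type} [CommRing R] (φ : R →+* k) :
    Set (Matrix ι ι k) :=
  {g | ∃ A : Matrix ι ι R, A.det = 1 ∧ A.map φ = g}

lemma ringSL.one_mem {R : Type} [CommRing R] (φ : R →+* k) : (1 : Matrix ι ι k) ∈ ringSL ι φ :=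
  ⟨1, det_one, Matrix.map_one _ φ.map_zero φ.map_one⟩

lemma ringSL.transvection_mul {R : Type} [CommRing R] {φ : R →+* k} {g : Matrix ι ι k}
    (h : g ∈ ringSL ι φ) {p q : ι} (hpq : p ≠ q) (t : R) :
    transvection p q (φ t) * g ∈ ringSL ι φ := by
  obtain ⟨A, hA, rfl⟩ := h
  refine ⟨transvection p q t * A, by rw [det_mul, det_transvection_of_ne _ _ hpq, hA, mul_one], ?_⟩
  ext a b
  by_cases ha : a = p
  · subst ha; simp
  · simp [ha]

/-- A matrix, or its contragredient written with the adjugate. -/
def twist : Bool → Matrix ι ι k → Matrix ι ι k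
  | false, g => g
  | true, g => (adjugate g)ᵀ

lemma twist_mul (b : Bool) (g h : Matrix ι ι k) : twist b (g * h) = twist b g * twist b h := by
  cases b
  · rfl
  · simp [twist, adjugate_mul_distrib, transpose_mul]

lemma det_twist (b : Bool) {g : Matrix ι ι k} (h : g.det = 1) : (twist b g).det = 1 := by
  cases b
  · exact h
  · simp [twist, det_adjugate, h]

/-- A transvection moves a twisted `r g u` affinely. -/
lemma dot_transvection (b : Bool) (r u : ι → k) (g : Matrix ι ι k) {p q : ι} (hpq : p ≠ q)
    (t : k) :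
    r ⬝ᵥ (twist b (transvection p q t * g) *ᵥ u) = r ⬝ᵥ (twist b g *ᵥ u) +
      t * cond b (-(r q * (twist b g *ᵥ u) p)) (r p * (twist b g *ᵥ u) q) := by
  have adj : adjugate (transvection p q t) = transvection p q (-t) := by
    have hi : (transvection p q t)⁻¹ = transvection p q (-t) := inv_eq_right_inv (by
      rw [transvection_mul_transvection_same _ _ hpq, add_neg_cancel, transvection_zero])
    rw [← hi, inv_def, det_transvection_of_ne _ _ hpq, Ring.inverse_one, one_smul]
  have aff : ∀ (p q : ι) (t : k) (M : Matrix ι ι k),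
      r ⬝ᵥ ((transvection p q t * M) *ᵥ u) = r ⬝ᵥ (M *ᵥ u) + t * (r p * (M *ᵥ u) q) := by
    intro p q t M
    rw [← mulVec_mulVec, transvection, add_mulVec, one_mulVec, dotProduct_add, single_mulVec]
    congr 1
    have : Function.update (0 : ι → k) p (t * (M *ᵥ u) q) = Pi.single p (t * (M *ᵥ u) q) := rfl
    rw [this, dotProduct_single]
    ring
  cases b
  · exact aff p q t g
  · have : twist true (transvection p q t * g) = transvection q p (-t) * twist true g := by
      rw [twist_mul]
      congr 1
      simp only [twist, adj]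
      rw [transvection, transvection, transpose_add, transpose_one, transpose_single]
    rw [this, aff]
    simp only [cond_true]
    ring

/-- A row and a column orthogonal to each other have nonzero entries at two different places. -/
lemma exists_offDiag {r w : ι → k} (hr : r ≠ 0) (hw : w ≠ 0) (h : r ⬝ᵥ w = 0) :
    ∃ p q, p ≠ q ∧ r p * w q ≠ 0 := by
  obtain ⟨p, hp⟩ := Function.ne_iff.1 hr
  obtain ⟨q, hq⟩ := Function.ne_iff.1 hw
  by_cases hpq : p = q
  · subst hpq
    by_contra hne
    push Not at hne
    have : r ⬝ᵥ w = r p * w p := by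
      refine Finset.sum_eq_single p (fun i _ hi => ?_) (by simp)
      rcases mul_eq_zero.1 (hne i p hi) with h' | h'
      · simp [h']
      · exact absurd h' hq
    exact mul_ne_zero hp hq (this ▸ h)
  · exact ⟨p, q, hpq, mul_ne_zero hp hq⟩

/-- Finitely many conditions `r g u ≠ 0`, twisted or not, are met by one matrix of
determinant one over an infinite field. -/
theorem exists_general [Infinite k] {κ : Type} (tw : κ → Bool) (s : Finset κ) (r u : κ → ι → k)
    (hr : ∀ i ∈ s, r i ≠ 0) (hu : ∀ i ∈ s, u i ≠ 0) :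
    ∃ g : Matrix ι ι k, g.det = 1 ∧ ∀ i ∈ s, r i ⬝ᵥ (twist (tw i) g *ᵥ u i) ≠ 0 := by
  classical
  induction s using Finset.induction_on with
  | empty => exact ⟨1, det_one, by simp⟩
  | insert a s ha ih =>
    obtain ⟨g, hg, hgood⟩ := ih (fun i hi => hr i (by simp [hi])) (fun i hi => hu i (by simp [hi]))
    let w : κ → ι → k := fun i => twist (tw i) g *ᵥ u i
    let coef : κ → ι → ι → k :=
      fun i p q => cond (tw i) (-(r i q * w i p)) (r i p * w i q)
    by_cases h0 : r a ⬝ᵥ w a = 0
    · have hinj : Function.Injective (twist (tw a) g).mulVec :=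
        mulVec_injective_iff_isUnit.2 ((isUnit_iff_isUnit_det _).2
          (by rw [det_twist _ hg]; exact isUnit_one))
      have hw : w a ≠ 0 := fun h => hu a (by simp) (hinj (by simpa [w] using h))
      obtain ⟨p, q, hpq, hne⟩ : ∃ p q, p ≠ q ∧ coef a p q ≠ 0 := by
        obtain ⟨p, q, hpq, hne⟩ := exists_offDiag (hr a (by simp)) hw h0
        cases hb : tw a
        · exact ⟨p, q, hpq, by simpa [coef, hb] using hne⟩
        · exact ⟨q, p, hpq.symm, by simpa [coef, hb] using hne⟩
      set bad : Finset k := insert 0 (s.image fun i => -(r i ⬝ᵥ w i) / coef i p q) with hbad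
      obtain ⟨t, ht⟩ := bad.exists_notMem
      have ht0 : t ≠ 0 := fun h => ht (by simp [hbad, h])
      refine ⟨transvection p q t * g, by rw [det_mul, det_transvection_of_ne _ _ hpq, hg, mul_one],
        fun i hi => ?_⟩
      rw [dot_transvection _ _ _ _ hpq]
      change r i ⬝ᵥ w i + t * coef i p q ≠ 0
      rcases Finset.mem_insert.1 hi with rfl | hi
      · rw [h0, zero_add]; exact mul_ne_zero ht0 hne
      · intro h
        by_cases hc : coef i p q = 0
        · rw [hc, mul_zero, add_zero] at h; exact hgood i hi h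
        · refine ht (Finset.mem_insert_of_mem (Finset.mem_image.2 ⟨i, hi, ?_⟩))
          rw [div_eq_iff hc]; linear_combination -h
    · refine ⟨g, hg, fun i hi => ?_⟩
      rcases Finset.mem_insert.1 hi with rfl | hi
      · exact h0
      · exact hgood i hi

/-- A Zariski dense set meets any finitely many conditions. -/
theorem zariskiDense_generic [Infinite k] {S : Set (Matrix ι ι k)} (hS : ZariskiDense S) {κ : Type} [Fintype κ]
    (tw : κ → Bool) (r u : κ → ι → k) (hr : ∀ i, r i ≠ 0) (hu : ∀ i, u i ≠ 0) :
    ∃ g ∈ S, ∀ i, r i ⬝ᵥ (twist (tw i) g *ᵥ u i) ≠ 0 := by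
  let P : Matrix ι ι (MvPolynomial (ι × ι) k) := Matrix.of fun a b => MvPolynomial.X (a, b)
  let T : Bool → Matrix ι ι (MvPolynomial (ι × ι) k) := fun b => cond b (adjugate P)ᵀ P
  have hT : ∀ (b : Bool) (g : Matrix ι ι k),
      (T b).map (MvPolynomial.eval fun e => g e.1 e.2) = twist b g := by
    intro b g
    have hP : P.map (MvPolynomial.eval fun e => g e.1 e.2) = g := by ext i j; simp [P]
    cases b
    · exact hP
    · have hA : (adjugate P).map (MvPolynomial.eval fun e => g e.1 e.2) = adjugate g := by
        rw [← RingHom.mapMatrix_apply, RingHom.map_adjugate, RingHom.mapMatrix_apply, hP]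
      ext i j
      exact congrFun (congrFun hA j) i
  set f : MvPolynomial (ι × ι) k :=
    ∏ i, ∑ a, ∑ b, MvPolynomial.C (r i a * u i b) * T (tw i) a b with hf
  have hev : ∀ g : Matrix ι ι k, MvPolynomial.eval (fun e => g e.1 e.2) f =
      ∏ i, r i ⬝ᵥ (twist (tw i) g *ᵥ u i) := by
    intro g
    rw [hf, map_prod]
    refine Finset.prod_congr rfl fun i _ => ?_
    rw [← hT (tw i) g]
    simp only [map_sum, map_mul, MvPolynomial.eval_C, dotProduct, mulVec, Matrix.map_apply,
      Finset.mul_sum]
    exact Finset.sum_congr rfl fun a _ => Finset.sum_congr rfl fun b _ => by ring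
  by_contra hno
  push Not at hno
  obtain ⟨g₀, hg₀, hgood⟩ :=
    exists_general tw Finset.univ r u (fun i _ => hr i) (fun i _ => hu i)
  have hz := hS f (fun g hg => by
    rw [hev]
    obtain ⟨i, hi⟩ := hno g hg
    exact Finset.prod_eq_zero (Finset.mem_univ i) hi) g₀ hg₀
  rw [hev] at hz
  obtain ⟨i, -, hi⟩ := Finset.prod_eq_zero_iff.1 hz
  exact hgood i (Finset.mem_univ i) hi

end Field

section Frames

variable {ι : Type} [Fintype ι] [DecidableEq ι] {k : Type} [NontriviallyNormedField k]
  [ProperSpace k]

omit [DecidableEq ι] in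
/-- Uniform frames: a set meeting every finite list of conditions has a finite part meeting all
lists of a given length with a uniform constant. -/
theorem exists_frames [Nonempty ι] {S : Set (Matrix ι ι k)} {κ : Type} [Fintype κ]
    (φ : κ → Matrix ι ι k → Matrix ι ι k)
    (hS : ∀ r u : κ → ι → k, (∀ i, r i ≠ 0) → (∀ i, u i ≠ 0) →
      ∃ g ∈ S, ∀ i, r i ⬝ᵥ (φ i g *ᵥ u i) ≠ 0) :
    ∃ (F : Finset (Matrix ι ι k)) (c : ℝ), 0 < c ∧ (F : Set (Matrix ι ι k)) ⊆ S ∧
      ∀ r u : κ → ι → k, ∃ g ∈ F, ∀ i, c * (‖r i‖ * ‖u i‖) ≤ ‖r i ⬝ᵥ (φ i g *ᵥ u i)‖ := by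
  classical
  let K : Set ((κ → ι → k) × (κ → ι → k)) :=
    (Set.univ.pi fun _ => Metric.sphere 0 1) ×ˢ (Set.univ.pi fun _ => Metric.sphere 0 1)
  have hK : IsCompact K :=
    (isCompact_univ_pi fun _ => isCompact_sphere 0 1).prod
      (isCompact_univ_pi fun _ => isCompact_sphere 0 1)
  let f : Matrix ι ι k → (κ → ι → k) × (κ → ι → k) → κ → ℝ :=
    fun g x i => ‖x.1 i ⬝ᵥ (φ i g *ᵥ x.2 i)‖
  have hfc : ∀ g i, Continuous fun x => f g x i := fun g i => by
    simp only [f, dotProduct, mulVec]
    fun_prop
  let U : Matrix ι ι k × ℕ → Set ((κ → ι → k) × (κ → ι → k)) :=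
    fun gn => {x | gn.1 ∈ S ∧ ∀ i, 1 / ((gn.2 : ℝ) + 1) < f gn.1 x i}
  have hUo : ∀ gn, IsOpen (U gn) := fun gn => by
    by_cases h : gn.1 ∈ S
    · simp only [U, h, true_and, Set.ofPred_forall]
      exact isOpen_iInter_of_finite fun i => isOpen_lt continuous_const (hfc _ i)
    · simp [U, h]
  have hcov : K ⊆ ⋃ gn, U gn := by
    rintro ⟨r, u⟩ ⟨hr, hu⟩
    simp only [Set.mem_univ_pi, mem_sphere_zero_iff_norm] at hr hu
    obtain ⟨g, hg, hne⟩ := hS r u (fun i h => by simpa [h] using hr i)
      (fun i h => by simpa [h] using hu i)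
    obtain ⟨n, hn⟩ : ∃ n : ℕ, ∀ i, 1 / ((n : ℝ) + 1) < f g (r, u) i := by
      choose m hm using fun i => exists_nat_one_div_lt (norm_pos_iff.2 (hne i))
      refine ⟨Finset.univ.sup m, fun i => lt_of_le_of_lt ?_ (hm i)⟩
      gcongr
      exact Finset.le_sup (f := m) (Finset.mem_univ i)
    exact Set.mem_iUnion.2 ⟨(g, n), hg, hn⟩
  obtain ⟨T, hT⟩ := hK.elim_finite_subcover U hUo hcov
  refine ⟨(T.filter fun gn => gn.1 ∈ S).image Prod.fst, 1 / (((T.image Prod.snd).sup id : ℕ) + 1),
    by positivity, ?_, fun r u => ?_⟩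
  · intro g hg
    simp only [Finset.coe_image, Finset.coe_filter, Set.mem_image, Set.mem_ofPred_eq] at hg
    obtain ⟨gn, ⟨-, h⟩, rfl⟩ := hg
    exact h
  obtain ⟨e, he⟩ : ∃ e : ι → k, ‖e‖ = 1 := ⟨fun _ => 1, by simp⟩
  have hun' : ∀ v : ι → k, ∃ (a : k) (u : ι → k), ‖u‖ = 1 ∧ v = a • u := by
    intro v
    by_cases h : v = 0
    · exact ⟨0, e, he, by simp [h]⟩
    obtain ⟨i, hi⟩ := Finite.exists_max fun i => ‖v i‖
    have hi' : ‖v‖ = ‖v i‖ :=
      le_antisymm ((pi_norm_le_iff_of_nonneg (norm_nonneg _)).2 hi) (norm_le_pi_norm v i)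
    have hvi : v i ≠ 0 := fun h0 => h (norm_eq_zero.1 (by rw [hi', h0, norm_zero]))
    exact ⟨v i, (v i)⁻¹ • v,
      by rw [norm_smul, norm_inv, hi', inv_mul_cancel₀ (norm_ne_zero_iff.2 hvi)],
      by rw [smul_smul, mul_inv_cancel₀ hvi, one_smul]⟩
  choose sc un hun using hun'
  have hx : ((fun i => un (r i)), fun i => un (u i)) ∈ K := by
    simp [K, (hun _).1]
  obtain ⟨gn, hgn, hS', hbd⟩ : ∃ gn ∈ T, gn.1 ∈ S ∧ ∀ i, 1 / ((gn.2 : ℝ) + 1) <
      f gn.1 ((fun i => un (r i)), fun i => un (u i)) i := by
    obtain ⟨gn, hgn, h⟩ := Set.mem_iUnion₂.1 (hT hx)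
    exact ⟨gn, hgn, h⟩
  refine ⟨gn.1, Finset.mem_image.2 ⟨gn, Finset.mem_filter.2 ⟨hgn, hS'⟩, rfl⟩, fun i => ?_⟩
  have hle : 1 / ((((T.image Prod.snd).sup id : ℕ) : ℝ) + 1) ≤ 1 / ((gn.2 : ℝ) + 1) := by
    gcongr
    exact Finset.le_sup (f := id) (Finset.mem_image_of_mem Prod.snd hgn)
  calc 1 / ((((T.image Prod.snd).sup id : ℕ) : ℝ) + 1) * (‖r i‖ * ‖u i‖)
      ≤ f gn.1 ((fun i => un (r i)), fun i => un (u i)) i * (‖r i‖ * ‖u i‖) :=
        mul_le_mul_of_nonneg_right (hle.trans (hbd i).le) (by positivity)
    _ = ‖r i ⬝ᵥ (φ i gn.1 *ᵥ u i)‖ := by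
        conv_lhs => rw [(hun (r i)).2, (hun (u i)).2]
        conv_rhs => rw [(hun (r i)).2, (hun (u i)).2]
        simp only [f, mulVec_smul, smul_dotProduct, dotProduct_smul, smul_eq_mul, norm_mul,
          norm_smul, (hun _).1]
        ring

end Frames

section Field

variable {ι : Type} [Fintype ι] [DecidableEq ι] {k : Type} [Field k]

/-- A diagonal matrix with two inverse entries is a product of six transvections. -/
lemma diag_eq_six {i j : ι} (hij : i ≠ j) {a : k} (ha : a ≠ 0) :
    diagonal (fun k => if k = i then a else if k = j then a⁻¹ else 1) =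
      transvection i j a * (transvection j i (-a⁻¹) * (transvection i j a *
        (transvection i j (-1) * (transvection j i 1 * transvection i j (-1))))) := by
  have hji := hij.symm
  have e : ∀ (p q : ι) (c : k) (x y : ι), transvection p q c x y =
      (if x = y then 1 else 0) + (if p = x ∧ q = y then c else 0) := fun p q c x y => by
    simp [transvection, Matrix.one_apply, Matrix.single_apply]
  ext k l
  rcases eq_or_ne k i with rfl | hki
  · rcases eq_or_ne l k with rfl | hlk
    · simp [hij]; simp [e, hji, ha]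
    · rcases eq_or_ne l j with rfl | hlj
      · simp [hij]; simp [e, hij, hji, ha]
      · simp [hij]; simp [e, hij, hji, Ne.symm hlk, Ne.symm hlj, hlj]
  · rcases eq_or_ne k j with rfl | hkj
    · rcases eq_or_ne l k with rfl | hlk
      · simp [hji]; simp [e, hij, hji]
      · rcases eq_or_ne l i with rfl | hli
        · simp [hij, hji]; simp [e, hji, ha]
        · simp [hji]; simp [e, hij, Ne.symm hlk, Ne.symm hli]
    · simp [hki, hkj, diagonal_apply, e, Ne.symm hki]

/-- Every matrix of determinant one is a product of transvections. -/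
lemma exists_list_transvec_prod [Nontrivial ι] {g : Matrix ι ι k} (hg : g.det = 1) :
    ∃ L : List (TransvectionStruct ι k), g = (L.map TransvectionStruct.toMatrix).prod := by
  refine SpecialLinearGroup.diagonal_transvection_induction'
    (fun M => ∃ L : List (TransvectionStruct ι k), (M : Matrix ι ι k) =
      (L.map TransvectionStruct.toMatrix).prod) ⟨g, hg⟩ ?_ ?_ ?_
  · intro i j hij c hc
    refine ⟨[⟨i, j, hij, c⟩, ⟨j, i, hij.symm, -c⁻¹⟩, ⟨i, j, hij, c⟩, ⟨i, j, hij, -1⟩,
      ⟨j, i, hij.symm, 1⟩, ⟨i, j, hij, -1⟩], ?_⟩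
    simp [SpecialLinearGroup.diag2n_coe, diag_eq_six hij hc]
  · intro i j hij a
    exact ⟨[⟨i, j, hij, a⟩], by simp [SpecialLinearGroup.transvection, transvection]⟩
  · rintro A B ⟨L, hL⟩ ⟨L', hL'⟩
    exact ⟨L ++ L', by simp [hL, hL']⟩

/-- A set containing the identity and closed under transvections with parameters from an infinite
ring inside the field is Zariski dense: a polynomial vanishing at all parameters from the ring
vanishes at all parameters. -/
theorem zariskiDense_of_transvections [Nontrivial ι] {R : Type} [CommRing R] [Infinite R]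
    (φ : R →+* k) (hφ : Function.Injective φ) (S : Set (Matrix ι ι k)) (h1 : (1 : Matrix ι ι k) ∈ S)
    (hT : ∀ g ∈ S, ∀ p q : ι, p ≠ q → ∀ t : R, transvection p q (φ t) * g ∈ S) :
    ZariskiDense S := by
  intro f hf g hg
  have key : ∀ (L : List (TransvectionStruct ι k)) (A B : Matrix ι ι k)
      (f : MvPolynomial (ι × ι) k),
      (∀ g ∈ S, MvPolynomial.eval (fun q => (A * g * B) q.1 q.2) f = 0) →
      MvPolynomial.eval (fun q => (A * (L.map TransvectionStruct.toMatrix).prod * B) q.1 q.2) f
        = 0 := by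
    intro L
    induction L with
    | nil => intro A B f h; simpa using h 1 h1
    | cons x L ih =>
      intro A B f h
      obtain ⟨p, q, hpq, c⟩ := x
      let M := (L.map TransvectionStruct.toMatrix).prod * B
      let P : Polynomial k := MvPolynomial.aeval (fun e : ι × ι =>
        Polynomial.C ((A * M) e.1 e.2) + Polynomial.X * Polynomial.C
          ((A * Matrix.single p q (1 : k) * M) e.1 e.2)) f
      have hP : ∀ t : k, P.eval t =
          MvPolynomial.eval (fun e => (A * transvection p q t * M) e.1 e.2) f := by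
        intro t
        have he : ∀ e : ι × ι, (A * transvection p q t * M) e.1 e.2 =
            (A * M) e.1 e.2 + t * (A * Matrix.single p q (1 : k) * M) e.1 e.2 := by
          intro e
          have : A * transvection p q t * M = A * M + t • (A * Matrix.single p q (1 : k) * M) := by
            rw [transvection, Matrix.mul_add, Matrix.add_mul, mul_one, ← Matrix.smul_mul,
              ← Matrix.mul_smul, Matrix.smul_single, smul_eq_mul, mul_one]
          simp [this]
        rw [show P.eval t = (Polynomial.aeval t) P by simp, ← AlgHom.comp_apply,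
          MvPolynomial.comp_aeval, ← MvPolynomial.aeval_eq_eval]
        congr 2
        funext e
        rw [he]
        simp only [map_add, map_mul, Polynomial.aeval_C, Polynomial.aeval_X, Algebra.algebraMap_self, RingHom.id_apply]
      have h0 : P = 0 := by
        refine Polynomial.eq_zero_of_infinite_isRoot P (Set.Infinite.mono ?_
          (Set.infinite_range_of_injective hφ))
        rintro _ ⟨m, rfl⟩
        show P.eval (φ m) = 0
        rw [hP, show A * transvection p q (φ m) * M
          = (A * transvection p q (φ m)) * (L.map TransvectionStruct.toMatrix).prod * B by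
            simp [M, mul_assoc]]
        refine ih _ _ _ fun g hg => ?_
        rw [show A * transvection p q (φ m) * g * B = A * (transvection p q (φ m) * g) * B by
          simp [mul_assoc]]
        exact h _ (hT g hg p q hpq m)
      have := hP c
      rw [h0, Polynomial.eval_zero] at this
      simpa [M, mul_assoc, TransvectionStruct.toMatrix] using this.symm
  obtain ⟨L, hL⟩ := exists_list_transvec_prod hg
  have := key L 1 1 f (by simpa using hf)
  simpa [hL] using this

/-- Matrices with entries in an infinite ring inside the field are Zariski dense. -/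
theorem ringSL_zariskiDense [Nontrivial ι] {R : Type} [CommRing R] [Infinite R] (φ : R →+* k)
    (hφ : Function.Injective φ) : ZariskiDense (ringSL ι φ) :=
  zariskiDense_of_transvections φ hφ _ (ringSL.one_mem φ) fun _ hg _ _ hpq t =>
    ringSL.transvection_mul hg hpq t

end Field

end Vale.Agent.P165.SL
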