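import Vale.Agent.P165.SL.Cells
import Vale.Agent.P165.FQ.Exit

/-!
# Discrete images in degree three: the estimates, the cocycle and finite windows

The estimates hold with one constant, the weight of flags is a cocycle and every finite window has
some bound.
-/

namespace Vale.Agent.P165.SL.Env

open Finset Matrix Cells
open scoped Matrix.Norms.Elementwise MatrixGroups

variable {k : Type} [NontriviallyNormedField k] {Γ O ι : Type} [Group Γ] [Fintype ι]
  (E : Env k Γ O ι)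

theorem L_eq {Q : M3 k} (hQ : Q ≠ 0) (s : Bool) (g : Γ) :
    E.L Q s g = E.m s g - Real.log ‖Q * rep E.ρ s g‖ :=
  Real.log_div (norm_rep_pos s g).ne' (norm_pos_iff.2 (mul_rep_ne_zero hQ s g)).ne'

/-- The logarithm of a product of three matrices that is not far below the product of the sizes. -/
theorem log_slot_le {U V W : M3 k} {c M : ℝ} (hc : 0 < c) (hM : 1 ≤ M) (hU : 0 < ‖U‖) (hW : 0 < ‖W‖)
    (hV : 9 * ‖V‖ ≤ M) (hlow : c * (‖U‖ * ‖W‖) ≤ ‖U * V * W‖) :
    |Real.log ‖U * V * W‖ - Real.log ‖U‖ - Real.log ‖W‖| ≤ |Real.log c| + Real.log M := by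
  have hy : 0 < ‖U * V * W‖ := (mul_pos hc (mul_pos hU hW)).trans_le hlow
  have hup : ‖U * V * W‖ ≤ ‖U‖ * M * ‖W‖ := by
    refine (norm_mul_le3 _ _).trans ((mul_le_mul_of_nonneg_left
      (mul_le_mul_of_nonneg_right (norm_mul_le3 U V) (norm_nonneg W)) (by norm_num)).trans ?_)
    linarith [mul_le_mul_of_nonneg_left hV (mul_nonneg hU.le hW.le)]
  have l1 := Real.log_le_log (mul_pos hc (mul_pos hU hW)) hlow
  have l2 := Real.log_le_log hy hup
  have hM0 : 0 < M := by linarith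
  rw [Real.log_mul hc.ne' (mul_pos hU hW).ne', Real.log_mul hU.ne' hW.ne'] at l1
  rw [Real.log_mul (mul_pos hU hM0).ne' hW.ne', Real.log_mul hU.ne' hM0.ne'] at l2
  rw [abs_le]
  constructor <;> linarith [neg_abs_le (Real.log c), abs_nonneg (Real.log c), Real.log_nonneg hM]

/-- Along a frame the sizes add and the defects stay, up to a constant. -/
theorem exists_frame_est : ∃ C, 0 ≤ C ∧ ∀ (Q : Bool → Fin 3 → M3 k) (z h : Γ), ∃ σ ∈ E.F, ∀ s : Bool,
    |E.m s (z * σ * h) - E.m s z - E.m s h| ≤ C ∧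
      ∀ i, Q s i ≠ 0 → |E.L (Q s i) s (z * σ * h) - E.L (Q s i) s z| ≤ C := by
  set M : ℝ := 1 + ∑ σ ∈ E.F, ∑ s : Bool, 9 * ‖rep E.ρ s σ‖
  have hM1 : 1 ≤ M := le_add_of_nonneg_right (sum_nonneg fun _ _ => sum_nonneg fun _ _ =>
    by positivity)
  have hM : ∀ σ ∈ E.F, ∀ s, 9 * ‖rep E.ρ s σ‖ ≤ M := fun σ hσ s =>
    ((single_le_sum (f := fun s => 9 * ‖rep E.ρ s σ‖) (fun _ _ => by positivity) (mem_univ s)).trans
      (single_le_sum (f := fun σ => ∑ s : Bool, 9 * ‖rep E.ρ s σ‖)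
        (fun _ _ => sum_nonneg fun _ _ => by positivity) hσ)).trans
      (le_add_of_nonneg_left zero_le_one)
  set D : ℝ := |Real.log E.c| + Real.log M
  have hlM : 0 ≤ Real.log M := Real.log_nonneg hM1
  refine ⟨2 * D, by positivity, fun Q z h => ?_⟩
  obtain ⟨σ, hσ, hfr⟩ := E.frames (fun s => ![Q s 0, Q s 1, Q s 2, 1]) z h
  refine ⟨σ, hσ, fun s => ?_⟩
  -- the logarithm of one slot
  have slot : ∀ P : M3 k, P ≠ 0 →
      E.c * (‖P * rep E.ρ s z‖ * ‖rep E.ρ s h‖) ≤ ‖P * rep E.ρ s (z * σ * h)‖ →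
      |Real.log ‖P * rep E.ρ s (z * σ * h)‖ - Real.log ‖P * rep E.ρ s z‖ - E.m s h| ≤ D := by
    intro P hP hlow
    have e : P * rep E.ρ s (z * σ * h) = P * rep E.ρ s z * rep E.ρ s σ * rep E.ρ s h := by
      simp only [rep_mul, mul_assoc]
    rw [e] at hlow ⊢
    exact log_slot_le E.c_pos hM1 (norm_pos_iff.2 (mul_rep_ne_zero hP s z)) (norm_rep_pos s h)
      (hM σ hσ s) hlow
  have h3 : |E.m s (z * σ * h) - E.m s z - E.m s h| ≤ D := by
    have := slot 1 one_ne_zero (by simpa using hfr s 3)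
    simpa [m] using this
  refine ⟨h3.trans (by linarith [(abs_nonneg _).trans h3]), fun i hi => ?_⟩
  have hs := slot (Q s i) hi (by
    have := hfr s i.castSucc
    fin_cases i <;> simpa using this)
  rw [E.L_eq hi, E.L_eq hi]
  rw [abs_le] at hs h3 ⊢
  constructor <;> linarith

/-- The estimates hold. -/
theorem est_ok [Fintype O] : E.EstOK := by
  obtain ⟨C₁, h₁, hfr⟩ := E.exists_frame_est
  obtain ⟨C₂, h₂, hg, hr, ho, hst, hc⟩ := E.exists_cells
  refine ⟨C₁ + C₂, by linarith, fun Q z h => ?_, fun x hx s g => ?_, fun x hx s g => ?_,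
    fun x hx s => ?_, fun x hx s g o i => ?_, fun w w' hw hw' s y y' n a b c => ?_⟩
  · obtain ⟨σ, hσ, hf⟩ := hfr Q z h
    exact ⟨σ, hσ, fun s => ⟨(hf s).1.trans (by linarith),
      fun i hi => ((hf s).2 i hi).trans (by linarith)⟩⟩
  · have := hg x hx s g; constructor <;> linarith
  · have := hr x hx s g; linarith
  · have := ho x hx s; linarith
  · exact (hst x hx s g o i).trans
      (mul_le_mul_of_nonneg_right (le_add_of_nonneg_left h₁) (Real.exp_pos _).le)
  · have := hc w w' hw hw' s y y' n a b c; linarith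

/-! ### The weight -/

theorem En_eq {x : Bool → Fin 3 → k} (hx : IsFlag x) (g : Γ) :
    E.En x g = Real.log ‖rowM (x false) * rep E.ρ false g‖ +
      Real.log ‖rowM (x true) * rep E.ρ true g‖ := by
  rw [En, j, j, E.L_eq (rowM_ne_zero (hx.1 _)), E.L_eq (rowM_ne_zero (hx.1 _))]
  ring

theorem rowM_mul_eq (v : Fin 3 → k) (A : M3 k) : rowM v * A = rowM (v ᵥ* A) := by
  ext i j
  fin_cases i <;> simp [rowM, Matrix.mul_apply, vecMul, dotProduct]

theorem rowM_smul (t : k) (v : Fin 3 → k) : rowM (t • v) = t • rowM v := by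
  ext i j
  fin_cases i <;> simp [rowM]

/-- The weight is a cocycle on flags. -/
theorem cocycle_ok : E.CocycleOK := by
  intro x hx g
  set v : Bool → Fin 3 → k := fun s => x s ᵥ* rep E.ρ s g with hv
  -- divide by a largest coordinate
  have hd : ∀ s, ∃ t : k, t ≠ 0 ∧ ‖v s‖ = ‖t‖ := fun s => by
    obtain ⟨i, hi⟩ := Finite.exists_max fun i => ‖v s i‖
    have he : ‖v s‖ = ‖v s i‖ :=
      le_antisymm ((pi_norm_le_iff_of_nonneg (norm_nonneg _)).2 hi) (norm_le_pi_norm _ i)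
    refine ⟨v s i, fun h0 => mul_rep_ne_zero (ρ := E.ρ) (rowM_ne_zero (hx.1 s)) s g ?_, he⟩
    rw [rowM_mul_eq, ← norm_eq_zero, norm_rowM_eq]
    show ‖v s‖ = 0
    rw [he, h0, norm_zero]
  choose d hd0 hdn using hd
  set x' : Bool → Fin 3 → k := fun s => (d s)⁻¹ • v s with hx'
  have hflag : IsFlag x' := by
    refine ⟨fun s => ?_, ?_⟩
    · rw [IsUnit3, hx', norm_smul, norm_inv, hdn, inv_mul_cancel₀ (norm_ne_zero_iff.2 (hd0 s))]
    · have h0 : v false ⬝ᵥ v true = 0 := by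
        simp only [hv, rep, vecMul_transpose]
        rw [← dotProduct_mulVec, mulVec_mulVec, ← Matrix.SpecialLinearGroup.coe_mul, ← map_mul,
          mul_inv_cancel, map_one, Matrix.SpecialLinearGroup.coe_one, one_mulVec]
        exact hx.2
      calc ∑ i, x' false i * x' true i = x' false ⬝ᵥ x' true := rfl
        _ = 0 := by simp only [hx', smul_dotProduct, dotProduct_smul, h0, smul_zero]
  refine ⟨x', hflag, fun β h => ?_⟩
  have key : ∀ s, Real.log ‖rowM (x s) * rep E.ρ s (g * h)‖ =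
      Real.log ‖rowM (x s) * rep E.ρ s g‖ + Real.log ‖rowM (x' s) * rep E.ρ s h‖ := fun s => by
    rw [← Real.log_mul (norm_pos_iff.2 (mul_rep_ne_zero (rowM_ne_zero (hx.1 s)) s g)).ne'
      (norm_pos_iff.2 (mul_rep_ne_zero (rowM_ne_zero (hflag.1 s)) s h)).ne']
    congr 1
    rw [rep_mul, ← mul_assoc, rowM_mul_eq _ (rep E.ρ s g), hx', rowM_smul, smul_mul_assoc,
      norm_smul, norm_inv, norm_rowM_eq (x s ᵥ* rep E.ρ s g)]
    show _ = ‖v s‖ * _
    rw [hdn, mul_inv_cancel_left₀ (norm_ne_zero_iff.2 (hd0 s))]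
  rw [Wt, Wt, Wt, ← Real.exp_add, E.En_eq hx, E.En_eq hx, E.En_eq hflag, key, key]
  congr 1
  ring

theorem neg_m_inv_le {x : Fin 3 → k} (hx : IsUnit3 x) (s : Bool) (g : Γ) :
    -(E.m s g⁻¹ + Real.log 3) ≤ Real.log ‖rowM x * rep E.ρ s g‖ := by
  have h : (1 : ℝ) ≤ 3 * (‖rowM x * rep E.ρ s g‖ * ‖rep E.ρ s g⁻¹‖) := by
    refine le_trans (le_of_eq ?_) (norm_mul_le3 _ _)
    rw [mul_assoc, ← rep_mul, mul_inv_cancel, rep_one, mul_one, norm_rowM hx]
  have := Real.log_nonneg h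
  have hp := norm_pos_iff.2 (mul_rep_ne_zero (ρ := E.ρ) (rowM_ne_zero hx) s g)
  rw [Real.log_mul three_ne_zero (mul_pos hp (norm_rep_pos s g⁻¹)).ne',
    Real.log_mul hp.ne' (norm_rep_pos s g⁻¹).ne'] at this
  rw [m]
  linarith

variable [DecidableEq Γ] [DecidableEq O] [Fintype O]

/-- Every finite window has some bound. -/
theorem init_ok : E.InitOK := by
  intro p β K h0 h1 hβ
  set b : Γ → ℝ := fun g => Real.exp (β * (E.m false g⁻¹ + E.m true g⁻¹ + 2 * Real.log 3)) with hb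
  have hb0 : ∀ g, 0 ≤ b g := fun g => (Real.exp_pos _).le
  refine ⟨∑ o : O, ∑ y ∈ QT.wball E.nb ((1 : Γ), o) K, b y.1,
    sum_nonneg fun _ _ => sum_nonneg fun y _ => hb0 _, fun x hx o S => ?_⟩
  have hW : ∀ g, E.Wt β x g ≤ b g := fun g => by
    refine Real.exp_le_exp.2 ?_
    rw [← mul_neg]
    refine mul_le_mul_of_nonneg_left ?_ hβ
    rw [E.En_eq hx]
    linarith [E.neg_m_inv_le (hx.1 false) false g, E.neg_m_inv_le (hx.1 true) true g]
  have hτ : ∀ y, 0 ≤ E.tau p K ((1 : Γ), o) y ∧ E.tau p K ((1 : Γ), o) y ≤ 1 := fun y =>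
    ⟨FQ.tauW_nonneg _ h0 h1 _ _ _, FQ.tauW_le_one _ h0 h1 _ _ _⟩
  set W := QT.wball E.nb ((1 : Γ), o) K
  calc ∑ y ∈ S, E.tau p K ((1 : Γ), o) y * E.Wt β x y.1
      = ∑ y ∈ S.filter (· ∈ W), E.tau p K ((1 : Γ), o) y * E.Wt β x y.1 := by
        refine (sum_filter_of_ne fun y _ hy => ?_).symm
        by_contra hW'
        exact hy (by
          rw [show E.tau p K ((1 : Γ), o) y = 0 from
            FQ.tauW_eq_zero E.hl (QT.covers_wball E.hl K) _ p fun hc => hW' hc.1, zero_mul])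
    _ ≤ ∑ y ∈ S.filter (· ∈ W), b y.1 := sum_le_sum fun y _ =>
        (mul_le_of_le_one_left (Real.exp_pos _).le (hτ y).2).trans (hW y.1)
    _ ≤ ∑ y ∈ W, b y.1 :=
        sum_le_sum_of_subset_of_nonneg (fun y hy => (mem_filter.1 hy).2) fun y _ _ => hb0 _
    _ ≤ _ := single_le_sum (f := fun o => ∑ y ∈ QT.wball E.nb ((1 : Γ), o) K, b y.1)
        (fun _ _ => sum_nonneg fun y _ => hb0 _) (mem_univ o)

end Vale.Agent.P165.SL.Env
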