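import Mathlib

/-!
# Intervals of additive sizes in `SL(3, k)` over a normed field

If `y = z * x` and `y = z' * x'` with the sizes of `y` and of its inverse multiplicative in both
factorisations, and `z`, `z'` of comparable sizes, then `z⁻¹ z'` is bounded. The proof splits the
identity along a large column `p` of `y` and a large row `q` of its inverse, corrected so that
`q ⬝ᵥ p = 0`. All sizes are largest norms of entries.
-/

namespace Vale.Agent.P165.SL.Pack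

open Matrix Finset
open scoped Matrix.Norms.Elementwise

variable {k : Type*} [NormedField k]

theorem norm_dot_le (a b : Fin 3 → k) : ‖a ⬝ᵥ b‖ ≤ 3 * (‖a‖ * ‖b‖) := by
  refine (norm_sum_le _ _).trans ((sum_le_card_nsmul _ _ (‖a‖ * ‖b‖) fun i _ => ?_).trans_eq ?_)
  · rw [norm_mul]
    exact mul_le_mul (norm_le_pi_norm a i) (norm_le_pi_norm b i) (norm_nonneg _) (norm_nonneg _)
  · simp

theorem norm_row_le (M : Matrix (Fin 3) (Fin 3) k) (i : Fin 3) : ‖M i‖ ≤ ‖M‖ :=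
  (pi_norm_le_iff_of_nonneg (norm_nonneg M)).2 fun _ => norm_entry_le_entrywise_sup_norm M

theorem norm_col_le (M : Matrix (Fin 3) (Fin 3) k) (i : Fin 3) : ‖fun a => M a i‖ ≤ ‖M‖ :=
  (pi_norm_le_iff_of_nonneg (norm_nonneg M)).2 fun _ => norm_entry_le_entrywise_sup_norm M

theorem norm_mulVec_le (M : Matrix (Fin 3) (Fin 3) k) (v : Fin 3 → k) :
    ‖M *ᵥ v‖ ≤ 3 * (‖M‖ * ‖v‖) :=
  (pi_norm_le_iff_of_nonneg (by positivity)).2 fun i => (norm_dot_le _ _).trans <|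
    mul_le_mul_of_nonneg_left (mul_le_mul_of_nonneg_right (norm_row_le M i) (norm_nonneg v))
      (by norm_num)

theorem norm_mul_le_three (A B : Matrix (Fin 3) (Fin 3) k) : ‖A * B‖ ≤ 3 * (‖A‖ * ‖B‖) := by
  refine (norm_le_iff (by positivity)).2 fun i j => ?_
  rw [mul_apply']
  exact (norm_dot_le _ _).trans <| mul_le_mul_of_nonneg_left
    (mul_le_mul (norm_row_le A i) (norm_col_le B j) (norm_nonneg _) (norm_nonneg _)) (by norm_num)

theorem norm_cross_le (a b : Fin 3 → k) : ‖a ⨯₃ b‖ ≤ 2 * (‖a‖ * ‖b‖) := by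
  refine (pi_norm_le_iff_of_nonneg (by positivity)).2 fun i => ?_
  have h : ∀ i j : Fin 3, ‖a i * b j‖ ≤ ‖a‖ * ‖b‖ := fun i j => by
    rw [norm_mul]
    exact mul_le_mul (norm_le_pi_norm a i) (norm_le_pi_norm b j) (norm_nonneg _) (norm_nonneg _)
  fin_cases i <;>
    exact (norm_sub_le _ _).trans ((add_le_add (h _ _) (h _ _)).trans_eq (two_mul _).symm)

theorem norm_vecMulVec_le (a b : Fin 3 → k) : ‖vecMulVec a b‖ ≤ ‖a‖ * ‖b‖ := by
  refine (norm_le_iff (by positivity)).2 fun i j => ?_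
  rw [vecMulVec_apply, norm_mul]
  exact mul_le_mul (norm_le_pi_norm a i) (norm_le_pi_norm b j) (norm_nonneg _) (norm_nonneg _)

theorem norm_single_le (i : Fin 3) (c : k) : ‖(Pi.single i c : Fin 3 → k)‖ ≤ ‖c‖ := by
  refine (pi_norm_le_iff_of_nonneg (norm_nonneg c)).2 fun j => ?_
  by_cases h : j = i
  · subst h; simp
  · simp [h]

theorem cross_mulVec (M : Matrix (Fin 3) (Fin 3) k) (a b : Fin 3 → k) :
    (M *ᵥ a) ⨯₃ (M *ᵥ b) = M.adjugateᵀ *ᵥ (a ⨯₃ b) := by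
  ext i
  fin_cases i <;>
    simp [cross_apply, mulVec, dotProduct, Fin.sum_univ_three, adjugate_fin_three] <;> ring

/-- The outer product of two cross products. -/
theorem cross_outer (a b c d : Fin 3 → k) :
    vecMulVec (a ⨯₃ b) (c ⨯₃ d) =
      ((a ⬝ᵥ c) * (b ⬝ᵥ d) - (a ⬝ᵥ d) * (b ⬝ᵥ c)) • (1 : Matrix (Fin 3) (Fin 3) k) +
        (a ⬝ᵥ d) • vecMulVec c b + (b ⬝ᵥ c) • vecMulVec d a - (a ⬝ᵥ c) • vecMulVec d b -
        (b ⬝ᵥ d) • vecMulVec c a := by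
  ext i j
  fin_cases i <;> fin_cases j <;>
    simp [vecMulVec_apply, cross_apply, dotProduct, Fin.sum_univ_three] <;> ring

theorem mul_vecMulVec_mul (A B : Matrix (Fin 3) (Fin 3) k) (a b : Fin 3 → k) :
    A * vecMulVec a b * B = vecMulVec (A *ᵥ a) (Bᵀ *ᵥ b) := by
  rw [mul_vecMulVec, vecMulVec_mul, mulVec_transpose]

theorem exists_norm_entry (M : Matrix (Fin 3) (Fin 3) k) : ∃ i j, ‖M‖ = ‖M i j‖ := by
  obtain ⟨ij, h⟩ := Finite.exists_max fun ij : Fin 3 × Fin 3 => ‖M ij.1 ij.2‖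
  exact ⟨ij.1, ij.2, le_antisymm ((norm_le_iff (norm_nonneg _)).2 fun a b => h (a, b))
    (norm_entry_le_entrywise_sup_norm M)⟩

/-- Inverse matrices have sizes with product at least a third. -/
theorem one_le_of_mul {A B : Matrix (Fin 3) (Fin 3) k} (h : A * B = 1) :
    1 ≤ 3 * (‖A‖ * ‖B‖) := by
  refine le_trans (le_of_eq ?_) ((norm_entry_le_entrywise_sup_norm (i := 0) (j := 0) (A * B)).trans
    (norm_mul_le_three A B))
  simp [h]

theorem pos_of_mul {A B : Matrix (Fin 3) (Fin 3) k} (h : A * B = 1) : 0 < ‖A‖ ∧ 0 < ‖B‖ :=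
  ⟨pos_of_mul_pos_left (by linarith [one_le_of_mul h]) (norm_nonneg B),
    pos_of_mul_pos_right (by linarith [one_le_of_mul h]) (norm_nonneg A)⟩

/-- A factor is bounded by the product. -/
theorem size_le {w wi y yi : Matrix (Fin 3) (Fin 3) k} {C : ℝ} (hC : 0 ≤ C) (hy : y * yi = 1)
    (hw : w * wi = 1) (a : ‖w‖ * ‖wi * y‖ ≤ C * ‖y‖) (b : ‖wi‖ * ‖yi * w‖ ≤ C * ‖yi‖) :
    ‖w‖ * ‖wi‖ ≤ 3 * C ^ 2 * (‖y‖ * ‖yi‖) := by
  have hx : (wi * y) * (yi * w) = 1 := by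
    rw [Matrix.mul_assoc, ← Matrix.mul_assoc y yi w, hy, Matrix.one_mul, mul_eq_one_comm.1 hw]
  have h1 := mul_le_mul_of_nonneg_left (one_le_of_mul hx)
    (mul_nonneg (norm_nonneg w) (norm_nonneg wi))
  have h2 := mul_le_mul a b (by positivity) (by positivity)
  linarith

/-- The constant of `norm_div_le`. -/
def packC (C : ℝ) : ℝ := 2 * (3 * C ^ 2 + 60 * C ^ 3 + 720 * C ^ 5) + 18 * C ^ 3

/-- An interval of multiplicative sizes is bounded. -/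
theorem norm_div_le {z zi z' zi' y yi : Matrix (Fin 3) (Fin 3) k} {C : ℝ} (hC : 1 ≤ C)
    (hz : z * zi = 1) (hz' : z' * zi' = 1) (hy : y * yi = 1) (hd : z.det = 1) (hd' : z'.det = 1)
    (h1 : ‖z‖ * ‖zi * y‖ ≤ C * ‖y‖) (h2 : ‖zi‖ * ‖yi * z‖ ≤ C * ‖yi‖)
    (h1' : ‖z'‖ * ‖zi' * y‖ ≤ C * ‖y‖) (h2' : ‖zi'‖ * ‖yi * z'‖ ≤ C * ‖yi‖)
    (e1 : ‖z'‖ ≤ C * ‖z‖) (e1' : ‖z‖ ≤ C * ‖z'‖) (e2 : ‖zi‖ ≤ C * ‖zi'‖)
    (e2' : ‖zi'‖ ≤ C * ‖zi‖) : ‖zi * z'‖ ≤ packC C := by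
  have hC0 : 0 < C := by linarith
  by_cases hsmall : ‖y‖ * ‖yi‖ ≤ 2
  · have h := size_le hC0.le hy hz h1 h2
    have h' := mul_le_mul_of_nonneg_left hsmall (by positivity : 0 ≤ 3 * C ^ 2)
    have h'' := mul_le_mul_of_nonneg_left e1 (norm_nonneg zi)
    have h3 : C * (‖z‖ * ‖zi‖) ≤ C * (6 * C ^ 2) := mul_le_mul_of_nonneg_left (by linarith) hC0.le
    have : 0 ≤ 2 * (3 * C ^ 2 + 60 * C ^ 3 + 720 * C ^ 5) := by positivity
    rw [packC]
    linarith [norm_mul_le_three zi z']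
  push Not at hsmall
  obtain ⟨m, i, hm⟩ := exists_norm_entry y
  obtain ⟨j, l, hl⟩ := exists_norm_entry yi
  set p : Fin 3 → k := fun a => y a i
  set δ : k := yi j ⬝ᵥ p
  set q : Fin 3 → k := yi j - Pi.single m (δ / p m) with hq
  have hY : 0 < ‖y‖ := (pos_of_mul hy).1
  have hpY : ‖p‖ ≤ ‖y‖ := norm_col_le y i
  have hpm : p m ≠ 0 := norm_pos_iff.1 (hm ▸ hY)
  have hδ : ‖δ‖ ≤ 1 := by
    have : δ = (yi * y) j i := rfl
    rw [this, mul_eq_one_comm.1 hy, one_apply]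
    split_ifs <;> simp
  have horth : q ⬝ᵥ p = 0 := by
    rw [hq, sub_dotProduct, single_dotProduct, div_mul_cancel₀ _ hpm, sub_self]
  have hcorr : ‖(Pi.single m (δ / p m) : Fin 3 → k)‖ * ‖y‖ ≤ 1 := by
    refine le_trans (mul_le_mul_of_nonneg_right (norm_single_le _ _) hY.le) ?_
    rw [norm_div, ← hm, div_mul_cancel₀ _ hY.ne']
    exact hδ
  have hV : ‖yi‖ ≤ 2 * ‖q‖ := by
    have hrow : ‖yi‖ ≤ ‖yi j‖ := hl ▸ norm_le_pi_norm (yi j) l
    have hsplit : ‖yi j‖ ≤ ‖q‖ + ‖(Pi.single m (δ / p m) : Fin 3 → k)‖ :=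
      (congrArg norm (sub_add_cancel (yi j) (Pi.single m (δ / p m)))).symm.trans_le (norm_add_le _ _)
    nlinarith
  -- a large coordinate of `q` other than `m`
  obtain ⟨n, hn, hmax⟩ := exists_max_image (univ.erase m) (fun a => ‖q a‖)
    ⟨m + 1, by simp⟩
  have hnm : n ≠ m := (mem_erase.1 hn).1
  have hmax' : ∀ a, a ≠ m → ‖q a‖ ≤ ‖q n‖ := fun a ha => hmax a (mem_erase.2 ⟨ha, mem_univ a⟩)
  have hQ : ‖q‖ ≤ 2 * ‖q n‖ := by
    refine (pi_norm_le_iff_of_nonneg (by positivity)).2 fun a => ?_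
    by_cases ha : a = m
    · subst ha
      have hsum : q a * p a = -∑ b ∈ univ.erase a, q b * p b := by
        rw [eq_neg_iff_add_eq_zero, add_sum_erase univ (fun b => q b * p b) (mem_univ a)]
        exact horth
      refine le_of_mul_le_mul_right ?_ hY
      calc ‖q a‖ * ‖y‖ = ‖∑ b ∈ univ.erase a, q b * p b‖ := by
            rw [hm, ← norm_mul, hsum, norm_neg]
        _ ≤ (univ.erase a).card • (‖q n‖ * ‖y‖) := by
            refine (norm_sum_le _ _).trans (sum_le_card_nsmul _ _ _ fun b hb => ?_)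
            rw [norm_mul]
            exact mul_le_mul (hmax b hb) ((norm_le_pi_norm p b).trans hpY) (norm_nonneg _)
              (norm_nonneg _)
        _ = 2 * ‖q n‖ * ‖y‖ := by simp [card_erase_of_mem]; ring
    · linarith [hmax' a ha, norm_nonneg (q n)]
  -- both corrected vectors are short at a factor
  have key : ∀ {w wi : Matrix (Fin 3) (Fin 3) k}, w * wi = 1 → ‖w‖ * ‖wi * y‖ ≤ C * ‖y‖ →
      ‖wi‖ * ‖yi * w‖ ≤ C * ‖yi‖ → ‖w‖ * ‖wi *ᵥ p‖ ≤ C * ‖y‖ ∧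
        ‖wi‖ * ‖wᵀ *ᵥ q‖ ≤ 20 * C ^ 2 * ‖q‖ := by
    intro w wi hw a b
    constructor
    · exact (mul_le_mul_of_nonneg_left (norm_col_le (wi * y) i) (norm_nonneg w)).trans a
    · have e : wᵀ *ᵥ yi j = (yi * w) j := by
        ext c; simp [mulVec, dotProduct, mul_apply, mul_comm]
      have hv : ‖wᵀ *ᵥ q‖ ≤ ‖yi * w‖ + 3 * (‖w‖ * ‖(Pi.single m (δ / p m) : Fin 3 → k)‖) := by
        rw [hq, mulVec_sub, e]
        refine (norm_sub_le _ _).trans (add_le_add (norm_row_le _ j) ?_)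
        exact (norm_mulVec_le _ _).trans_eq (by rw [norm_transpose])
      have i1 := mul_le_mul_of_nonneg_left hv (norm_nonneg wi)
      have i2 := mul_le_mul_of_nonneg_left (size_le hC0.le hy hw a b)
        (norm_nonneg (Pi.single m (δ / p m) : Fin 3 → k))
      have i3 := mul_le_mul_of_nonneg_left hcorr (by positivity : 0 ≤ 3 * C ^ 2 * ‖yi‖)
      have i4 := mul_le_mul_of_nonneg_left hV (by positivity : 0 ≤ C + 9 * C ^ 2)
      have i5 : C * ‖q‖ ≤ C ^ 2 * ‖q‖ :=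
        mul_le_mul_of_nonneg_right (by nlinarith) (norm_nonneg q)
      linarith
  obtain ⟨a1, a2⟩ := key hz h1 h2
  obtain ⟨b1, b2⟩ := key hz' h1' h2'
  set em : Fin 3 → k := Pi.single m 1
  set en : Fin 3 → k := Pi.single n 1
  have hem : ‖em‖ ≤ 1 := by simpa using norm_single_le (k := k) m 1
  have hen : ‖en‖ ≤ 1 := by simpa using norm_single_le (k := k) n 1
  have adj : ∀ {w wi : Matrix (Fin 3) (Fin 3) k}, w * wi = 1 → w.det = 1 → w.adjugate = wi :=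
    fun {w wi} hw hd => by
      calc w.adjugate = w.adjugate * (w * wi) := by rw [hw, Matrix.mul_one]
        _ = wi := by rw [← Matrix.mul_assoc, adjugate_mul, hd, one_smul, Matrix.one_mul]
  have r1 : zi *ᵥ (q ⨯₃ em) = (zᵀ *ᵥ q) ⨯₃ (zᵀ *ᵥ em) := by
    rw [cross_mulVec, ← adjugate_transpose, transpose_transpose, adj hz hd]
  have r2 : z'ᵀ *ᵥ (p ⨯₃ en) = (zi' *ᵥ p) ⨯₃ (zi' *ᵥ en) := by
    have hdi : zi'.det = 1 := by
      have h := congrArg det hz'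
      rwa [det_mul, hd', one_mul, det_one] at h
    rw [cross_mulVec, adj (mul_eq_one_comm.1 hz') hdi]
  have hsum : (p m * q n) • (zi * z') = q n • vecMulVec (zi *ᵥ p) (z'ᵀ *ᵥ em) +
      p m • vecMulVec (zi *ᵥ en) (z'ᵀ *ᵥ q) -
        vecMulVec (zi *ᵥ (q ⨯₃ em)) (z'ᵀ *ᵥ (p ⨯₃ en)) := by
    have h : (p m * q n) • (1 : Matrix (Fin 3) (Fin 3) k) =
        q n • vecMulVec p em + p m • vecMulVec en q - vecMulVec (q ⨯₃ em) (p ⨯₃ en) := by
      rw [cross_outer, horth]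
      simp only [em, en, dotProduct_single_one, single_one_dotProduct, Pi.single_eq_of_ne hnm]
      simp only [zero_mul, zero_sub, zero_smul, sub_zero, neg_smul, mul_comm (p m)]
      abel
    have h' : (p m * q n) • (zi * z') = zi * ((p m * q n) • 1) * z' := by
      rw [Matrix.mul_smul, Matrix.mul_one, Matrix.smul_mul]
    rw [h', h]
    simp only [Matrix.mul_add, Matrix.add_mul, Matrix.mul_sub, Matrix.sub_mul, Matrix.mul_smul,
      Matrix.smul_mul, mul_vecMulVec_mul]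
  have t1 : ‖zi *ᵥ p‖ * ‖z'ᵀ *ᵥ em‖ ≤ 3 * C ^ 2 * ‖y‖ := by
    have h : ‖z'ᵀ *ᵥ em‖ ≤ 3 * (C * ‖z‖) :=
      (norm_mulVec_le _ _).trans (mul_le_mul_of_nonneg_left
        ((mul_le_of_le_one_right (norm_nonneg _) hem).trans (by rwa [norm_transpose])) (by norm_num))
    have := mul_le_mul_of_nonneg_left a1 hC0.le
    linarith [mul_le_mul_of_nonneg_left h (norm_nonneg (zi *ᵥ p))]
  have t2 : ‖zi *ᵥ en‖ * ‖z'ᵀ *ᵥ q‖ ≤ 60 * C ^ 3 * ‖q‖ := by
    have h : ‖zi *ᵥ en‖ ≤ 3 * (C * ‖zi'‖) :=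
      (norm_mulVec_le _ _).trans (mul_le_mul_of_nonneg_left
        ((mul_le_of_le_one_right (norm_nonneg _) hen).trans e2) (by norm_num))
    have := mul_le_mul_of_nonneg_left b2 hC0.le
    linarith [mul_le_mul_of_nonneg_right h (norm_nonneg (z'ᵀ *ᵥ q))]
  have t3 : ‖zi *ᵥ (q ⨯₃ em)‖ * ‖z'ᵀ *ᵥ (p ⨯₃ en)‖ ≤ 720 * C ^ 5 * (‖y‖ * ‖q‖) := by
    have c1 : ‖zi *ᵥ (q ⨯₃ em)‖ ≤ 6 * (‖zᵀ *ᵥ q‖ * ‖z‖) := by
      rw [r1]
      refine (norm_cross_le _ _).trans ?_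
      have h : ‖zᵀ *ᵥ em‖ ≤ 3 * ‖z‖ := (norm_mulVec_le _ _).trans (mul_le_mul_of_nonneg_left
        (by rw [norm_transpose]; exact mul_le_of_le_one_right (norm_nonneg _) hem) (by norm_num))
      linarith [mul_le_mul_of_nonneg_left h (norm_nonneg (zᵀ *ᵥ q))]
    have c2 : ‖z'ᵀ *ᵥ (p ⨯₃ en)‖ ≤ 6 * (‖zi' *ᵥ p‖ * ‖zi'‖) := by
      rw [r2]
      refine (norm_cross_le _ _).trans ?_
      have h : ‖zi' *ᵥ en‖ ≤ 3 * ‖zi'‖ := (norm_mulVec_le _ _).trans (mul_le_mul_of_nonneg_left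
        (mul_le_of_le_one_right (norm_nonneg _) hen) (by norm_num))
      linarith [mul_le_mul_of_nonneg_left h (norm_nonneg (zi' *ᵥ p))]
    have d1 : ‖zᵀ *ᵥ q‖ * ‖zi'‖ ≤ C * (20 * C ^ 2 * ‖q‖) :=
      (mul_le_mul_of_nonneg_left e2' (norm_nonneg _)).trans
        (le_of_eq_of_le (by ring) (mul_le_mul_of_nonneg_left a2 hC0.le))
    have d2 : ‖z‖ * ‖zi' *ᵥ p‖ ≤ C * (C * ‖y‖) :=
      (mul_le_mul_of_nonneg_right e1' (norm_nonneg _)).trans
        (le_of_eq_of_le (by ring) (mul_le_mul_of_nonneg_left b1 hC0.le))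
    have h := mul_le_mul c1 c2 (norm_nonneg _) (by positivity)
    have h' := mul_le_mul d1 d2 (by positivity) (by positivity)
    linarith
  have htot : ‖p m * q n‖ * ‖zi * z'‖ ≤
      (3 * C ^ 2 + 60 * C ^ 3 + 720 * C ^ 5) * (‖y‖ * ‖q‖) := by
    rw [← norm_smul, hsum]
    refine (norm_sub_le _ _).trans
      ((add_le_add (norm_add_le _ _) (norm_vecMulVec_le _ _)).trans ?_)
    rw [norm_smul, norm_smul]
    have u1 := (mul_le_mul_of_nonneg_left (norm_vecMulVec_le (zi *ᵥ p) (z'ᵀ *ᵥ em))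
      (norm_nonneg (q n))).trans (mul_le_mul (norm_le_pi_norm q n) t1 (by positivity) (norm_nonneg q))
    have u2 := (mul_le_mul_of_nonneg_left (norm_vecMulVec_le (zi *ᵥ en) (z'ᵀ *ᵥ q))
      (norm_nonneg (p m))).trans
      (mul_le_mul ((norm_le_pi_norm p m).trans hpY) t2 (by positivity) hY.le)
    linarith
  have hQ0 : 0 < ‖y‖ * ‖q‖ := by nlinarith
  refine le_of_mul_le_mul_right ?_ hQ0
  have hlow : ‖y‖ * ‖q‖ ≤ 2 * ‖p m * q n‖ := by
    rw [norm_mul, ← hm]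
    linarith [mul_le_mul_of_nonneg_left hQ hY.le]
  have hpack : 0 ≤ 18 * C ^ 3 * (‖y‖ * ‖q‖) := by positivity
  have := mul_le_mul_of_nonneg_right hlow (norm_nonneg (zi * z'))
  rw [packC]
  linarith

end Vale.Agent.P165.SL.Pack
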