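import Vale.Agent.P165.SL.Assembly
import Vale.Agent.P165.SL.Density
import Vale.Agent.P165.SL.Pack

/-!
# P165, SL route: a dense representation has frames; points over discrete subrings

`frames_ok` turns Zariski density into frames and `infinite_of_dense` gives infinitely many elements.
The points over an infinite subring with finite balls are a discrete dense example: the integers in
the reals and the Gaussian integers in the complex numbers.
-/

namespace Vale.Agent.P165.SL

open Matrix
open scoped Matrix.Norms.Elementwise MatrixGroups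

variable {k : Type} [NontriviallyNormedField k] {Γ : Type} [Group Γ] (ρ : Γ →* SL(3, k))

lemma rep_mul (s : Bool) (g h : Γ) : rep ρ s (g * h) = rep ρ s g * rep ρ s h := by
  cases s
  · simp [rep]
  · simp [rep, transpose_mul]

lemma rep_eq_twist (s : Bool) (g : Γ) : rep ρ s g = twist s (ρ g : M3 k) := by
  cases s
  · rfl
  · simp [rep, twist]

/-- A dense representation has frames. -/
theorem frames_ok [ProperSpace k] (hρ : Dense ρ) : FramesOK ρ := by
  classical
  have hS : ZariskiDense (Set.range fun g => (ρ g : M3 k)) := fun f hf a ha =>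
    hρ f (fun g => hf _ ⟨g, rfl⟩) ⟨a, ha⟩
  obtain ⟨F, c, hc, hFS, hF⟩ := exists_frames (fun i : Bool × Fin 4 => twist i.1)
    (zariskiDense_generic hS fun i : Bool × Fin 4 => i.1)
  choose pre hpre using fun g : F => hFS g.2
  refine ⟨Finset.univ.image pre, c, hc, fun Q z h => ?_⟩
  -- the largest entry of each left factor and of each right factor
  let X : Bool × Fin 4 → M3 k := fun i => Q i.1 i.2 * rep ρ i.1 z
  let Y : Bool × Fin 4 → M3 k := fun i => rep ρ i.1 h
  choose a a' ha using fun i => Pack.exists_norm_entry (X i)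
  choose b' b hb using fun i => Pack.exists_norm_entry (Y i)
  obtain ⟨g, hg, hbd⟩ := hF (fun i => fun l => X i (a i) l) (fun i => fun l => Y i l (b i))
  refine ⟨pre ⟨g, hg⟩, Finset.mem_image_of_mem _ (Finset.mem_univ _), fun s i => ?_⟩
  set r : Fin 3 → k := fun l => X (s, i) (a (s, i)) l
  set u : Fin 3 → k := fun l => Y (s, i) l (b (s, i))
  have hX : ‖X (s, i)‖ ≤ ‖r‖ := (ha (s, i)).trans_le (norm_le_pi_norm r _)
  have hY : ‖Y (s, i)‖ ≤ ‖u‖ := (hb (s, i)).trans_le (norm_le_pi_norm u _)
  have hentry : r ⬝ᵥ (twist s g *ᵥ u) =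
      (X (s, i) * (twist s g * Y (s, i))) (a (s, i)) (b (s, i)) := rfl
  calc c * (‖X (s, i)‖ * ‖Y (s, i)‖) ≤ c * (‖r‖ * ‖u‖) :=
        mul_le_mul_of_nonneg_left (mul_le_mul hX hY (norm_nonneg _) (norm_nonneg _)) hc.le
    _ ≤ ‖r ⬝ᵥ (twist s g *ᵥ u)‖ := hbd (s, i)
    _ ≤ ‖X (s, i) * (twist s g * Y (s, i))‖ := hentry ▸ abs_entry_le _ _ _
    _ = ‖Q s i * rep ρ s (z * pre ⟨g, hg⟩ * h)‖ := by
        have hp : (ρ (pre ⟨g, hg⟩) : M3 k) = g := hpre ⟨g, hg⟩
        rw [rep_mul, rep_mul, rep_eq_twist ρ s (pre ⟨g, hg⟩), hp]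
        simp only [X, Y, Matrix.mul_assoc]

/-- A group with a dense representation is infinite. -/
theorem infinite_of_dense (hρ : Dense ρ) : Infinite Γ := by
  classical
  by_contra h
  rw [not_infinite_iff_finite] at h
  have := Fintype.ofFinite Γ
  -- some transvection avoids the finitely many values of one entry
  obtain ⟨t, ht⟩ := (Finset.univ.image fun g : Γ => (ρ g : M3 k) 0 1).exists_notMem
  have hdet : (transvection (0 : Fin 3) 1 t).det = 1 := det_transvection_of_ne _ _ (by decide) t
  have hz := hρ (∏ g : Γ, (MvPolynomial.X (0, 1) - MvPolynomial.C ((ρ g : M3 k) 0 1)))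
    (fun g => by
      rw [map_prod]
      exact Finset.prod_eq_zero (Finset.mem_univ g) (by simp)) ⟨_, hdet⟩
  rw [map_prod] at hz
  obtain ⟨g, -, hg⟩ := Finset.prod_eq_zero_iff.1 hz
  refine ht (Finset.mem_image.2 ⟨g, Finset.mem_univ g, ?_⟩)
  simp [transvection] at hg
  exact (sub_eq_zero.1 hg).symm

/-! ### Points over a subring -/

/-- The inclusion of the points over a ring. -/
def ringHom {R : Type} [CommRing R] (φ : R →+* k) : SL(3, R) →* SL(3, k) :=
  SpecialLinearGroup.map φ

/-- The points over an infinite subring are Zariski dense. -/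
theorem ringHom_dense {R : Type} [CommRing R] [Infinite R] (φ : R →+* k)
    (hφ : Function.Injective φ) : Dense (ringHom φ) := fun f hf a =>
  ringSL_zariskiDense φ hφ f (by rintro _ ⟨A, hA, rfl⟩; exact hf ⟨A, hA⟩) a a.2

/-- The points over a subring with finite balls are discrete. -/
theorem ringHom_discrete {R : Type} [CommRing R] (φ : R →+* k)
    (hfin : ∀ C : ℝ, {r : R | ‖φ r‖ ≤ C}.Finite) (C : ℝ) :
    {g : SL(3, R) | ∀ i j, ‖(ringHom φ g : M3 k) i j‖ ≤ C}.Finite := by
  classical
  have hbox : {A : Matrix (Fin 3) (Fin 3) R | ∀ a b, ‖φ (A a b)‖ ≤ C}.Finite := by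
    refine (Fintype.piFinset fun _ : Fin 3 => Fintype.piFinset fun _ : Fin 3 =>
      (hfin C).toFinset).finite_toSet.subset fun A hA => ?_
    simp only [Finset.mem_coe, Fintype.mem_piFinset]
    exact fun a b => (hfin C).mem_toFinset.2 (hA a b)
  exact (hbox.preimage Subtype.val_injective.injOn).subset fun g hg a b => hg a b

/-- The inclusion of the integer points. -/
noncomputable def intHom : SL(3, ℤ) →* SL(3, ℝ) := ringHom (Int.castRingHom ℝ)

lemma intHom_injective : Function.Injective intHom := fun g h hgh => by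
  ext i j
  have := congrArg (fun A : SL(3, ℝ) => (A : M3 ℝ) i j) hgh
  simpa [intHom, ringHom] using this

/-- The integer points are Zariski dense. -/
theorem intHom_dense : Dense intHom := ringHom_dense _ Int.cast_injective

/-- The integer points are discrete. -/
theorem intHom_discrete (C : ℝ) :
    {g : SL(3, ℤ) | ∀ i j, ‖(intHom g : M3 ℝ) i j‖ ≤ C}.Finite :=
  ringHom_discrete (Int.castRingHom ℝ) (fun C => (Set.finite_Icc (-⌈C⌉) ⌈C⌉).subset fun r (hr : ‖(r : ℝ)‖ ≤ C) => by
    have h : |(r : ℝ)| ≤ (⌈C⌉ : ℝ) := hr.trans (Int.le_ceil C)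
    rw [← Int.cast_abs] at h
    exact abs_le.1 (by exact_mod_cast h)) C

/-- The integer points have frames. -/
theorem intHom_frames : FramesOK intHom := frames_ok intHom intHom_dense

/-- There are infinitely many integer points. -/
theorem intHom_infinite : Infinite SL(3, ℤ) := infinite_of_dense intHom intHom_dense

/-- The inclusion of the points over the Gaussian integers. -/
noncomputable def gaussHom : SL(3, GaussianInt) →* SL(3, ℂ) := ringHom GaussianInt.toComplex

/-- The points over the Gaussian integers are Zariski dense. -/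
theorem gaussHom_dense : Dense gaussHom :=
  haveI : Infinite GaussianInt :=
    Infinite.of_injective (fun n : ℤ => (n : GaussianInt)) Int.cast_injective
  ringHom_dense _ fun _ _ h => GaussianInt.toComplex_inj.1 h

/-- The points over the Gaussian integers are discrete. -/
theorem gaussHom_discrete (C : ℝ) :
    {g : SL(3, GaussianInt) | ∀ i j, ‖(gaussHom g : M3 ℂ) i j‖ ≤ C}.Finite :=
  ringHom_discrete _ (fun C => by
    refine ((Set.finite_Icc (-⌈C⌉) ⌈C⌉).prod (Set.finite_Icc (-⌈C⌉) ⌈C⌉)).preimage
      (f := fun r : GaussianInt => (r.re, r.im)) (fun _ _ _ _ h => ?_) |>.subset fun r hr => ?_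
    · simp only [Prod.mk.injEq] at h
      exact Zsqrtd.ext h.1 h.2
    · have hre : |(r.re : ℝ)| ≤ (⌈C⌉ : ℝ) := by
        rw [GaussianInt.intCast_re]
        exact ((Complex.abs_re_le_norm _).trans hr).trans (Int.le_ceil C)
      have him : |(r.im : ℝ)| ≤ (⌈C⌉ : ℝ) := by
        rw [GaussianInt.intCast_im]
        exact ((Complex.abs_im_le_norm _).trans hr).trans (Int.le_ceil C)
      rw [← Int.cast_abs] at hre him
      exact ⟨abs_le.1 (by exact_mod_cast hre), abs_le.1 (by exact_mod_cast him)⟩) C

/-- The points over the Gaussian integers have frames. -/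
theorem gaussHom_frames : FramesOK gaussHom := frames_ok gaussHom gaussHom_dense

end Vale.Agent.P165.SL
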