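import Vale.Agent.P165.SL.Base
import Vale.Agent.P165.FQ.Entrance

/-!
# Discrete images in degree three: percolation steps

The branch bound from the inequality for increasing events, splitting at the last entrance, Schur's
test and the passage to the parameter itself.
-/

namespace Vale.Agent.P165.SL.Env

open Finset FF

variable {k : Type} [NontriviallyNormedField k] {Γ O ι : Type} [Group Γ] [Fintype ι] [DecidableEq Γ] [DecidableEq O] (E : Env k Γ O ι)

/-! ### Windows -/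

theorem tauW_le_tau {p : ℝ} (h0 : 0 ≤ p) (h1 : p ≤ 1) (S : Finset (Γ × O)) (K : ℕ)
    (a y : Γ × O) : FQ.tauW E.nb S p a y K ≤ E.tau p K a y :=
  FQ.tauW_le_window E.hl (QT.covers_wball E.hl K) S h0 h1 a y

theorem tau_nonneg {p : ℝ} (h0 : 0 ≤ p) (h1 : p ≤ 1) (K : ℕ) (a y : Γ × O) :
    0 ≤ E.tau p K a y :=
  FQ.tauW_nonneg _ h0 h1 _ _ _

theorem tau_comm {p : ℝ} (h0 : 0 ≤ p) (h1 : p ≤ 1) (K : ℕ) (a y : Γ × O) :
    E.tau p K a y = E.tau p K y a := by
  refine le_antisymm ?_ ?_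
  · rw [tau, FQ.tauW_comm]
    exact E.tauW_le_tau h0 h1 _ K y a
  · rw [tau, FQ.tauW_comm]
    exact E.tauW_le_tau h0 h1 _ K a y

theorem tau_tr (g : Γ) (p : ℝ) (K : ℕ) (a y : Γ × O) :
    E.tau p K (tr g a) (tr g y) = E.tau p K a y := by
  have h := QT.image_wball E.hl (trIso E.hinv g) a K
  have h' := FQ.tauW_map E.hl (trIso E.hinv g) (QT.wball E.nb a K) p a y K
  rw [h] at h'
  exact h'

theorem tau_base (p : ℝ) (K : ℕ) (a y : Γ × O) :
    E.tau p K a y = E.tau p K ((1 : Γ), a.2) (tr a.1⁻¹ y) := by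
  rw [← E.tau_tr a.1⁻¹ p K a y]
  simp [tr]

/-- The rows seen from any vertex. -/
theorem row_le (hc : E.CocycleOK) {p β B : ℝ} {K : ℕ} (hB : E.RowBound p β K B)
    {x : Bool → Fin 3 → k} (hx : IsFlag x) (z : Γ × O) (S : Finset (Γ × O)) :
    ∑ y ∈ S, E.tau p K z y * E.Wt β x y.1 ≤ E.Wt β x z.1 * B := by
  obtain ⟨x', hx', hW⟩ := hc x hx z.1
  calc ∑ y ∈ S, E.tau p K z y * E.Wt β x y.1
      = ∑ y ∈ S.image (tr z.1⁻¹),
          E.Wt β x z.1 * (E.tau p K ((1 : Γ), z.2) y * E.Wt β x' y.1) := by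
        rw [sum_image fun a _ b _ h => tr_injective z.1⁻¹ h]
        refine sum_congr rfl fun y _ => ?_
        rw [← E.tau_base p K z y, mul_left_comm, ← hW, tr, mul_inv_cancel_left]
    _ ≤ _ := by
        rw [← mul_sum]
        exact mul_le_mul_of_nonneg_left (hB x' hx' z.2 _) (Real.exp_pos _).le

/-! ### Splitting, Schur's test and limits -/

theorem split_ok (hc : E.CocycleOK) : E.SplitOK := by
  classical
  intro p β B K C h0 h1 _ hC hB x hx o S
  set a : Γ × O := ((1 : Γ), o)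
  set W := QT.wball E.nb a K
  set Z := W.filter fun z => z.1 ∈ C ∧ ∃ (o' : O) (i : ι), z.1 * (E.nb ((1 : Γ), o') i).1 ∉ C
  refine ⟨S.filter fun y => y.1 ∉ C, Z, fun y hy => (mem_filter.1 hy).2,
    fun z hz => mem_filter.1 hz, ?_⟩
  rw [← sum_filter_add_sum_filter_not S fun y => y.1 ∉ C]
  refine add_le_add le_rfl ?_
  have key : ∀ y ∈ S.filter (fun y => ¬y.1 ∉ C),
      E.tau p K a y * E.Wt β x y.1 ≤
        ∑ z ∈ Z, E.tau p K a z * (E.tau p K z y * E.Wt β x y.1) := by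
    intro y hy
    have hyC : y.1 ∈ C := not_not.1 (mem_filter.1 hy).2
    have hent := FQ.tauW_last_entrance E.hl W W {v | v.1 ∈ C} Z h0 h1 (a := a) hC
      (fun u v huv hu hv hvW => ?_) (fun _ hv _ => hv) hyC K
    · refine (mul_le_mul_of_nonneg_right hent (Real.exp_pos _).le).trans ?_
      rw [sum_mul]
      refine sum_le_sum fun z _ => ?_
      rw [mul_assoc]
      exact mul_le_mul_of_nonneg_left
        (mul_le_mul_of_nonneg_right (E.tauW_le_tau h0 h1 W K z y) (Real.exp_pos _).le)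
        (E.tau_nonneg h0 h1 K a z)
    · refine mem_filter.2 ⟨hvW, hv, v.2, ?_⟩
      have hadj : E.G.Adj ((1 : Γ), v.2) (tr v.1⁻¹ u) := by
        have := (E.hinv v.1⁻¹ v u).2 huv.symm
        simpa [tr] using this
      obtain ⟨i, hi⟩ := (E.hl.adj _ _).1 hadj
      refine ⟨i, ?_⟩
      rw [hi]
      simpa [tr] using hu
  calc _ ≤ ∑ y ∈ S.filter (fun y => ¬y.1 ∉ C),
        ∑ z ∈ Z, E.tau p K a z * (E.tau p K z y * E.Wt β x y.1) := sum_le_sum key
    _ ≤ ∑ z ∈ Z, E.tau p K a z * (E.Wt β x z.1 * B) := by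
        rw [sum_comm]
        refine sum_le_sum fun z _ => ?_
        rw [← mul_sum]
        exact mul_le_mul_of_nonneg_left (E.row_le hc hB hx z _) (E.tau_nonneg h0 h1 K a z)
    _ = _ := by
        rw [mul_sum]
        exact sum_congr rfl fun z _ => by ring

theorem schur_ok (hc : E.CocycleOK) : E.SchurOK := by
  classical
  intro p β B n h0 h1 hB hBn F f hf
  set x₀ : Bool → Fin 3 → k := fun s => if s then Pi.single 0 1 else Pi.single 1 1
  have hx : IsFlag x₀ :=
    ⟨fun s => by cases s <;> simp [x₀, IsUnit3, Pi.norm_single],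
      by simp [x₀, Pi.single_apply]⟩
  set φ : Γ × O → ℝ := fun v => E.Wt β x₀ v.1 with hφ
  have hpos : ∀ v, 0 < φ v := fun v => Real.exp_pos _
  set t : Γ × O → Γ × O → ℝ := fun x y => E.tau p n x y
  have htc : ∀ x y, t x y = t y x := fun x y => E.tau_comm h0 h1 n x y
  have hpt : ∀ x y, f x * f y * t x y ≤
      (f x ^ 2 / φ x * (t x y * φ y) + f y ^ 2 / φ y * (t y x * φ x)) / 2 := by
    intro x y
    have hd := mul_pos (hpos x) (hpos y)
    have h2 : f x ^ 2 / φ x * (t x y * φ y) + f y ^ 2 / φ y * (t y x * φ x) =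
        t x y * ((f x * φ y) ^ 2 + (f y * φ x) ^ 2) / (φ x * φ y) := by
      rw [← htc x y]
      field_simp [(hpos x).ne', (hpos y).ne']
    rw [h2, div_div, le_div_iff₀ (mul_pos hd two_pos)]
    nlinarith [mul_nonneg (E.tau_nonneg h0 h1 n x y) (sq_nonneg (f x * φ y - f y * φ x))]
  have hS : ∑ x ∈ F, ∑ y ∈ F, f x ^ 2 / φ x * (t x y * φ y) ≤ B * ∑ x ∈ F, f x ^ 2 := by
    rw [mul_sum]
    refine sum_le_sum fun x _ => ?_
    rw [← mul_sum]
    refine (mul_le_mul_of_nonneg_left (E.row_le hc hB hx x F)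
      (div_nonneg (sq_nonneg _) (hpos x).le)).trans (le_of_eq ?_)
    change f x ^ 2 / φ x * (φ x * B) = _
    field_simp [(hpos x).ne']
  calc ∑ x ∈ F, ∑ y ∈ F, f x * f y * t x y
      ≤ ∑ x ∈ F, ∑ y ∈ F,
          (f x ^ 2 / φ x * (t x y * φ y) + f y ^ 2 / φ y * (t y x * φ x)) / 2 :=
        sum_le_sum fun x _ => sum_le_sum fun y _ => hpt x y
    _ = ∑ x ∈ F, ∑ y ∈ F, f x ^ 2 / φ x * (t x y * φ y) := by
        simp only [← sum_div, sum_add_distrib]
        rw [sum_comm (f := fun x y => f y ^ 2 / φ y * (t y x * φ x))]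
        ring
    _ ≤ _ := hS.trans (mul_le_mul_of_nonneg_right (by linarith)
        (sum_nonneg fun x _ => sq_nonneg _))

theorem limit_ok : E.LimitOK := by
  intro p η n h0 _ h F f hf
  have hcont : Continuous fun q : ℝ => ∑ x ∈ F, ∑ y ∈ F,
      f x * f y * FQ.tauW E.nb (QT.wball E.nb x n) q x y n := by
    refine continuous_finsetSum _ fun x _ => continuous_finsetSum _ fun y _ => ?_
    exact continuous_const.mul (FQ.tauW_continuous _ x y n)
  refine le_of_tendsto (x := nhdsWithin p (Set.Iio p))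
    ((hcont.tendsto p).mono_left nhdsWithin_le_nhds) ?_
  filter_upwards [Ioo_mem_nhdsLT (show p / 2 < p by linarith)] with q hq
  exact h q hq.1.le hq.2 F f hf

/-! ### The branch bound -/

variable [Fintype O]

theorem sum_anc_bdd {q : ℝ} (h0 : 0 ≤ q) (h1 : q ≤ 1) (hw : Witness E.nb q) :
    ∃ X : ℝ, ∀ U : Finset Γ, ∑ g ∈ U, E.anc q g ≤ X := by
  obtain ⟨X, hX⟩ := susceptibility E.hl E.hinv h0 h1 hw
  refine ⟨X, fun U => ?_⟩
  have h := sum_T_le E.hl h0 h1 ((1 : Γ), E.o₁) (U.image fun g => (g, E.o₁)) fun S => hX S _ _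
  rw [sum_image fun a _ b _ h => congrArg Prod.fst h] at h
  exact h

theorem branch_ok {p : ℝ} (hs : FQ.Sub E.nb p) : E.BranchOK p := by
  classical
  obtain ⟨hp0, hp1, hwit⟩ := hs
  have hh0 : 0 < p / 2 := by linarith
  have hh1 : p / 2 ≤ 1 := by linarith
  set b : Γ × O → Γ × O → ℝ := fun x y => (T E.nb (p / 2) x y)⁻¹
  have hb0 : ∀ x y, 0 ≤ b x y := fun x y => inv_nonneg.2 (T_nonneg hh0.le hh1 x y)
  set Ca : ℝ := ∑ σ ∈ E.F, b ((1 : Γ), E.o₁) (σ, E.o₁)
  set C₁ : ℝ := ∑ o : O, b ((1 : Γ), E.o₁) ((1 : Γ), o)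
  set C₂ : ℝ := ∑ o : O, b ((1 : Γ), o) ((1 : Γ), E.o₁)
  have hCa : 0 ≤ Ca := sum_nonneg fun _ _ => hb0 _ _
  have hC₁ : 0 ≤ C₁ := sum_nonneg fun _ _ => hb0 _ _
  have hC₂ : 0 ≤ C₂ := sum_nonneg fun _ _ => hb0 _ _
  refine ⟨Ca * E.F.card + C₁ * C₂, by positivity, fun q hq hqp => ?_⟩
  have hq0 : 0 ≤ q := hh0.le.trans hq
  have hq1 : q ≤ 1 := hqp.le.trans hp1
  -- A fixed edge costs a constant.
  have hone : ∀ x y, 1 ≤ b x y * T E.nb q x y := fun x y => by
    have h := T_pos E.hl E.conn hh0 hh1 x y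
    rw [← inv_mul_cancel₀ h.ne']
    exact mul_le_mul_of_nonneg_left (T_mono hh0.le hq hq1 x y) (hb0 x y)
  have hTn : ∀ x y, 0 ≤ T E.nb q x y := fun x y => T_nonneg hq0 hq1 x y
  have hT : ∀ x y z, T E.nb q x y * T E.nb q y z ≤ T E.nb q x z := fun x y z =>
    T_trans E.hl hq0 hq1 x y z
  have hshift : ∀ (g : Γ) (o o' : O),
      T E.nb q (g, o) (g, o') = T E.nb q ((1 : Γ), o) ((1 : Γ), o') := fun g o o' => by
    rw [← T_tr E.hl E.hinv g hq0 hq1 ((1 : Γ), o) ((1 : Γ), o')]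
    simp [tr]
  refine ⟨fun η hη => ?_, fun K a y => ?_⟩
  · obtain ⟨X, hX⟩ := E.sum_anc_bdd hq0 hq1 (hwit q hq0 hqp)
    set V := Set.range fun U : Finset Γ => ∑ g ∈ U, E.anc q g
    have hV : BddAbove V := ⟨X, by rintro _ ⟨U, rfl⟩; exact hX U⟩
    have hn : ∀ g, 0 ≤ E.anc q g := fun g => hTn _ _
    obtain ⟨_, ⟨U₀, rfl⟩, hU₀⟩ :=
      exists_lt_of_lt_csSup ⟨_, Set.mem_range_self (∅ : Finset Γ)⟩
        (show sSup V - η < sSup V by linarith)
    set U := insert (1 : Γ) U₀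
    have hSU : 1 ≤ ∑ g ∈ U, E.anc q g :=
      (T_self hq0 hq1 ((1 : Γ), E.o₁)).ge.trans
        (single_le_sum (f := E.anc q) (fun g _ => hn g) (mem_insert_self 1 U₀))
    have hout : ∀ Y : Finset Γ, ∑ g ∈ Y \ U, E.anc q g ≤ η * ∑ g ∈ U, E.anc q g := by
      intro Y
      have h₁ := le_csSup hV ⟨Y \ U ∪ U, rfl⟩
      have h₂ : ∑ g ∈ U₀, E.anc q g ≤ ∑ g ∈ U, E.anc q g :=
        sum_le_sum_of_subset_of_nonneg (subset_insert _ _) fun g _ _ => hn g
      simp only [sum_union sdiff_disjoint] at h₁ hU₀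
      refine le_trans (?_ : _ ≤ η) (le_mul_of_one_le_right hη.le hSU)
      linarith
    refine ⟨U, by linarith, fun Z w R N δ hN hw hR hcand hsmall => ?_⟩
    set f : Γ × Γ → Γ := fun u => u.1 * R u.1 u.2 * u.2
    set P := Z ×ˢ U
    set Y := P.image f
    have hfkg : ∀ z h, E.anc q z * E.anc q h ≤ Ca * E.anc q (z * R z h * h) := by
      intro z h
      set σ := R z h
      have e₁ : T E.nb q (z, E.o₁) (z * σ, E.o₁) = E.anc q σ := by
        rw [anc, ← T_tr E.hl E.hinv z hq0 hq1 ((1 : Γ), E.o₁) (σ, E.o₁)]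
        simp [tr]
      have e₂ : T E.nb q (z * σ, E.o₁) (z * σ * h, E.o₁) = E.anc q h := by
        rw [anc, ← T_tr E.hl E.hinv (z * σ) hq0 hq1 ((1 : Γ), E.o₁) (h, E.o₁)]
        simp [tr]
      have h3 : E.anc q z * E.anc q σ * E.anc q h ≤ E.anc q (z * σ * h) := by
        conv_lhs => rw [← e₁, ← e₂]
        exact (mul_le_mul_of_nonneg_right (hT _ _ _) (hTn _ _)).trans (hT _ _ _)
      have h4 : 1 ≤ Ca * E.anc q σ := (hone _ _).trans (mul_le_mul_of_nonneg_right
        (single_le_sum (f := fun σ => b ((1 : Γ), E.o₁) (σ, E.o₁)) (fun _ _ => hb0 _ _) (hR z h))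
        (hTn _ _))
      calc E.anc q z * E.anc q h ≤ E.anc q z * E.anc q h * (Ca * E.anc q σ) :=
            le_mul_of_one_le_right (mul_nonneg (hn _) (hn _)) h4
        _ = Ca * (E.anc q z * E.anc q σ * E.anc q h) := by ring
        _ ≤ _ := mul_le_mul_of_nonneg_left h3 hCa
    have hfib : ∀ y, ∑ u ∈ P.filter (fun u => f u = y), w u.1 ≤ E.F.card * N := by
      intro y
      set Z' := (P.filter fun u => f u = y).image Prod.fst
      have hcard : ∀ z, ((P.filter fun u => f u = y).filter fun u => u.1 = z).card ≤ E.F.card := by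
        intro z
        refine card_le_card_of_injOn (fun u => R u.1 u.2) (fun u _ => hR _ _) ?_
        intro u hu v hv huv
        simp only [coe_filter, mem_filter, Set.mem_ofPred_eq] at hu hv
        have h1 : u.1 * R u.1 u.2 * u.2 = v.1 * R v.1 v.2 * v.2 := hu.1.2.trans hv.1.2.symm
        have h2 : R u.1 u.2 = R v.1 v.2 := huv
        rw [h2, hu.2.trans hv.2.symm] at h1
        exact Prod.ext (hu.2.trans hv.2.symm) (mul_left_cancel h1)
      have hZ' : ∑ z ∈ Z', w z ≤ N := by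
        refine hcand y Z' (fun z hz => ?_) fun z hz => ?_
        · obtain ⟨u, hu, rfl⟩ := mem_image.1 hz
          exact (mem_product.1 (mem_filter.1 hu).1).1
        · obtain ⟨u, hu, rfl⟩ := mem_image.1 hz
          exact ⟨u.2, (mem_filter.1 hu).2⟩
      calc ∑ u ∈ P.filter (fun u => f u = y), w u.1
          = ∑ z ∈ Z', ((P.filter fun u => f u = y).filter fun u => u.1 = z).card * w z := by
            rw [← sum_fiberwise_of_maps_to (g := Prod.fst) fun u hu => mem_image_of_mem _ hu]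
            refine sum_congr rfl fun z _ => ?_
            rw [sum_congr rfl fun u hu => by rw [(mem_filter.1 hu).2], sum_const, nsmul_eq_mul]
        _ ≤ ∑ z ∈ Z', (E.F.card : ℝ) * w z := sum_le_sum fun z _ =>
            mul_le_mul_of_nonneg_right (Nat.cast_le.2 (hcard z)) (hw z)
        _ ≤ _ := by
            rw [← mul_sum]
            exact mul_le_mul_of_nonneg_left hZ' (Nat.cast_nonneg _)
    have hY : ∑ y ∈ Y, E.anc q y ≤ (δ + η) * ∑ y ∈ U, E.anc q y := by
      rw [← sum_inter_add_sum_sdiff Y U, add_mul]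
      refine add_le_add (hsmall _ inter_subset_right fun y hy => ?_) (hout Y)
      obtain ⟨u, hu, rfl⟩ := mem_image.1 (mem_inter.1 hy).1
      exact ⟨u.1, (mem_product.1 hu).1, u.2, rfl⟩
    have hδ : 0 ≤ δ + η :=
      nonneg_of_mul_nonneg_left ((sum_nonneg fun y _ => hn y).trans hY) (by linarith)
    refine le_trans (le_of_mul_le_mul_right (?_ : _ ≤ Ca * E.F.card * N * (δ + η) * _)
      (lt_of_lt_of_le one_pos hSU)) ?_
    · calc (∑ z ∈ Z, w z * E.anc q z) * ∑ h ∈ U, E.anc q h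
          = ∑ u ∈ P, w u.1 * (E.anc q u.1 * E.anc q u.2) := by
            rw [sum_mul_sum, sum_product]
            exact sum_congr rfl fun z _ => sum_congr rfl fun h _ => by ring
        _ ≤ ∑ u ∈ P, Ca * (E.anc q (f u) * w u.1) := sum_le_sum fun u _ => by
            refine (mul_le_mul_of_nonneg_left (hfkg u.1 u.2) (hw u.1)).trans (le_of_eq ?_)
            ring
        _ = Ca * ∑ y ∈ Y, E.anc q y * ∑ u ∈ P.filter (fun u => f u = y), w u.1 := by
            rw [← mul_sum, ← sum_fiberwise_of_maps_to (g := f) fun u hu => mem_image_of_mem _ hu]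
            refine congrArg (Ca * ·) (sum_congr rfl fun y _ => ?_)
            rw [mul_sum]
            exact sum_congr rfl fun u hu => by rw [(mem_filter.1 hu).2]
        _ ≤ Ca * ∑ y ∈ Y, E.anc q y * (E.F.card * N) := mul_le_mul_of_nonneg_left
            (sum_le_sum fun y _ => mul_le_mul_of_nonneg_left (hfib y) (hn y)) hCa
        _ ≤ Ca * ((δ + η) * (∑ y ∈ U, E.anc q y) * (E.F.card * N)) := by
            rw [← sum_mul]
            exact mul_le_mul_of_nonneg_left
              (mul_le_mul_of_nonneg_right hY (by positivity)) hCa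
        _ = _ := by ring
    · exact mul_le_mul_of_nonneg_right (mul_le_mul_of_nonneg_right
        (le_add_of_nonneg_right (mul_nonneg hC₁ hC₂)) hN) hδ
  · set g := a.1⁻¹ * y.1
    have h₁ : E.tau q K a y ≤ T E.nb q ((1 : Γ), a.2) (g, y.2) := by
      rw [E.tau_base]
      exact (FQ.tauW_le_tauIn _ hq0 hq1 _ _ _).trans (le_T hq0 hq1 _ _ _)
    have h₂ : 1 ≤ C₁ * T E.nb q ((1 : Γ), E.o₁) ((1 : Γ), a.2) :=
      (hone _ _).trans (mul_le_mul_of_nonneg_right
        (single_le_sum (f := fun o => b ((1 : Γ), E.o₁) ((1 : Γ), o)) (fun _ _ => hb0 _ _)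
          (mem_univ _)) (hTn _ _))
    have h₃ : 1 ≤ C₂ * T E.nb q (g, y.2) (g, E.o₁) := by
      rw [hshift]
      exact (hone _ _).trans (mul_le_mul_of_nonneg_right
        (single_le_sum (f := fun o => b ((1 : Γ), o) ((1 : Γ), E.o₁)) (fun _ _ => hb0 _ _)
          (mem_univ _)) (hTn _ _))
    refine h₁.trans ?_
    calc T E.nb q ((1 : Γ), a.2) (g, y.2)
        ≤ T E.nb q ((1 : Γ), a.2) (g, y.2) * (C₁ * T E.nb q ((1 : Γ), E.o₁) ((1 : Γ), a.2)) *
            (C₂ * T E.nb q (g, y.2) (g, E.o₁)) :=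
          (le_mul_of_one_le_right (hTn _ _) h₂).trans
            (le_mul_of_one_le_right (mul_nonneg (hTn _ _) (mul_nonneg hC₁ (hTn _ _))) h₃)
      _ = C₁ * C₂ * (T E.nb q ((1 : Γ), E.o₁) ((1 : Γ), a.2) *
            T E.nb q ((1 : Γ), a.2) (g, y.2) * T E.nb q (g, y.2) (g, E.o₁)) := by ring
      _ ≤ C₁ * C₂ * E.anc q g := mul_le_mul_of_nonneg_left
          ((mul_le_mul_of_nonneg_right (hT _ _ _) (hTn _ _)).trans (hT _ _ _))
          (mul_nonneg hC₁ hC₂)
      _ ≤ _ := mul_le_mul_of_nonneg_right (le_add_of_nonneg_left (by positivity)) (hTn _ _)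

end Vale.Agent.P165.SL.Env
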