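import Vale.Agent.P165.SL.ScaleOK

/-!
# The recursion closes at one scale

The weight has rate one over the scale `N`, and the cells are cut at `M` thresholds in `[N, 2N]`. Outside
both cells the branch bound is of order `N ^ 2`. A gate at overshoot `x` serves a share `e ^ (-x) / N`
of the thresholds, and its children lie in a cell of depth `N` less one deeper cell unless `x > N`.
-/

namespace Vale.Agent.P165.SL

open Finset FF Matrix
open scoped Matrix.Norms.Elementwise MatrixGroups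

variable {k : Type} [NontriviallyNormedField k]

theorem rowM_ne_zero {v : Fin 3 → k} (hv : IsUnit3 v) : rowM v ≠ 0 := fun h => by
  have h0 : v = 0 := funext fun j => by simpa [rowM] using congrFun (congrFun h 0) j
  simp [IsUnit3, h0] at hv

theorem crossM_ne_zero {v : Fin 3 → k} (hv : IsUnit3 v) : crossM v ≠ 0 := fun h => by
  have h0 : v = 0 := funext fun j => by
    fin_cases j
    · simpa [crossM] using congrFun (congrFun h 2) 1
    · simpa [crossM] using congrFun (congrFun h 0) 2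
    · simpa [crossM] using congrFun (congrFun h 1) 0
  simp [IsUnit3, h0] at hv

/-- Equally spaced thresholds in a short interval. -/
theorem card_grid_le (M : ℕ) {N D r : ℝ} (hN : 0 < N) (hM : 0 < M) (hD : 0 ≤ D) :
    (((range M).filter fun k : ℕ => r - D ≤ N + N * k / M ∧ N + N * k / M ≤ r).card : ℝ) ≤
      M * D / N + 1 := by
  set S := (range M).filter fun k : ℕ => r - D ≤ N + N * k / M ∧ N + N * k / M ≤ r
  rcases S.eq_empty_or_nonempty with hS | hS
  · rw [hS, card_empty, Nat.cast_zero]; positivity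
  have ha := (mem_filter.1 (S.min'_mem hS)).2
  have hb := (mem_filter.1 (S.max'_mem hS)).2
  have hsub : S ⊆ Icc (S.min' hS) (S.max' hS) := fun k hk =>
    mem_Icc.2 ⟨S.min'_le k hk, S.le_max' k hk⟩
  have hle : S.min' hS ≤ S.max' hS := S.min'_le _ (S.max'_mem hS)
  refine (Nat.cast_le.2 ((card_le_card hsub).trans_eq (Nat.card_Icc _ _))).trans ?_
  rw [Nat.cast_sub (by omega), Nat.cast_add, Nat.cast_one]
  have hM' : (0 : ℝ) < M := Nat.cast_pos.2 hM
  have key : N * ((S.max' hS : ℝ) - (S.min' hS : ℝ)) / M ≤ D := by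
    have : N * ((S.max' hS : ℝ) - (S.min' hS : ℝ)) / M =
        N * (S.max' hS : ℝ) / M - N * (S.min' hS : ℝ) / M := by ring
    linarith [ha.1, hb.2]
  rw [div_le_iff₀ hM'] at key
  have h2 : (S.max' hS : ℝ) - (S.min' hS : ℝ) ≤ M * D / N := by
    rw [le_div_iff₀ hN]; linarith
  linarith

namespace Env

variable {Γ O ι : Type} [Group Γ] [Fintype ι] {E : Env k Γ O ι}

theorem gap_add_gap (z : Γ) : E.gap false z + E.gap true z = E.m false z + E.m true z := by
  simp only [gap, Bool.not_false, Bool.not_true]; ring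

/-- The exponent is bounded below outside both cells. -/
theorem le_En {C : ℝ} (hE : E.Est C) {x : Bool → Fin 3 → k} (hx : IsFlag x) (z : Γ) :
    -(E.ell x false z + E.ell x true z) - 2 * C ≤ E.En x z := by
  have h0 := hE.row x hx false z
  have h1 := hE.row x hx true z
  simp only [Bool.not_false, Bool.not_true] at h0 h1
  rw [En, ← gap_add_gap]
  linarith

/-- Frames freezing the flag and one further point on each side. -/
theorem exists_frame {C : ℝ} (hE : E.Est C) {x : Bool → Fin 3 → k} (hx : IsFlag x)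
    {w : Bool → Fin 3 → k} (hw : ∀ s, IsUnit3 (w s)) :
    ∃ R : Γ → Γ → Γ, (∀ z h, R z h ∈ E.F) ∧ ∀ z h y, z * R z h * h = y → E.Cand C y z ∧
      ∀ s, |E.j x s y - E.j x s z| ≤ C ∧ |E.ell x s y - E.ell x s z| ≤ C ∧
        |E.L (crossM (w s)) s y - E.L (crossM (w s)) s z| ≤ C := by
  choose R hRF hR using
    hE.frame (fun s => ![rowM (x s), crossM (x (!s)), crossM (w s)])
  refine ⟨R, hRF, fun z h y hy => ⟨⟨h, ⟨R z h, hRF z h, hy⟩, fun s => ?_⟩, fun s => ?_⟩⟩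
  · rw [← hy]; exact (hR z h s).1
  · rw [← hy]
    exact ⟨(hR z h s).2 0 (rowM_ne_zero (hx.1 s)),
      (hR z h s).2 1 (crossM_ne_zero (hx.1 (!s))), (hR z h s).2 2 (crossM_ne_zero (hw s))⟩

variable [DecidableEq Γ] [DecidableEq O]

theorem anc_nonneg {q : ℝ} (h0 : 0 ≤ q) (h1 : q ≤ 1) (g : Γ) : 0 ≤ E.anc q g :=
  T_nonneg h0 h1 _ _

/-- The outside term. -/
theorem outside_sum_le {C Nc Cb q ε : ℝ} {N : ℕ} (hE : E.Est C) (hN : 1 ≤ N) (hNc : 0 ≤ Nc)
    (hcnt : ∀ (y : Γ) (a₀ b₀ : ℝ), ∀ Z : Finset Γ,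
      (∀ z ∈ Z, E.Cand C y z ∧ 0 ≤ E.gap false z + a₀ ∧ 0 ≤ E.gap true z + b₀) →
        ∑ z ∈ Z, Real.exp (-((N : ℝ)⁻¹ * (E.gap false z + a₀)) -
          (N : ℝ)⁻¹ * (E.gap true z + b₀)) ≤ Nc * (N : ℝ) ^ 2)
    (hq0 : 0 ≤ q) (hq1 : q ≤ 1) {U : Finset Γ}
    (hbr : ∀ (Z : Finset Γ) (w : Γ → ℝ) (R : Γ → Γ → Γ) (M δ : ℝ), 0 ≤ M → (∀ z, 0 ≤ w z) →
      (∀ z h, R z h ∈ E.F) →
      (∀ y, ∀ Z' ⊆ Z, (∀ z ∈ Z', ∃ h, z * R z h * h = y) → ∑ z ∈ Z', w z ≤ M) →
      (∀ U' ⊆ U, (∀ y ∈ U', ∃ z ∈ Z, ∃ h, z * R z h * h = y) →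
        ∑ y ∈ U', E.anc q y ≤ δ * ∑ y ∈ U, E.anc q y) →
      ∑ z ∈ Z, w z * E.anc q z ≤ Cb * M * (δ + ε))
    {x : Bool → Fin 3 → k} (hx : IsFlag x) (Z : Finset Γ)
    (hZ : ∀ z ∈ Z, ∀ s, E.ell x s z ≤ 2 * N) :
    ∑ z ∈ Z, E.Wt (N : ℝ)⁻¹ x z * E.anc q z ≤
      Cb * (Real.exp (4 + 6 * C) * Nc * (N : ℝ) ^ 2) * (1 + ε) := by
  obtain ⟨R, hRF, hR⟩ := exists_frame hE hx (w := fun _ => x true) fun _ => hx.1 true
  have hN' : (1 : ℝ) ≤ N := Nat.one_le_cast.2 hN
  refine hbr Z _ R _ 1 (by positivity) (fun z => (Real.exp_pos _).le) hRF ?_ ?_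
  · intro y Z' hZ' hy
    have hc := hcnt y (2 * N + 2 * C - E.j x false y) (2 * N + 2 * C - E.j x true y) Z'
      fun z hz => by
        obtain ⟨h, hh⟩ := hy z hz
        obtain ⟨hcand, hs⟩ := hR z h y hh
        have h0 := hE.row x hx false z
        have h1 := hE.row x hx true z
        simp only [Bool.not_false, Bool.not_true] at h0 h1
        have := hZ z (hZ' hz) false
        have := hZ z (hZ' hz) true
        have := (abs_le.1 (hs false).1).2
        have := (abs_le.1 (hs true).1).2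
        exact ⟨hcand, by linarith, by linarith⟩
    rw [mul_assoc]
    refine (sum_le_sum fun z hz => ?_).trans
      ((mul_sum _ _ _).symm.trans_le (mul_le_mul_of_nonneg_left hc (Real.exp_pos (4 + 6 * C)).le))
    obtain ⟨h, hh⟩ := hy z hz
    obtain ⟨-, hs⟩ := hR z h y hh
    have := (abs_le.1 (hs false).1).1
    have := (abs_le.1 (hs true).1).1
    rw [Wt, ← Real.exp_add]
    apply Real.exp_le_exp.2
    have hb : 0 ≤ (N : ℝ)⁻¹ := by positivity
    have hbN : (N : ℝ)⁻¹ * N = 1 := inv_mul_cancel₀ (by positivity)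
    have hb1 : (N : ℝ)⁻¹ ≤ 1 := inv_le_one_of_one_le₀ hN'
    have hC0 := hE.nonneg
    have hEn : E.gap false z + (2 * N + 2 * C - E.j x false y) +
        (E.gap true z + (2 * N + 2 * C - E.j x true y)) - (4 * N + 6 * C) ≤ E.En x z := by
      rw [En, ← gap_add_gap]; linarith
    have := mul_le_mul_of_nonneg_left hEn hb
    have : (N : ℝ)⁻¹ * (4 * N + 6 * C) ≤ 4 + 6 * C := by
      have := mul_le_mul_of_nonneg_right hb1 (by positivity : (0 : ℝ) ≤ 6 * C)
      linarith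
    linarith
  · intro U' hU' _
    rw [one_mul]
    exact sum_le_sum_of_subset_of_nonneg hU' fun y _ _ => anc_nonneg hq0 hq1 y

/-- The gates of one side, weighted by half their overshoot. -/
theorem gate_sum_le {C C₁ Nc Cb q ε δ : ℝ} {N : ℕ} (hE : E.Est C) (hN : 1 ≤ N) (hNc : 0 ≤ Nc)
    (hC₁ : 0 ≤ C₁) (s : Bool)
    (hcnt : ∀ (y : Γ) (a₀ b₀ : ℝ), ∀ Z : Finset Γ,
      (∀ z ∈ Z, E.Cand C y z ∧ 0 ≤ E.gap s z + a₀ ∧ 0 ≤ E.m false z + E.m true z + b₀) →
        ∑ z ∈ Z, Real.exp (-((1 / 2) * (E.gap s z + a₀)) -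
          (N : ℝ)⁻¹ * (E.m false z + E.m true z + b₀)) ≤ 2 * Nc * N)
    {U : Finset Γ}
    (hbr : ∀ (Z : Finset Γ) (w : Γ → ℝ) (R : Γ → Γ → Γ) (M δ : ℝ), 0 ≤ M → (∀ z, 0 ≤ w z) →
      (∀ z h, R z h ∈ E.F) →
      (∀ y, ∀ Z' ⊆ Z, (∀ z ∈ Z', ∃ h, z * R z h * h = y) → ∑ z ∈ Z', w z ≤ M) →
      (∀ U' ⊆ U, (∀ y ∈ U', ∃ z ∈ Z, ∃ h, z * R z h * h = y) →
        ∑ y ∈ U', E.anc q y ≤ δ * ∑ y ∈ U, E.anc q y) →
      ∑ z ∈ Z, w z * E.anc q z ≤ Cb * M * (δ + ε))
    {x : Bool → Fin 3 → k} (hx : IsFlag x) {w : Bool → Fin 3 → k} (hw : ∀ t, IsUnit3 (w t))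
    (Z : Finset Γ) (hZ : ∀ z ∈ Z, ∀ t, E.ell x t z ≤ 2 * N + C₁)
    (hδ : ∀ U' ⊆ U, (∀ y ∈ U', ∃ z ∈ Z, |E.ell x s y - E.ell x s z| ≤ C ∧
      E.L (crossM (w s)) s y ≤ E.gap s z + 2 * C) →
      ∑ y ∈ U', E.anc q y ≤ δ * ∑ y ∈ U, E.anc q y) :
    ∑ z ∈ Z, E.Wt (N : ℝ)⁻¹ x z * Real.exp (-(E.gap s z - E.ell x s z) / 2) * E.anc q z ≤
      Cb * (Real.exp (4 + 2 * C₁ + 8 * C) * (2 * Nc * N)) * (δ + ε) := by
  obtain ⟨R, hRF, hR⟩ := exists_frame hE hx hw
  have hN' : (1 : ℝ) ≤ N := Nat.one_le_cast.2 hN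
  refine hbr Z _ R _ δ (by positivity) (fun z => mul_nonneg (Real.exp_pos _).le
    (Real.exp_pos _).le) hRF ?_ ?_
  · intro y Z' hZ' hy
    have hc := hcnt y (2 * C - E.ell x s y)
      (4 * N + 2 * C₁ + 4 * C - E.j x false y - E.j x true y) Z'
      fun z hz => by
        obtain ⟨h, hh⟩ := hy z hz
        obtain ⟨hcand, hs⟩ := hR z h y hh
        have := hZ z (hZ' hz) false
        have := hZ z (hZ' hz) true
        have := (abs_le.1 (hs false).1).2
        have := (abs_le.1 (hs true).1).2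
        have := (abs_le.1 (hs s).2.1).2
        have hgap : E.ell x s z ≤ E.gap s z + C := (hE.gap_cell _ (hx.1 (!s)) s z).2
        have hEn := le_En hE hx z
        rw [En] at hEn
        exact ⟨hcand, by linarith, by linarith⟩
    refine (sum_le_sum fun z hz => ?_).trans
      ((mul_sum _ _ _).symm.trans_le
        (mul_le_mul_of_nonneg_left hc (Real.exp_pos (4 + 2 * C₁ + 8 * C)).le))
    obtain ⟨h, hh⟩ := hy z hz
    obtain ⟨-, hs⟩ := hR z h y hh
    have := (abs_le.1 (hs false).1).1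
    have := (abs_le.1 (hs true).1).1
    have := (abs_le.1 (hs s).2.1).1
    rw [Wt, ← Real.exp_add, ← Real.exp_add]
    apply Real.exp_le_exp.2
    have hb : 0 ≤ (N : ℝ)⁻¹ := by positivity
    have hbN : (N : ℝ)⁻¹ * N = 1 := inv_mul_cancel₀ (by positivity)
    have hb1 : (N : ℝ)⁻¹ ≤ 1 := inv_le_one_of_one_le₀ hN'
    have hC0 := hE.nonneg
    have hEn : E.m false z + E.m true z +
        (4 * N + 2 * C₁ + 4 * C - E.j x false y - E.j x true y) - (4 * N + 2 * C₁ + 6 * C) ≤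
          E.En x z := by
      rw [En]; linarith
    have := mul_le_mul_of_nonneg_left hEn hb
    have : (N : ℝ)⁻¹ * (4 * N + 2 * C₁ + 6 * C) ≤ 4 + 2 * C₁ + 6 * C := by
      have := mul_le_mul_of_nonneg_right hb1 (by positivity : (0 : ℝ) ≤ 2 * C₁ + 6 * C)
      linarith
    linarith
  · intro U' hU' hy
    refine hδ U' hU' fun y hy' => ?_
    obtain ⟨z, hz, h, hh⟩ := hy y hy'
    obtain ⟨-, hs⟩ := hR z h y hh
    refine ⟨z, hz, (hs s).2.1, ?_⟩
    have := (abs_le.1 (hs s).2.2).2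
    linarith [(hE.gap_cell _ (hw s) s z).2]

variable [Fintype O]

omit [Group Γ] [DecidableEq O] in
/-- Sums over vertices against sums over group elements. -/
theorem sum_fibre_le (S : Finset (Γ × O)) (f : Γ → ℝ) (hf : ∀ g, 0 ≤ f g) :
    ∑ y ∈ S, f y.1 ≤ (Fintype.card O : ℝ) * ∑ g ∈ S.image Prod.fst, f g := by
  refine (sum_le_sum_of_subset_of_nonneg (t := S.image Prod.fst ×ˢ (univ : Finset O))
    (fun y hy => mem_product.2 ⟨mem_image_of_mem _ hy, mem_univ _⟩) fun y _ _ => hf _).trans ?_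
  rw [sum_product]
  simp [mul_sum]

omit [Fintype O] in
/-- One round of the recursion, from the two bounds at one scale. -/
theorem row_step {C C₁ Co D q β B : ℝ} {K : ℕ} {N : ℝ} (hE : E.Est C) (hC₁ : C * Real.exp C ≤ C₁)
    (hN : C + 1 ≤ N) (hq0 : 0 ≤ q) (hq1 : q ≤ 1) (hsp : E.SplitOK) (hB : 0 ≤ B)
    (hrow : E.RowBound q β K B) (hD : 2 * C * D ≤ N / 4)
    (hout : ∀ x, IsFlag x → ∀ (o : O) (S : Finset (Γ × O)),
      (∀ y ∈ S, ∀ t, E.ell x t y.1 ≤ 2 * N) →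
      ∑ y ∈ S, E.tau q K ((1 : Γ), o) y * E.Wt β x y.1 ≤ Co)
    (hside : ∀ x, IsFlag x → ∀ (o : O) (t : Bool) (S : Finset (Γ × O)),
      (∀ z ∈ S, N ≤ E.ell x t z.1 ∧ ∀ t', E.ell x t' z.1 ≤ 2 * N + C₁) →
      ∑ z ∈ S, Real.exp (E.ell x t z.1 - E.gap t z.1) *
        (E.tau q K ((1 : Γ), o) z * E.Wt β x z.1) ≤ D) :
    E.RowBound q β K (Co + B / 2) := by
  classical
  intro x hx o S
  have hC0 := hE.nonneg
  obtain ⟨M, hM⟩ := exists_nat_ge (max (8 * B) 1)
  have hM1 : (1 : ℝ) ≤ M := (le_max_right _ _).trans hM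
  have hM8 : 8 * B ≤ (M : ℝ) := (le_max_left _ _).trans hM
  have hMpos : 0 < M := Nat.cast_pos.1 (by linarith : (0 : ℝ) < M)
  have hNpos : 0 < N := by linarith
  set f : Γ × O → ℝ := fun y => E.tau q K ((1 : Γ), o) y * E.Wt β x y.1 with hf
  have hf0 : ∀ y, 0 ≤ f y := fun y =>
    mul_nonneg (FQ.tauW_nonneg _ hq0 hq1 _ _ _) (Real.exp_pos _).le
  have hk : ∀ k ∈ range M, 0 ≤ N * k / M ∧ N * k / M ≤ N := fun k hk => ⟨by positivity, by
    rw [div_le_iff₀ (by linarith)]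
    exact mul_le_mul_of_nonneg_left (Nat.cast_le.2 (mem_range.1 hk).le) hNpos.le⟩
  let Rel : Bool → Finset (Γ × O) := fun t => (QT.wball E.nb ((1 : Γ), o) K).filter fun z =>
    N ≤ E.ell x t z.1 ∧ ∀ t', E.ell x t' z.1 ≤ 2 * N + C₁
  let Hit : Bool → Γ × O → Finset ℕ := fun t z => (range M).filter fun k : ℕ =>
    E.ell x t z.1 - C * Real.exp (E.ell x t z.1 - E.gap t z.1) ≤ N + N * k / M ∧
      N + N * k / M ≤ E.ell x t z.1
  have hone : ∀ k ∈ range M, ∑ y ∈ S, f y ≤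
      Co + B * ∑ t, ∑ z ∈ Rel t, if k ∈ Hit t z then f z else 0 := by
    intro k hkM
    obtain ⟨hk0, hkN⟩ := hk k hkM
    obtain ⟨S', Z, hS', hZ, hle⟩ := hsp q β B K {g | ∃ t, N + N * k / M ≤ E.ell x t g} hq0 hq1 hB
      (fun ⟨t, ht⟩ => by linarith [hE.one x hx t]) hrow x hx o S
    refine hle.trans (add_le_add (hout x hx o S' fun y hy t => ?_)
      (mul_le_mul_of_nonneg_left ?_ hB))
    · have h : E.ell x t y.1 < N + N * k / M := not_le.1 fun h => hS' y hy ⟨t, h⟩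
      linarith
    calc ∑ z ∈ Z, f z
        ≤ ∑ z ∈ QT.wball E.nb ((1 : Γ), o) K,
            ∑ t, (if z ∈ Rel t ∧ k ∈ Hit t z then f z else 0) := by
          refine le_trans (sum_le_sum fun z hz => ?_)
            (sum_le_sum_of_subset_of_nonneg (fun z hz => (hZ z hz).1) fun z _ _ =>
              sum_nonneg fun t _ => by split_ifs <;> first | exact hf0 z | exact le_rfl)
          obtain ⟨hzB, ⟨t, ht⟩, o', i, hout'⟩ := hZ z hz
          have hdrop : ∀ t', E.ell x t' z.1 - C * Real.exp (E.ell x t' z.1 - E.gap t' z.1) ≤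
              N + N * k / M := fun t' => by
            have h1 : |E.ell x t' (z.1 * (E.nb ((1 : Γ), o') i).1) - E.ell x t' z.1| ≤
                C * Real.exp (E.ell x t' z.1 - E.gap t' z.1) :=
              hE.step _ (hx.1 (!t')) t' z.1 o' i
            have h2 : E.ell x t' (z.1 * (E.nb ((1 : Γ), o') i).1) < N + N * k / M :=
              not_le.1 fun h => hout' ⟨t', h⟩
            linarith [(abs_le.1 h1).1]
          have hmem : z ∈ Rel t := mem_filter.2 ⟨hzB, (by linarith), fun t' => by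
            have h3 : E.ell x t' z.1 ≤ E.gap t' z.1 + C := (hE.gap_cell _ (hx.1 (!t')) t' z.1).2
            have h4 : C * Real.exp (E.ell x t' z.1 - E.gap t' z.1) ≤ C * Real.exp C :=
              mul_le_mul_of_nonneg_left (Real.exp_le_exp.2 (by linarith)) hC0
            linarith [hdrop t']⟩
          refine le_trans ?_ (single_le_sum
            (f := fun t => if z ∈ Rel t ∧ k ∈ Hit t z then f z else 0)
            (fun t _ => by split_ifs <;> first | exact hf0 z | exact le_rfl) (mem_univ t))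
          rw [if_pos ⟨hmem, mem_filter.2 ⟨hkM, hdrop t, ht⟩⟩]
      _ = ∑ t, ∑ z ∈ Rel t, if k ∈ Hit t z then f z else 0 := by
          rw [sum_comm]
          refine sum_congr rfl fun t _ => ?_
          conv_rhs => rw [show Rel t = (QT.wball E.nb ((1 : Γ), o) K).filter (fun z => z ∈ Rel t) by
            ext z; simp only [mem_filter, Rel]; tauto]
          rw [sum_filter]
          exact sum_congr rfl fun z _ => ite_and _ _ _ _
  have hcard : ∑ k ∈ range M, ∑ t, ∑ z ∈ Rel t, (if k ∈ Hit t z then f z else 0) ≤ M * (1 / 2) := by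
    rw [sum_comm]
    have key : ∀ t, ∑ k ∈ range M, ∑ z ∈ Rel t, (if k ∈ Hit t z then f z else 0) ≤
        M * C / N * D + B := fun t => by
      rw [sum_comm]
      calc ∑ z ∈ Rel t, ∑ k ∈ range M, (if k ∈ Hit t z then f z else 0)
          = ∑ z ∈ Rel t, ((Hit t z).card : ℝ) * f z := sum_congr rfl fun z _ => by
            rw [← sum_filter, sum_const, nsmul_eq_mul,
              filter_mem_eq_inter, inter_eq_right.2 (filter_subset _ _)]
        _ ≤ M * C / N * ∑ z ∈ Rel t, Real.exp (E.ell x t z.1 - E.gap t z.1) * f z +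
              ∑ z ∈ Rel t, f z := by
            rw [mul_sum, ← sum_add_distrib]
            refine sum_le_sum fun z _ => ?_
            refine (mul_le_mul_of_nonneg_right
              (card_grid_le M hNpos hMpos (by positivity)) (hf0 z)).trans_eq ?_
            ring
        _ ≤ M * C / N * D + B := add_le_add
            (mul_le_mul_of_nonneg_left (hside x hx o t _ fun z hz => (mem_filter.1 hz).2)
              (by positivity))
            (hrow x hx o _)
    refine (sum_le_sum fun t _ => key t).trans ?_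
    rw [sum_const, card_univ, Fintype.card_bool, nsmul_eq_mul]
    have h1 : (M : ℝ) * C / N * D * 2 ≤ M * (1 / 4) := by
      have h2 : 2 * C * D / N ≤ 1 / 4 := by rw [div_le_iff₀ hNpos]; linarith
      calc (M : ℝ) * C / N * D * 2 = M * (2 * C * D / N) := by ring
        _ ≤ _ := mul_le_mul_of_nonneg_left h2 (by linarith)
    push_cast
    linarith
  have htot : (M : ℝ) * ∑ y ∈ S, f y ≤ (M : ℝ) * (Co + B / 2) := by
    calc (M : ℝ) * ∑ y ∈ S, f y = ∑ _k ∈ range M, ∑ y ∈ S, f y := by simp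
      _ ≤ ∑ k ∈ range M, (Co + B * ∑ t, ∑ z ∈ Rel t, if k ∈ Hit t z then f z else 0) :=
          sum_le_sum hone
      _ ≤ M * Co + B * (M * (1 / 2)) := by
          rw [sum_add_distrib, ← mul_sum]
          exact add_le_add (le_of_eq (by simp)) (mul_le_mul_of_nonneg_left hcard hB)
      _ = _ := by ring
  exact le_of_mul_le_mul_left htot (by linarith)

/-- The gates of one side, over vertices, at a good scale. -/
theorem gate_side_le {C C₁ Nc Cb q ε : ℝ} {K N : ℕ} (hE : E.Est C) (hC₁ : 0 ≤ C₁) (hN : 1 ≤ N)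
    (hNc : 0 ≤ Nc) (hCb : 0 ≤ Cb) (hε : Real.exp (-(N : ℝ) / 2) ≤ ε) (hε1 : ε ≤ 1) (hq0 : 0 ≤ q) (hq1 : q ≤ 1)
    (t : Bool)
    (hcnt : ∀ (y : Γ) (a₀ b₀ : ℝ), ∀ Z : Finset Γ,
      (∀ z ∈ Z, E.Cand C y z ∧ 0 ≤ E.gap t z + a₀ ∧ 0 ≤ E.m false z + E.m true z + b₀) →
        ∑ z ∈ Z, Real.exp (-((1 / 2) * (E.gap t z + a₀)) -
          (N : ℝ)⁻¹ * (E.m false z + E.m true z + b₀)) ≤ 2 * Nc * N)
    {U : Finset Γ}
    (hbr : ∀ (Z : Finset Γ) (w : Γ → ℝ) (R : Γ → Γ → Γ) (M δ : ℝ), 0 ≤ M → (∀ z, 0 ≤ w z) →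
      (∀ z h, R z h ∈ E.F) →
      (∀ y, ∀ Z' ⊆ Z, (∀ z ∈ Z', ∃ h, z * R z h * h = y) → ∑ z ∈ Z', w z ≤ M) →
      (∀ U' ⊆ U, (∀ y ∈ U', ∃ z ∈ Z, ∃ h, z * R z h * h = y) →
        ∑ y ∈ U', E.anc q y ≤ δ * ∑ y ∈ U, E.anc q y) →
      ∑ z ∈ Z, w z * E.anc q z ≤ Cb * M * (δ + ε))
    (hscale : ∀ (s : Bool) (v : Fin 3 → k), IsUnit3 v → ∃ w, IsUnit3 w ∧ ∀ U' ⊆ U,
      (∀ y ∈ U', (N : ℝ) - (C₁ + 2 * C) ≤ E.L (crossM v) s y ∧
        E.L (crossM w) s y ≤ 3 * N + (C₁ + 2 * C)) →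
      ∑ y ∈ U', E.anc q y ≤ ε * ∑ y ∈ U, E.anc q y)
    (hanc : ∀ (o : O) (y : Γ × O), E.tau q K ((1 : Γ), o) y ≤ Cb * E.anc q y.1)
    {x : Bool → Fin 3 → k} (hx : IsFlag x) (o : O) (S : Finset (Γ × O))
    (hS : ∀ z ∈ S, (N : ℝ) ≤ E.ell x t z.1 ∧ ∀ t', E.ell x t' z.1 ≤ 2 * N + C₁) :
    ∑ z ∈ S, Real.exp (E.ell x t z.1 - E.gap t z.1) *
        (E.tau q K ((1 : Γ), o) z * E.Wt (N : ℝ)⁻¹ x z.1) ≤
      (Fintype.card O : ℝ) * Cb * (Cb * (Real.exp (4 + 2 * C₁ + 8 * C) * (2 * Nc * N))) *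
        (2 * Real.exp (C / 2) + 2) * ε := by
  classical
  have hε0 : 0 < ε := (Real.exp_pos _).trans_le hε
  choose w hwu hwb using fun t' => hscale t' (x (!t')) (hx.1 (!t'))
  set G := S.image Prod.fst
  have hG : ∀ g ∈ G, (N : ℝ) ≤ E.ell x t g ∧ ∀ t', E.ell x t' g ≤ 2 * N + C₁ := fun g hg => by
    obtain ⟨y, hy, rfl⟩ := mem_image.1 hg
    exact hS y hy
  set wt : Γ → ℝ := fun g => E.Wt (N : ℝ)⁻¹ x g * Real.exp (-(E.gap t g - E.ell x t g) / 2) *
    E.anc q g with hwt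
  have hwt0 : ∀ g, 0 ≤ wt g := fun g => mul_nonneg
    (mul_nonneg (Real.exp_pos _).le (Real.exp_pos _).le) (anc_nonneg hq0 hq1 g)
  set P := Cb * (Real.exp (4 + 2 * C₁ + 8 * C) * (2 * Nc * N)) with hP
  have hP0 : 0 ≤ P := by positivity
  have hclose : ∑ g ∈ G.filter (fun g => E.gap t g - E.ell x t g ≤ N), wt g ≤ P * (ε + ε) := by
    refine gate_sum_le (E := E) (δ := ε) hE hN hNc hC₁ t hcnt hbr hx hwu
      _ (fun z hz => (hG z (mem_filter.1 hz).1).2) fun U' hU' hy => ?_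
    refine hwb t U' hU' fun y hy' => ?_
    obtain ⟨z, hz, hzy, hzw⟩ := hy y hy'
    obtain ⟨hzG, hzx⟩ := mem_filter.1 hz
    have := (hG z hzG).1
    have := (hG z hzG).2 t
    have := (abs_le.1 hzy).1
    constructor
    · show (N : ℝ) - (C₁ + 2 * C) ≤ E.ell x t y
      linarith [hE.nonneg]
    · linarith [hE.nonneg]
  have hall : ∑ g ∈ G, wt g ≤ P * 2 := by
    refine (gate_sum_le (E := E) (δ := 1) hE hN hNc hC₁ t hcnt hbr hx hwu
      _ (fun z hz => (hG z hz).2) fun U' hU' _ => ?_).trans ?_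
    · rw [one_mul]
      exact sum_le_sum_of_subset_of_nonneg hU' fun y _ _ => anc_nonneg hq0 hq1 y
    · exact mul_le_mul_of_nonneg_left (by linarith) hP0
  have hexpsum : ∑ g ∈ G, Real.exp (E.ell x t g - E.gap t g) *
      (E.Wt (N : ℝ)⁻¹ x g * E.anc q g) ≤ P * (2 * Real.exp (C / 2) + 2) * ε := by
    have hpt : ∀ g ∈ G, Real.exp (E.ell x t g - E.gap t g) *
        (E.Wt (N : ℝ)⁻¹ x g * E.anc q g) ≤
        (if E.gap t g - E.ell x t g ≤ N then Real.exp (C / 2) * wt g else 0) +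
          Real.exp (-(N : ℝ) / 2) * wt g := by
      intro g _
      set d := E.gap t g - E.ell x t g with hd
      have hd0 : -C ≤ d := by
        have : E.ell x t g ≤ E.gap t g + C := (hE.gap_cell _ (hx.1 (!t)) t g).2
        linarith
      have he : Real.exp (E.ell x t g - E.gap t g) * (E.Wt (N : ℝ)⁻¹ x g * E.anc q g) =
          Real.exp (-d / 2) * wt g := by
        rw [hwt, show E.ell x t g - E.gap t g = -d / 2 + -d / 2 by rw [hd]; ring, Real.exp_add]
        ring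
      rw [he]
      by_cases hdN : d ≤ N
      · rw [if_pos hdN]
        exact le_add_of_le_of_nonneg (mul_le_mul_of_nonneg_right
          (Real.exp_le_exp.2 (by linarith)) (hwt0 g)) (mul_nonneg (Real.exp_pos _).le (hwt0 g))
      · rw [if_neg hdN, zero_add]
        exact mul_le_mul_of_nonneg_right (Real.exp_le_exp.2 (by linarith [not_le.1 hdN])) (hwt0 g)
    refine (sum_le_sum hpt).trans ?_
    rw [sum_add_distrib, ← sum_filter, ← mul_sum, ← mul_sum]
    refine (add_le_add (mul_le_mul_of_nonneg_left hclose (Real.exp_pos _).le)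
      (mul_le_mul hε hall (sum_nonneg fun g _ => hwt0 g) hε0.le)).trans_eq ?_
    ring
  calc ∑ z ∈ S, Real.exp (E.ell x t z.1 - E.gap t z.1) *
        (E.tau q K ((1 : Γ), o) z * E.Wt (N : ℝ)⁻¹ x z.1)
      ≤ ∑ z ∈ S, Cb * (Real.exp (E.ell x t z.1 - E.gap t z.1) *
          (E.Wt (N : ℝ)⁻¹ x z.1 * E.anc q z.1)) := sum_le_sum fun z _ => by
        refine (mul_le_mul_of_nonneg_left (mul_le_mul_of_nonneg_right (hanc o z)
          (Real.exp_pos _).le) (Real.exp_pos _).le).trans_eq ?_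
        simp only [Wt]; ring
    _ ≤ (Fintype.card O : ℝ) * ∑ g ∈ G, Cb * (Real.exp (E.ell x t g - E.gap t g) *
          (E.Wt (N : ℝ)⁻¹ x g * E.anc q g)) :=
        sum_fibre_le S (fun g => Cb * (Real.exp (E.ell x t g - E.gap t g) *
            (E.Wt (N : ℝ)⁻¹ x g * E.anc q g)))
          fun g => mul_nonneg hCb (mul_nonneg (Real.exp_pos _).le
            (mul_nonneg (Real.exp_pos _).le (anc_nonneg hq0 hq1 g)))
    _ ≤ (Fintype.card O : ℝ) * (Cb * (P * (2 * Real.exp (C / 2) + 2) * ε)) := by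
        rw [← mul_sum]
        exact mul_le_mul_of_nonneg_left (mul_le_mul_of_nonneg_left hexpsum hCb) (Nat.cast_nonneg _)
    _ = _ := by ring

variable (E) in
/-- The recursion closes below every parameter with exit certificates. -/
theorem closed_at {p : ℝ} (he : E.EstOK) (hcnt : E.CountOK) (hsc : E.ScaleOK) (hi : E.InitOK)
    (hsp : E.SplitOK) (hs : FQ.Sub E.nb p) (hb : E.BranchOK p) : E.ClosedAt p := by
  obtain ⟨C, hC⟩ := he
  have hC0 := hC.nonneg
  obtain ⟨Cb, hCb, hbr⟩ := hb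
  obtain ⟨n0, hn0, hn0'⟩ := hcnt C (fun t => bif t then -1 else 2) (fun t => bif t then 2 else -1)
    (by norm_num)
  obtain ⟨n1, hn1, hn1'⟩ := hcnt C (fun t => bif t then -1 else 2) (fun _ => 1) (by norm_num)
  obtain ⟨n2, hn2, hn2'⟩ := hcnt C (fun t => bif t then 2 else -1) (fun _ => 1) (by norm_num)
  set C₁ := C * Real.exp C with hC₁
  have hC₁0 : 0 ≤ C₁ := by positivity
  set Kc := (Fintype.card O : ℝ) * Cb * (Cb * (Real.exp (4 + 2 * C₁ + 8 * C) * (2 * (n1 + n2)))) *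
    (2 * Real.exp (C / 2) + 2) with hKc
  have hKc0 : 0 ≤ Kc := by positivity
  set ε := min 1 (1 / (8 * C * Kc + 1)) with hεdef
  have hε : 0 < ε := lt_min one_pos (by positivity)
  have hε1 : ε ≤ 1 := min_le_left _ _
  have hεK : 8 * C * Kc * ε ≤ 1 := by
    refine (mul_le_mul_of_nonneg_left (min_le_right _ _) (by positivity)).trans ?_
    rw [mul_one_div, div_le_one (by positivity)]
    linarith
  obtain ⟨N₀, hN₀⟩ := exists_nat_ge (max (C + 1) (-(2 * Real.log ε)))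
  obtain ⟨N₁, hN₁⟩ := hsc (C₁ + 2 * C) (by positivity) ε hε N₀
  set Co := (Fintype.card O : ℝ) * (Cb * (Cb * (Real.exp (4 + 6 * C) * n0 * (N₁ : ℝ) ^ 2) * (1 + ε)))
    with hCo
  have hCo0 : 0 ≤ Co := by positivity
  refine ⟨2 * Co, fun K q hq hq' => ?_⟩
  have hq0 : 0 ≤ q := by linarith [hs.1]
  have hq1 : q ≤ 1 := hq'.le.trans hs.2.1
  obtain ⟨hbrq, hanc'⟩ := hbr q hq hq'
  have hanc : ∀ (o : O) (y : Γ × O), E.tau q K ((1 : Γ), o) y ≤ Cb * E.anc q y.1 := fun o y => by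
    simpa using hanc' K ((1 : Γ), o) y
  obtain ⟨U, -, hU⟩ := hbrq ε hε
  obtain ⟨N, hN0, hNle, hscale⟩ := hN₁ U (fun g => E.anc q g) fun g => anc_nonneg hq0 hq1 g
  have hNC : C + 1 ≤ (N : ℝ) := ((le_max_left _ _).trans hN₀).trans (Nat.cast_le.2 hN0)
  have hNpos : (0 : ℝ) < N := by linarith
  have hN1 : 1 ≤ N := Nat.cast_pos.1 hNpos
  have hexp : Real.exp (-(N : ℝ) / 2) ≤ ε := by
    rw [← Real.exp_log hε]
    apply Real.exp_le_exp.2
    linarith [((le_max_right _ _).trans hN₀).trans (Nat.cast_le.2 hN0 : (N₀ : ℝ) ≤ N)]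
  set β : ℝ := (N : ℝ)⁻¹ with hβ
  have hβ0 : 0 < β := by positivity
  have hβ1 : β ≤ 1 := inv_le_one_of_one_le₀ (by linarith)
  have hcnt0 : ∀ (y : Γ) (a₀ b₀ : ℝ), ∀ Z : Finset Γ,
      (∀ z ∈ Z, E.Cand C y z ∧ 0 ≤ E.gap false z + a₀ ∧ 0 ≤ E.gap true z + b₀) →
        ∑ z ∈ Z, Real.exp (-(β * (E.gap false z + a₀)) - β * (E.gap true z + b₀)) ≤
          n0 * (N : ℝ) ^ 2 := by
    intro y a₀ b₀ Z hZ
    have hgf : ∀ z, (bif false then (-1 : ℝ) else 2) * E.m false z +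
        (bif true then (-1 : ℝ) else 2) * E.m true z = E.gap false z := fun z => by
      simp [gap]; ring
    have hgt : ∀ z, (bif false then (2 : ℝ) else -1) * E.m false z +
        (bif true then (2 : ℝ) else -1) * E.m true z = E.gap true z := fun z => by
      simp [gap]; ring
    have h := hn0' y a₀ b₀ β β hβ0 hβ1 hβ0 hβ1 Z
    simp only [hgf, hgt] at h
    refine (h hZ).trans_eq ?_
    rw [hβ]; field_simp
  have hcnt1 : ∀ (t : Bool) (y : Γ) (a₀ b₀ : ℝ), ∀ Z : Finset Γ,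
      (∀ z ∈ Z, E.Cand C y z ∧ 0 ≤ E.gap t z + a₀ ∧ 0 ≤ E.m false z + E.m true z + b₀) →
        ∑ z ∈ Z, Real.exp (-((1 / 2) * (E.gap t z + a₀)) -
          β * (E.m false z + E.m true z + b₀)) ≤ 2 * (n1 + n2) * N := by
    intro t y a₀ b₀ Z hZ
    have hnum : ∀ n : ℝ, 0 ≤ n → n ≤ n1 + n2 → n / (1 / 2 * β) ≤ 2 * (n1 + n2) * N := by
      intro n hn hle
      rw [div_le_iff₀ (by positivity)]
      have : β * N = 1 := by rw [hβ]; exact inv_mul_cancel₀ hNpos.ne'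
      nlinarith
    cases t
    · have h := hn1' y a₀ b₀ (1 / 2) β (by norm_num) (by norm_num) hβ0 hβ1 Z
      have hg : ∀ z, (bif false then (-1 : ℝ) else 2) * E.m false z +
          (bif true then (-1 : ℝ) else 2) * E.m true z = E.gap false z := fun z => by
        simp [gap]; ring
      simp only [hg, one_mul] at h
      exact (h hZ).trans (hnum n1 hn1 (by linarith))
    · have h := hn2' y a₀ b₀ (1 / 2) β (by norm_num) (by norm_num) hβ0 hβ1 Z
      have hg : ∀ z, (bif false then (2 : ℝ) else -1) * E.m false z +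
          (bif true then (2 : ℝ) else -1) * E.m true z = E.gap true z := fun z => by
        simp [gap]; ring
      simp only [hg, one_mul] at h
      exact (h hZ).trans (hnum n2 hn2 (by linarith))
  refine ⟨β, hβ0.le, ?_⟩
  have hout : ∀ x, IsFlag x → ∀ (o : O) (S : Finset (Γ × O)),
      (∀ y ∈ S, ∀ t, E.ell x t y.1 ≤ 2 * (N : ℝ)) →
      ∑ y ∈ S, E.tau q K ((1 : Γ), o) y * E.Wt β x y.1 ≤ Co := by
    intro x hx o S hS
    have h1 := outside_sum_le (E := E) (ε := ε) hC hN1 hn0 hcnt0 hq0 hq1 hU hx (S.image Prod.fst)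
      fun g hg t => by
        obtain ⟨y, hy, rfl⟩ := mem_image.1 hg
        exact hS y hy t
    have hNN : (N : ℝ) ≤ N₁ := Nat.cast_le.2 hNle
    calc ∑ y ∈ S, E.tau q K ((1 : Γ), o) y * E.Wt β x y.1
        ≤ ∑ y ∈ S, Cb * (E.Wt β x y.1 * E.anc q y.1) := sum_le_sum fun y _ => by
          refine (mul_le_mul_of_nonneg_right (hanc o y) (Real.exp_pos _).le).trans_eq ?_
          simp only [Wt]; ring
      _ ≤ (Fintype.card O : ℝ) * ∑ g ∈ S.image Prod.fst, Cb * (E.Wt β x g * E.anc q g) :=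
          sum_fibre_le S (fun g => Cb * (E.Wt β x g * E.anc q g))
            fun g => mul_nonneg hCb (mul_nonneg (Real.exp_pos _).le (anc_nonneg hq0 hq1 g))
      _ ≤ Co := by
          rw [← mul_sum, hCo]
          refine mul_le_mul_of_nonneg_left (mul_le_mul_of_nonneg_left (h1.trans ?_) hCb)
            (Nat.cast_nonneg _)
          gcongr
  have step : ∀ B, 0 ≤ B → E.RowBound q β K B → E.RowBound q β K (Co + B / 2) := fun B hB hrow =>
    row_step (D := Kc * N * ε) hC le_rfl hNC hq0 hq1 hsp hB hrow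
      (by nlinarith) hout fun x hx o t S hS =>
        (gate_side_le hC hC₁0 hN1 (add_nonneg hn1 hn2) hCb hexp hε1 hq0 hq1 t (hcnt1 t) hU hscale
          hanc hx o S hS).trans_eq (by rw [hKc]; ring)
  obtain ⟨B₀, hB₀, hrow₀⟩ := hi q β K hq0 hq1 hβ0.le
  have iter : ∀ n : ℕ, E.RowBound q β K (2 * Co + B₀ / 2 ^ n) := by
    intro n
    induction n with
    | zero =>
      intro x hx o S
      linarith [hrow₀ x hx o S]
    | succ n ih =>
      intro x hx o S
      refine (step _ (by positivity) ih x hx o S).trans_eq ?_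
      rw [pow_succ]; ring
  intro x hx o S
  refine le_of_forall_pos_le_add fun e he' => ?_
  obtain ⟨n, hn⟩ := pow_unbounded_of_one_lt (B₀ / e) (one_lt_two (α := ℝ))
  refine (iter n x hx o S).trans (add_le_add le_rfl ?_)
  rw [div_lt_iff₀ he'] at hn
  rw [div_le_iff₀ (by positivity)]
  linarith

end Env

end Vale.Agent.P165.SL
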