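import Vale.Agent.P165.SL.Count
import Vale.Agent.P165.SL.Est
import Vale.Agent.P165.SL.Instance
import Vale.Agent.P165.SL.Perco
import Vale.Agent.P165.SL.Recursion

/-!
# P165, SL route: nonuniqueness for discrete Zariski dense groups in degree three

The steps put together, the integer and Gaussian integer points, and the group generated by the six
elementary matrices as an explicit finitely generated example.
-/

namespace Vale.Agent.P165.SL

open Matrix
open scoped Matrix.Norms.Elementwise MatrixGroups

variable {k : Type} [NontriviallyNormedField k] [ProperSpace k]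

/-- A group with a Zariski dense homomorphism to `SL₃(k)` sending only finitely many elements into
each box has a nonuniqueness phase. -/
theorem nonuniquePhase_of_dense {Γ : Type} [Group Γ] (ρ : Γ →* SL(3, k)) (hd : Dense ρ)
    (hfin : ∀ R : ℝ, {g | ∀ i j, ‖(ρ g : M3 k) i j‖ ≤ R}.Finite) : SG.NonuniquePhase Γ := by
  have := infinite_of_dense ρ hd
  refine nonuniquePhase_of_steps ρ hfin (frames_ok ρ hd) (fun O ι _ _ _ _ E p hs => ?_)
    (fun O ι _ _ _ _ E => ⟨E.schur_ok E.cocycle_ok, E.limit_ok⟩)
  exact E.closed_at E.est_ok E.count_ok (E.scale_ok E.est_ok) E.init_ok (E.split_ok E.cocycle_ok) hs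
    (E.branch_ok hs)

theorem nonuniquePhase_int : SG.NonuniquePhase SL(3, ℤ) :=
  nonuniquePhase_of_dense intHom intHom_dense intHom_discrete

theorem nonuniquePhase_gauss : SG.NonuniquePhase SL(3, GaussianInt) :=
  nonuniquePhase_of_dense gaussHom gaussHom_dense gaussHom_discrete

/-! ### The elementary matrices -/

/-- The elementary matrix with one off-diagonal entry `n`. -/
def elem {i j : Fin 3} (h : i ≠ j) (n : ℤ) : SL(3, ℤ) :=
  ⟨transvection i j n, det_transvection_of_ne i j h n⟩

theorem elem_mem {H : Subgroup SL(3, ℤ)} {i j : Fin 3} (h : i ≠ j) (h1 : elem h 1 ∈ H) (n : ℤ) :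
    elem h n ∈ H := by
  have e : ∀ a b : ℤ, elem h a * elem h b = elem h (a + b) := fun a b =>
    Subtype.ext (transvection_mul_transvection_same i j h a b)
  have e0 : elem h 0 = 1 := Subtype.ext (transvection_zero i j)
  induction n using Int.induction_on with
  | zero => rw [e0]; exact one_mem _
  | succ m ih => rw [← e]; exact mul_mem ih h1
  | pred m ih =>
    have h2 : elem h (-1) = (elem h 1)⁻¹ :=
      eq_inv_of_mul_eq_one_left (by rw [e, neg_add_cancel, e0])
    rw [sub_eq_add_neg, ← e, h2]
    exact mul_mem ih (inv_mem h1)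

theorem intHom_elem {i j : Fin 3} (h : i ≠ j) (n : ℤ) :
    (intHom (elem h n) : M3 ℝ) = transvection i j (n : ℝ) := by
  ext a b
  show ((Int.castRingHom ℝ) (transvection i j n a b)) = _
  by_cases h1 : a = b <;> by_cases h2 : i = a <;> by_cases h3 : j = b <;>
    simp [transvection, Matrix.single_apply, h1, h2, h3]

/-- A subgroup of the integer points containing the elementary matrices is Zariski dense. -/
theorem subgroup_dense (H : Subgroup SL(3, ℤ))
    (h : ∀ (i j : Fin 3) (hij : i ≠ j), elem hij 1 ∈ H) : Dense (intHom.comp H.subtype) :=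
  fun f hf a => zariskiDense_of_transvections (Int.castRingHom ℝ) Int.cast_injective
    (Set.range fun g : H => (intHom g : M3 ℝ))
    ⟨1, by simp⟩
    (fun g hg p q hpq t => by
      obtain ⟨g, rfl⟩ := hg
      refine ⟨⟨elem hpq t, elem_mem hpq (h p q hpq) t⟩ * g, ?_⟩
      simp [intHom_elem])
    f (by rintro _ ⟨g, rfl⟩; exact hf g) a a.2

/-- The Cayley graph of the group generated by the six elementary matrices. -/
theorem pc_lt_pu_elementary :
    let S : Set SL(3, ℤ) := {g | ∃ i j : Fin 3, i ≠ j ∧ (g : Matrix (Fin 3) (Fin 3) ℤ) =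
      transvection i j 1}
    pc (SimpleGraph.mulCayley ((Subgroup.closure S).subtype ⁻¹' S)) <
      pu (SimpleGraph.mulCayley ((Subgroup.closure S).subtype ⁻¹' S)) := by
  intro S
  have hS : S.Finite := by
    refine (Set.finite_range fun e : {e : Fin 3 × Fin 3 // e.1 ≠ e.2} => elem e.2 1).subset
      fun g hg => ?_
    obtain ⟨i, j, hij, hg⟩ := hg
    exact ⟨⟨(i, j), hij⟩, Subtype.ext hg.symm⟩
  have hd : Dense (intHom.comp (Subgroup.closure S).subtype) :=
    subgroup_dense _ fun i j hij => Subgroup.subset_closure ⟨i, j, hij, rfl⟩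
  have hfin : ∀ R : ℝ, {g : Subgroup.closure S |
      ∀ i j, ‖((intHom.comp (Subgroup.closure S).subtype) g : M3 ℝ) i j‖ ≤ R}.Finite := fun R =>
    ((intHom_discrete R).preimage (Subgroup.subtype_injective _).injOn).subset fun g hg => hg
  refine (nonuniquePhase_of_dense _ hd hfin).2 _ _ ?_ ?_ (MonoidHom.id _) Function.injective_id ?_
  · exact hS.preimage (Subgroup.subtype_injective _).injOn
  · exact Subgroup.closure_closure_coe_preimage
  · rw [MonoidHom.range_eq_top_of_surjective _ Function.surjective_id]; infer_instance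

end Vale.Agent.P165.SL
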