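import Vale.Agent.P165.SL.Reducible
import Vale.Agent.P165.SL.Main

/-!
# P165, SL route: every discrete subgroup of SL₃ that is not virtually solvable
-/

namespace Vale.Agent.P165.SL

open Matrix
open scoped Matrix.Norms.Elementwise MatrixGroups

/-- A group with a homomorphism to `SL₃(k)` sending only finitely many elements into each box, no
subgroup of finite index having solvable image, has a nonuniqueness phase. -/
theorem nonuniquePhase_of_discrete {k : Type} [NontriviallyNormedField k] [ProperSpace k]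
    {Γ : Type} [Group Γ] (ρ : Γ →* SL(3, k))
    (hfin : ∀ R : ℝ, {g | ∀ i j, ‖(ρ g : M3 k) i j‖ ≤ R}.Finite)
    (hns : ∀ S : Subgroup Γ, S.FiniteIndex → ¬ Group.IsSolvable (S.map ρ)) :
    SG.NonuniquePhase Γ := by
  by_cases hirr : StrongIrred ρ
  · have := infinite_of_irred ρ hirr
    refine nonuniquePhase_of_steps ρ hfin (frames_of_irred ρ hirr) (fun O ι _ _ _ _ E p hs => ?_)
      (fun O ι _ _ _ _ E => ⟨E.schur_ok E.cocycle_ok, E.limit_ok⟩)
    exact E.closed_at E.est_ok E.count_ok (E.scale_ok E.est_ok) E.init_ok (E.split_ok E.cocycle_ok)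
      hs (E.branch_ok hs)
  · obtain ⟨H, ψ, hH, hψ⟩ := exists_GL2_of_reducible ρ hirr hns
    exact nonuniquePhase_of_finiteIndex H (GL2.nonuniquePhase_of_image ψ hψ)

end Vale.Agent.P165.SL
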