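import Vale.Agent.P165.SL.Base
import Vale.Agent.P165.TL.Main

/-!
# Discrete dense subgroups in degree three: assembly of the steps
-/

namespace Vale.Agent.P165.SL

open Finset FF Matrix
open scoped Matrix.Norms.Elementwise MatrixGroups

variable {k : Type} [NontriviallyNormedField k]

section Core

variable {Γ O ι : Type} [Group Γ] [Fintype ι] [DecidableEq Γ] [DecidableEq O]
  (E : Env k Γ O ι)

theorem Env.exists_small {p : ℝ} (hs : FQ.Sub E.nb p) (hcl : E.ClosedAt p) (hsch : E.SchurOK)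
    (hlim : E.LimitOK) :
    ∃ n, 1 ≤ n ∧ FQ.FormSmall E.nb (fun x => QT.wball E.nb x n) n p (1 / 4) := by
  obtain ⟨B, hB⟩ := hcl
  obtain ⟨n, hn⟩ := exists_nat_ge (4 * B)
  refine ⟨n + 1, by omega, hlim p _ _ hs.1 hs.2.1 fun q hq hq' => ?_⟩
  obtain ⟨β, -, hrow⟩ := hB (n + 1) q hq hq'
  exact hsch q β B (n + 1) (by linarith [hs.1]) (hq'.le.trans hs.2.1) hrow
    (by push_cast; linarith)

theorem Env.pc_lt_pu [Fintype O] [Infinite Γ]
    (hclosed : ∀ p, FQ.Sub E.nb p → E.ClosedAt p) (hsch : E.SchurOK) (hlim : E.LimitOK) :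
    pc E.G < pu E.G := by
  have : Nonempty O := ⟨E.o₁⟩
  refine FQ.pc_lt_pu_of_small E.hl E.hinv E.conn fun p hs => ?_
  obtain ⟨n, hn, hf⟩ := E.exists_small hs (hclosed p hs) hsch hlim
  exact ⟨fun x => QT.wball E.nb x n, n, hn, QT.covers_wball E.hl n,
    fun g x => QT.image_wball E.hl (trIso E.hinv g) x n, hf⟩

end Core

theorem abs_entry_le (A : M3 k) (i j : Fin 3) : ‖A i j‖ ≤ ‖A‖ :=
  Matrix.norm_entry_le_entrywise_sup_norm A

/-- The steps together give a nonuniqueness phase. -/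
theorem nonuniquePhase_of_steps {Γ : Type} [Group Γ] [Infinite Γ] (ρ : Γ →* SL(3, k))
    (hfin : ∀ R : ℝ, {g | ∀ i j, ‖(ρ g : M3 k) i j‖ ≤ R}.Finite) (hF : FramesOK ρ)
    (hclosed : ∀ (O ι : Type) [Fintype O] [Fintype ι] [DecidableEq Γ] [DecidableEq O]
      (E : Env k Γ O ι) (p : ℝ), FQ.Sub E.nb p → E.ClosedAt p)
    (hrest : ∀ (O ι : Type) [Fintype O] [Fintype ι] [DecidableEq Γ] [DecidableEq O]
      (E : Env k Γ O ι), E.SchurOK ∧ E.LimitOK) :
    SG.NonuniquePhase Γ := by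
  classical
  have key : ∀ (V : Type) (G : SimpleGraph V) (d : ℕ), G.Connected →
      (∀ v, (G.neighborSet v).encard = d) → ∀ (Φ : Γ →* (G ≃g G)),
      (∀ g v, Φ g v = v → g = 1) → ∀ R : Finset V, (∀ v, ∃ g, Φ g v ∈ R) → pc G < pu G := by
    intro V G d hc hd Φ free R cover
    obtain ⟨O, hO, hO', G', hinv, ⟨φ⟩⟩ := exists_chart G Φ free R cover
    have hc' : G'.Connected := φ.connected_iff.1 hc
    have hd' : ∀ x, (G'.neighborSet x).encard = d := fun x => by
      obtain ⟨v, rfl⟩ := φ.surjective x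
      rw [← hd v]
      exact (ENat.card_congr (φ.mapNeighborSet v)).symm
    obtain ⟨nb, hl⟩ := exists_labelling G' d hd'
    obtain ⟨F, c, hc0, hfr⟩ := hF
    rw [pc_congr φ, pu_congr φ]
    let E : Env k Γ O (Fin d) :=
      { G := G', nb := nb, hl := hl, hinv := hinv, conn := hc', o₁ := (hc'.nonempty.some).2,
        ρ := ρ,
        discrete := fun r => (hfin r).subset fun g hg i j => (abs_entry_le _ i j).trans hg,
        F := F, c := c, c_pos := hc0, frames := hfr }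
    obtain ⟨h1, h2⟩ := hrest O (Fin d) E
    exact E.pc_lt_pu (hclosed O (Fin d) E) h1 h2
  refine ⟨key, fun Δ _ s hfins hgen ψ hψ hidx => ?_⟩
  obtain ⟨hconn, d, hd⟩ := TL.connected_regular_mulCayley s hfins hgen
  obtain ⟨Φ, R, free, cover⟩ := exists_leftAction (SimpleGraph.mulCayley s)
    (fun _ _ _ => SimpleGraph.mulCayley_adj_mul_iff_right) ψ hψ hidx
  exact key _ _ d hconn hd Φ free R cover

end Vale.Agent.P165.SL
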