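import Vale.Agent.P165.QT.Threshold
import Vale.Agent.P165.FQ.Threshold

/-!
# Discrete images in degree three: setting and statements of the steps

A regular graph on finitely many copies of a group `Γ` with a representation in `SL₃(k)`, for a normed
field `k`, with finitely many elements in every bounded set, and a finite set of frames. No singular
values and no inner products are used: all sizes are largest norms of entries of `ρ g`, of the
contragredient, and of their products with fixed matrices.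
-/

namespace Vale.Agent.P165.SL

open Finset FF Matrix
open scoped Matrix.Norms.Elementwise MatrixGroups

/-- Matrices of degree three. -/
abbrev M3 (k : Type) : Type := Matrix (Fin 3) (Fin 3) k

variable {k : Type} [NontriviallyNormedField k]

/-- The matrix with the single row `x`. -/
def rowM (x : Fin 3 → k) : M3 k := Matrix.of ![x, 0, 0]

/-- The matrix of the cross product with `x`. -/
def crossM (x : Fin 3 → k) : M3 k := !![0, -x 2, x 1; x 2, 0, -x 0; -x 1, x 0, 0]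

/-- A unit vector: the largest norm of a coordinate is one. -/
def IsUnit3 (x : Fin 3 → k) : Prop := ‖x‖ = 1

/-- A point and a plane through it, given by unit vectors: `x false` is the covector of the plane and
`x true` the point. -/
def IsFlag (x : Bool → Fin 3 → k) : Prop :=
  (∀ s, IsUnit3 (x s)) ∧ ∑ i, x false i * x true i = 0

/-- The representation and its contragredient. -/
def rep {Γ : Type} [Group Γ] (ρ : Γ →* SL(3, k)) : Bool → Γ → M3 k
  | false, g => (ρ g : M3 k)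
  | true, g => (ρ g⁻¹ : M3 k)ᵀ

/-- A graph on copies of a group with a discrete representation and frames. -/
structure Env (k : Type) [NontriviallyNormedField k] (Γ O ι : Type) [Group Γ] [Fintype ι] where
  /-- The graph. -/
  G : SimpleGraph (Γ × O)
  /-- The neighbours of a vertex. -/
  nb : Γ × O → ι → Γ × O
  hl : Labelling G nb
  hinv : Inv G
  conn : G.Connected
  /-- The type of the anchor. -/
  o₁ : O
  /-- The representation. -/
  ρ : Γ →* SL(3, k)
  discrete : ∀ R : ℝ, {g : Γ | ‖(ρ g : M3 k)‖ ≤ R}.Finite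
  /-- The frames. -/
  F : Finset Γ
  /-- The constant of the frames. -/
  c : ℝ
  c_pos : 0 < c
  frames : ∀ (Q : Bool → Fin 4 → M3 k) (z h : Γ), ∃ σ ∈ F, ∀ (s : Bool) (i : Fin 4),
    c * (‖Q s i * rep ρ s z‖ * ‖rep ρ s h‖) ≤ ‖Q s i * rep ρ s (z * σ * h)‖

namespace Env

variable {Γ O ι : Type} [Group Γ] [Fintype ι] (E : Env k Γ O ι)

/-- The logarithmic size on one side. -/
noncomputable def m (s : Bool) (g : Γ) : ℝ := Real.log ‖rep E.ρ s g‖

/-- The logarithmic defect of a test matrix on one side. -/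
noncomputable def L (Q : M3 k) (s : Bool) (g : Γ) : ℝ :=
  Real.log (‖rep E.ρ s g‖ / ‖Q * rep E.ρ s g‖)

/-- The simple root on one side: twice the size less that of the other side. -/
noncomputable def gap (s : Bool) (g : Γ) : ℝ := 2 * E.m s g - E.m (!s) g

/-- The defect of a flag on one side. -/
noncomputable def j (x : Bool → Fin 3 → k) (s : Bool) (g : Γ) : ℝ := E.L (rowM (x s)) s g

/-- The depth in the cell of a flag on one side. -/
noncomputable def ell (x : Bool → Fin 3 → k) (s : Bool) (g : Γ) : ℝ :=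
  E.L (crossM (x (!s))) s g

/-- The exponent of the weight of a flag. -/
noncomputable def En (x : Bool → Fin 3 → k) (g : Γ) : ℝ :=
  E.m false g + E.m true g - E.j x false g - E.j x true g

/-- The weight of a flag. -/
noncomputable def Wt (β : ℝ) (x : Bool → Fin 3 → k) (g : Γ) : ℝ :=
  Real.exp (-(β * E.En x g))

/-- The elements at which the sizes of a product along a frame add up. -/
def Cand (A : ℝ) (y z : Γ) : Prop :=
  ∃ h : Γ, (∃ σ ∈ E.F, z * σ * h = y) ∧ ∀ s, |E.m s y - E.m s z - E.m s h| ≤ A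

/-! ### Linear algebra -/

/-- The estimates on one element and on one frame. -/
structure Est (C : ℝ) : Prop where
  nonneg : 0 ≤ C
  frame : ∀ (Q : Bool → Fin 3 → M3 k) (z h : Γ), ∃ σ ∈ E.F, ∀ s : Bool,
    |E.m s (z * σ * h) - E.m s z - E.m s h| ≤ C ∧
      ∀ i, Q s i ≠ 0 → |E.L (Q s i) s (z * σ * h) - E.L (Q s i) s z| ≤ C
  gap_cell : ∀ x : Fin 3 → k, IsUnit3 x → ∀ s g,
    -C ≤ E.L (crossM x) s g ∧ E.L (crossM x) s g ≤ E.gap s g + C
  row : ∀ x, IsFlag x → ∀ s g, E.j x s g ≤ E.gap s g + E.ell x (!s) g + C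
  one : ∀ x, IsFlag x → ∀ s, E.ell x s 1 ≤ C
  step : ∀ x : Fin 3 → k, IsUnit3 x → ∀ (s : Bool) (g : Γ) (o : O) (i : ι),
    |E.L (crossM x) s (g * (E.nb (1, o) i).1) - E.L (crossM x) s g| ≤
      C * Real.exp (E.L (crossM x) s g - E.gap s g)
  close : ∀ (w w' : Fin 3 → k), IsUnit3 w → IsUnit3 w' → ∀ (s : Bool) (y y' : Γ) (n : ℝ),
    n ≤ E.L (crossM w) s y → n ≤ E.L (crossM w') s y → n ≤ E.L (crossM w') s y' →
      n - C ≤ E.L (crossM w) s y'

/-- The estimates hold with some constant. -/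
def EstOK : Prop := ∃ C, E.Est C

/-- The weight is a cocycle on flags. -/
def CocycleOK : Prop :=
  ∀ x, IsFlag x → ∀ g : Γ, ∃ x', IsFlag x' ∧
    ∀ (β : ℝ) (h : Γ), E.Wt β x (g * h) = E.Wt β x g * E.Wt β x' h

/-- Boundedly many candidates of one element have given sizes. -/
def PackOK : Prop :=
  ∀ A : ℝ, ∃ N : ℕ, ∀ (y : Γ) (M : Bool → ℝ) (Z : Finset Γ),
    (∀ z ∈ Z, E.Cand A y z ∧ ∀ s, |E.m s z - M s| ≤ A) → Z.card ≤ N

/-- Weighted candidates: two independent linear coordinates of the sizes give two geometric sums. -/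
def CountOK : Prop :=
  ∀ (A : ℝ) (a b : Bool → ℝ), a false * b true - a true * b false ≠ 0 →
    ∃ N : ℝ, 0 ≤ N ∧ ∀ (y : Γ) (a₀ b₀ α γ : ℝ), 0 < α → α ≤ 1 → 0 < γ → γ ≤ 1 →
      ∀ Z : Finset Γ,
        (∀ z ∈ Z, E.Cand A y z ∧ 0 ≤ a false * E.m false z + a true * E.m true z + a₀ ∧
          0 ≤ b false * E.m false z + b true * E.m true z + b₀) →
        ∑ z ∈ Z, Real.exp (-(α * (a false * E.m false z + a true * E.m true z + a₀)) -
            γ * (b false * E.m false z + b true * E.m true z + b₀)) ≤ N / (α * γ)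

/-- One scale at which every upper cell minus some deeper cell is small, on both sides. -/
def ScaleOK : Prop :=
  ∀ A : ℝ, 0 ≤ A → ∀ ε : ℝ, 0 < ε → ∀ N₀ : ℕ, ∃ N₁ : ℕ, ∀ (U : Finset Γ) (μ : Γ → ℝ),
    (∀ y, 0 ≤ μ y) → ∃ N : ℕ, N₀ ≤ N ∧ N ≤ N₁ ∧ ∀ (s : Bool) (v : Fin 3 → k), IsUnit3 v →
      ∃ w, IsUnit3 w ∧ ∀ U' ⊆ U,
        (∀ y ∈ U', (N : ℝ) - A ≤ E.L (crossM v) s y ∧ E.L (crossM w) s y ≤ 3 * N + A) →
        ∑ y ∈ U', μ y ≤ ε * ∑ y ∈ U, μ y

/-! ### Percolation -/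

variable [DecidableEq Γ] [DecidableEq O]

/-- The connection probability of the anchor with its translate. -/
noncomputable def anc (p : ℝ) (g : Γ) : ℝ := T E.nb p ((1 : Γ), E.o₁) (g, E.o₁)

/-- The chance of at most `K` open steps from `a` to `y`. -/
noncomputable def tau (p : ℝ) (K : ℕ) (a y : Γ × O) : ℝ :=
  FQ.tauW E.nb (QT.wball E.nb a K) p a y K

/-- The weighted branch bound against one finite set carrying most of the susceptibility. -/
def BranchAt (q C : ℝ) : Prop :=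
  ∀ η : ℝ, 0 < η → ∃ U : Finset Γ, 0 < ∑ g ∈ U, E.anc q g ∧
    ∀ (Z : Finset Γ) (w : Γ → ℝ) (R : Γ → Γ → Γ) (N δ : ℝ), 0 ≤ N → (∀ z, 0 ≤ w z) →
      (∀ z h, R z h ∈ E.F) →
      (∀ y, ∀ Z' ⊆ Z, (∀ z ∈ Z', ∃ h, z * R z h * h = y) → ∑ z ∈ Z', w z ≤ N) →
      (∀ U' ⊆ U, (∀ y ∈ U', ∃ z ∈ Z, ∃ h, z * R z h * h = y) →
        ∑ y ∈ U', E.anc q y ≤ δ * ∑ y ∈ U, E.anc q y) →
      ∑ z ∈ Z, w z * E.anc q z ≤ C * N * (δ + η)

/-- Above half of such a parameter the branch bound is uniform, and vertices compare with the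
anchors. -/
def BranchOK (p : ℝ) : Prop :=
  ∃ C, 0 ≤ C ∧ ∀ q, p / 2 ≤ q → q < p → E.BranchAt q C ∧
    ∀ (K : ℕ) (a y : Γ × O), E.tau q K a y ≤ C * E.anc q (a.1⁻¹ * y.1)

/-- A bound on the weighted row sums of all flags. -/
def RowBound (p β : ℝ) (K : ℕ) (B : ℝ) : Prop :=
  ∀ x, IsFlag x → ∀ (o : O) (S : Finset (Γ × O)),
    ∑ y ∈ S, E.tau p K ((1 : Γ), o) y * E.Wt β x y.1 ≤ B

/-- A finite window has some bound. -/
def InitOK : Prop :=
  ∀ (p β : ℝ) (K : ℕ), 0 ≤ p → p ≤ 1 → 0 ≤ β → ∃ B, 0 ≤ B ∧ E.RowBound p β K B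

/-- Splitting at the last entrance into a set. -/
def SplitOK : Prop :=
  ∀ (p β B : ℝ) (K : ℕ) (C : Set Γ), 0 ≤ p → p ≤ 1 → 0 ≤ B → (1 : Γ) ∉ C → E.RowBound p β K B →
    ∀ x, IsFlag x → ∀ (o : O) (S : Finset (Γ × O)), ∃ S' Z : Finset (Γ × O),
      (∀ y ∈ S', y.1 ∉ C) ∧
      (∀ z ∈ Z, z ∈ QT.wball E.nb ((1 : Γ), o) K ∧ z.1 ∈ C ∧
        ∃ (o' : O) (i : ι), z.1 * (E.nb ((1 : Γ), o') i).1 ∉ C) ∧
      ∑ y ∈ S, E.tau p K ((1 : Γ), o) y * E.Wt β x y.1 ≤
        ∑ y ∈ S', E.tau p K ((1 : Γ), o) y * E.Wt β x y.1 +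
          B * ∑ z ∈ Z, E.tau p K ((1 : Γ), o) z * E.Wt β x z.1

/-- A small form just below a parameter passes to it. -/
def LimitOK : Prop :=
  ∀ (p η : ℝ) (n : ℕ), 0 < p → p ≤ 1 →
    (∀ q, p / 2 ≤ q → q < p → FQ.FormSmall E.nb (fun x => QT.wball E.nb x n) n q η) →
    FQ.FormSmall E.nb (fun x => QT.wball E.nb x n) n p η

/-- Schur's test. -/
def SchurOK : Prop :=
  ∀ (p β B : ℝ) (n : ℕ), 0 ≤ p → p ≤ 1 → E.RowBound p β n B → 4 * B ≤ n →
    FQ.FormSmall E.nb (fun x => QT.wball E.nb x n) n p (1 / 4)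

/-- The recursion closes below every parameter with exit certificates. -/
def ClosedAt (p : ℝ) : Prop :=
  ∃ B : ℝ, ∀ (K : ℕ) (q : ℝ), p / 2 ≤ q → q < p → ∃ β : ℝ, 0 ≤ β ∧ E.RowBound q β K B

end Env

/-- No polynomial in the entries vanishes on the image without vanishing on all of `SL₃(k)`. -/
def Dense {Γ : Type} [Group Γ] (ρ : Γ →* SL(3, k)) : Prop :=
  ∀ f : MvPolynomial (Fin 3 × Fin 3) k,
    (∀ g, MvPolynomial.eval (fun e => (ρ g : M3 k) e.1 e.2) f = 0) →
      ∀ a : SL(3, k), MvPolynomial.eval (fun e => (a : M3 k) e.1 e.2) f = 0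

/-- A representation has frames. -/
def FramesOK {Γ : Type} [Group Γ] (ρ : Γ →* SL(3, k)) : Prop :=
  ∃ (F : Finset Γ) (c : ℝ), 0 < c ∧ ∀ (Q : Bool → Fin 4 → M3 k) (z h : Γ), ∃ σ ∈ F,
    ∀ (s : Bool) (i : Fin 4),
      c * (‖Q s i * rep ρ s z‖ * ‖rep ρ s h‖) ≤ ‖Q s i * rep ρ s (z * σ * h)‖

end Vale.Agent.P165.SL
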