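import Vale.Agent.P165.SL.Base
import Vale.Agent.P165.SL.Pack

/-!
# The estimates at one element

The rows of the contragredient are cross products of columns, so products with a cross product
matrix compare the sizes on the two sides. A matrix is a rank one matrix up to its minors over its
largest entry, so a step moves the depth in a cell by the defect of that split.
-/

namespace Vale.Agent.P165.SL

open Finset Matrix
open scoped Matrix.Norms.Elementwise MatrixGroups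

variable {k : Type} [NontriviallyNormedField k]

namespace Cells

/-! ### Norms -/

theorem norm_mul_le3 (A B : M3 k) : ‖A * B‖ ≤ 3 * (‖A‖ * ‖B‖) := Pack.norm_mul_le_three A B

theorem norm_apply_le (A : M3 k) (i j : Fin 3) : ‖A i j‖ ≤ ‖A‖ :=
  norm_entry_le_entrywise_sup_norm A

/-- The column `j`. -/
def col3 (A : M3 k) (j : Fin 3) : Fin 3 → k := fun i => A i j

theorem norm_col_le (A : M3 k) (j : Fin 3) : ‖col3 A j‖ ≤ ‖A‖ := Pack.norm_col_le A j

theorem norm_le_of_cols (A : M3 k) {B : ℝ} (hB : 0 ≤ B) (h : ∀ j, ‖col3 A j‖ ≤ B) : ‖A‖ ≤ B :=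
  (norm_le_iff hB).2 fun i j => (norm_le_pi_norm (col3 A j) i).trans (h j)

theorem exists_col_large (A : M3 k) : ∃ j, ‖A‖ ≤ ‖col3 A j‖ := by
  obtain ⟨i, j, h⟩ := Pack.exists_norm_entry A
  exact ⟨j, h.trans_le (norm_le_pi_norm (col3 A j) i)⟩

theorem norm_vecMulVec (u r : Fin 3 → k) : ‖vecMulVec u r‖ = ‖u‖ * ‖r‖ := by
  refine le_antisymm (Pack.norm_vecMulVec_le u r) ?_
  obtain ⟨i, hi⟩ := Finite.exists_max fun i => ‖u i‖
  obtain ⟨j, hj⟩ := Finite.exists_max fun j => ‖r j‖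
  refine (mul_le_mul ((pi_norm_le_iff_of_nonneg (norm_nonneg _)).2 hi)
    ((pi_norm_le_iff_of_nonneg (norm_nonneg _)).2 hj) (norm_nonneg _) (norm_nonneg _)).trans ?_
  rw [← norm_mul, ← vecMulVec_apply]
  exact norm_apply_le _ i j

/-! ### Cross products -/

theorem norm_minor_le (a b : Fin 3 → k) (j l : Fin 3) :
    ‖a l * b j - a j * b l‖ ≤ ‖a ⨯₃ b‖ := by
  have h0 := norm_le_pi_norm (a ⨯₃ b) 0
  have h1 := norm_le_pi_norm (a ⨯₃ b) 1
  have h2 := norm_le_pi_norm (a ⨯₃ b) 2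
  simp [cross_apply] at h0 h1 h2
  fin_cases j <;> fin_cases l <;> simp [norm_sub_rev] <;>
    first | assumption | (rw [norm_sub_rev]; assumption)

/-- The part along a unit vector and the part across it. -/
theorem exists_split {x : Fin 3 → k} (hx : IsUnit3 x) (c : Fin 3 → k) :
    ∃ (a : k) (r : Fin 3 → k), c = a • x + r ∧ ‖a‖ ≤ ‖c‖ ∧ ‖r‖ ≤ ‖x ⨯₃ c‖ := by
  obtain ⟨m, hm⟩ := Finite.exists_max fun i => ‖x i‖
  have hm1 : ‖x m‖ = 1 := le_antisymm ((norm_le_pi_norm x m).trans hx.le)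
    (hx.ge.trans ((pi_norm_le_iff_of_nonneg (norm_nonneg _)).2 hm))
  have hne : x m ≠ 0 := fun h => by simp [h] at hm1
  refine ⟨c m / x m, c - (c m / x m) • x, (add_sub_cancel _ _).symm, ?_, ?_⟩
  · rw [norm_div, hm1, div_one]
    exact norm_le_pi_norm c m
  · refine (pi_norm_le_iff_of_nonneg (norm_nonneg _)).2 fun l => ?_
    have e : (c - (c m / x m) • x) l = (x m * c l - x l * c m) / x m := by
      simp only [Pi.sub_apply, Pi.smul_apply, smul_eq_mul]
      field_simp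
    rw [e, norm_div, hm1, div_one]
    exact norm_minor_le x c l m

theorem cross_cross_eq (x a b : Fin 3 → k) :
    x ⨯₃ (a ⨯₃ b) = (x ⬝ᵥ b) • a - (x ⬝ᵥ a) • b := by
  funext i
  fin_cases i <;> simp [cross_apply, dotProduct, Fin.sum_univ_three] <;> ring

/-- Two vectors near one line have a small cross product. -/
theorem norm_cross_le_of_unit {x : Fin 3 → k} (hx : IsUnit3 x) (c d : Fin 3 → k) :
    ‖c ⨯₃ d‖ ≤ 2 * (‖c‖ * ‖x ⨯₃ d‖ + ‖x ⨯₃ c‖ * ‖d‖) := by
  obtain ⟨a, r, hc, ha, hr⟩ := exists_split hx c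
  conv_lhs => rw [hc]
  rw [map_add, map_smul, LinearMap.add_apply, LinearMap.smul_apply]
  refine (norm_add_le _ _).trans ?_
  rw [norm_smul]
  have h1 := mul_le_mul_of_nonneg_right ha (norm_nonneg (x ⨯₃ d))
  have h2 := (Pack.norm_cross_le r d).trans
    (mul_le_mul_of_nonneg_left (mul_le_mul_of_nonneg_right hr (norm_nonneg d)) zero_le_two)
  linarith [mul_nonneg (norm_nonneg c) (norm_nonneg (x ⨯₃ d))]

theorem crossM_col (x : Fin 3 → k) (A : M3 k) (j : Fin 3) :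
    col3 (crossM x * A) j = x ⨯₃ col3 A j := by
  funext i
  fin_cases i <;> simp [col3, crossM, cross_apply, Matrix.mul_apply, Fin.sum_univ_three] <;> ring

theorem rowM_mul (x : Fin 3 → k) (A : M3 k) (j : Fin 3) : (rowM x * A) 0 j = x ⬝ᵥ col3 A j := by
  simp [rowM, col3, Matrix.mul_apply, dotProduct]

theorem norm_rowM_eq (v : Fin 3 → k) : ‖rowM v‖ = ‖v‖ := by
  refine le_antisymm ((norm_le_iff (norm_nonneg _)).2 fun i j => ?_)
    ((pi_norm_le_iff_of_nonneg (norm_nonneg _)).2 fun j => ?_)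
  · fin_cases i <;> simp [rowM, norm_le_pi_norm]
  · simpa [rowM] using norm_apply_le (rowM v) 0 j

theorem norm_rowM {x : Fin 3 → k} (hx : IsUnit3 x) : ‖rowM x‖ = 1 := (norm_rowM_eq x).trans hx

theorem norm_crossM {x : Fin 3 → k} (hx : IsUnit3 x) : ‖crossM x‖ = 1 := by
  refine (le_antisymm ((norm_le_iff (norm_nonneg _)).2 fun i j => ?_)
    ((pi_norm_le_iff_of_nonneg (norm_nonneg _)).2 fun j => ?_)).trans hx
  · fin_cases i <;> fin_cases j <;> simp [crossM, norm_le_pi_norm]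
  · fin_cases j
    · simpa [crossM] using norm_apply_le (crossM x) 2 1
    · simpa [crossM] using norm_apply_le (crossM x) 0 2
    · simpa [crossM] using norm_apply_le (crossM x) 1 0

/-! ### The contragredient -/

theorem adjugate_row (A : M3 k) (i : Fin 3) :
    col3 (adjugate A)ᵀ i = col3 A (i + 1) ⨯₃ col3 A (i + 2) := by
  funext a
  fin_cases i <;> fin_cases a <;> simp [col3, adjugate_fin_three, cross_apply] <;> ring

theorem norm_row_cross_le (A : M3 k) (a b : Fin 3) : ‖A a ⨯₃ A b‖ ≤ ‖(adjugate A)ᵀ‖ := by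
  have hrow : ∀ l : Fin 3, ‖A (l + 1) ⨯₃ A (l + 2)‖ ≤ ‖(adjugate A)ᵀ‖ := fun l => by
    rw [norm_transpose]
    calc ‖A (l + 1) ⨯₃ A (l + 2)‖ = ‖col3 (adjugate Aᵀ)ᵀ l‖ := by rw [adjugate_row]; rfl
      _ ≤ ‖(adjugate Aᵀ)ᵀ‖ := norm_col_le _ _
      _ = ‖adjugate A‖ := by rw [← adjugate_transpose, transpose_transpose]
  have hneg : ∀ l : Fin 3, ‖A (l + 2) ⨯₃ A (l + 1)‖ ≤ ‖(adjugate A)ᵀ‖ := fun l => by
    rw [← cross_anticomm, norm_neg]
    exact hrow l
  fin_cases a <;> fin_cases b <;>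
    first
    | (simp [cross_self]; done)
    | exact hrow 0 | exact hrow 1 | exact hrow 2
    | exact hneg 0 | exact hneg 1 | exact hneg 2

/-- A matrix is a rank one matrix up to its minors over its largest entry. -/
theorem rank_one_split (A : M3 k) (hA : A ≠ 0) :
    ∃ (u r : Fin 3 → k) (N : M3 k), A = vecMulVec u r + N ∧
      ‖N‖ * ‖A‖ ≤ ‖(adjugate A)ᵀ‖ := by
  obtain ⟨i, j, hij⟩ := Pack.exists_norm_entry A
  have hpos : 0 < ‖A‖ := norm_pos_iff.2 hA
  have hne : A i j ≠ 0 := norm_pos_iff.1 (hij ▸ hpos)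
  refine ⟨col3 A j, fun l => A i l / A i j, A - vecMulVec (col3 A j) fun l => A i l / A i j,
    (add_sub_cancel _ _).symm, ?_⟩
  rw [← le_div_iff₀ hpos, norm_le_iff (by positivity)]
  intro a l
  have e : (A - vecMulVec (col3 A j) fun l => A i l / A i j) a l =
      (A a l * A i j - A a j * A i l) / A i j := by
    simp [vecMulVec_apply, col3]
    field_simp
  rw [e, norm_div, ← hij]
  exact div_le_div_of_nonneg_right ((norm_minor_le (A a) (A i) j l).trans
    (norm_row_cross_le A a i)) hpos.le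

/-- Near a rank one matrix the defect is that of its column. -/
theorem log_defect_le {P N : M3 k} {u b : Fin 3 → k} (hP : ‖P‖ ≤ 1)
    (hsmall : 8 * ‖N‖ ≤ ‖P * (vecMulVec u b + N)‖) (hpos : 0 < ‖P * (vecMulVec u b + N)‖) :
    |Real.log (‖vecMulVec u b + N‖ / ‖P * (vecMulVec u b + N)‖) -
        Real.log (‖u‖ / ‖P *ᵥ u‖)| ≤
      16 * (‖N‖ / ‖P * (vecMulVec u b + N)‖) := by
  set h := vecMulVec u b + N with hh
  have hPN : ‖P * N‖ ≤ 3 * ‖N‖ := (norm_mul_le3 _ _).trans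
    (mul_le_mul_of_nonneg_left (mul_le_of_le_one_left (norm_nonneg _) hP) (by norm_num))
  have hPh : ‖P * h‖ ≤ 3 * ‖h‖ := (norm_mul_le3 _ _).trans
    (mul_le_mul_of_nonneg_left (mul_le_of_le_one_left (norm_nonneg _) hP) (by norm_num))
  have e1 : P * h = vecMulVec (P *ᵥ u) b + P * N := by
    rw [hh, mul_add, mul_vecMulVec]
  have d0 : |‖h‖ - ‖vecMulVec u b‖| ≤ ‖N‖ := by
    simpa [hh] using abs_norm_sub_norm_le h (vecMulVec u b)
  have d1 : |‖P * h‖ - ‖vecMulVec (P *ᵥ u) b‖| ≤ 3 * ‖N‖ := by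
    refine (abs_norm_sub_norm_le _ _).trans ?_
    rw [e1, add_sub_cancel_left]
    exact hPN
  rw [abs_le] at d0 d1
  have key : ∀ a a' d : ℝ, 0 < a' → 2 * d ≤ a' → |a' - a| ≤ d →
      0 < a ∧ |Real.log a' - Real.log a| ≤ 2 * d / a' := by
    intro a a' d ha' hd hb
    rw [abs_le] at hb
    have ha : a' / 2 ≤ a := by linarith
    have hap : 0 < a := by linarith
    refine ⟨hap, ?_⟩
    rw [← Real.log_div ha'.ne' hap.ne', abs_le]
    have l1 := Real.log_le_sub_one_of_pos (div_pos ha' hap)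
    have l2 := Real.one_sub_inv_le_log_of_pos (div_pos ha' hap)
    rw [inv_div] at l2
    constructor
    · refine le_trans ?_ l2
      rw [neg_le_sub_iff_le_add, ← sub_le_iff_le_add', div_sub_one ha'.ne',
        div_le_div_iff_of_pos_right ha']
      linarith
    · refine l1.trans ?_
      rw [div_sub_one hap.ne', div_le_div_iff₀ hap ha']
      have hd0 : 0 ≤ d := (abs_nonneg _).trans (abs_le.2 hb)
      nlinarith
  have hN0 := norm_nonneg N
  obtain ⟨p1, k1⟩ := key ‖vecMulVec (P *ᵥ u) b‖ ‖P * h‖ (3 * ‖N‖) hpos (by linarith)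
    (abs_le.2 d1)
  obtain ⟨p0, k0⟩ := key ‖vecMulVec u b‖ ‖h‖ ‖N‖ (by linarith) (by linarith) (abs_le.2 d0)
  rw [norm_vecMulVec] at p0 p1
  have hb0 : ‖b‖ ≠ 0 := (right_ne_zero_of_mul p0.ne')
  have e2 : ‖u‖ / ‖P *ᵥ u‖ =
      ‖vecMulVec u b‖ / ‖vecMulVec (P *ᵥ u) b‖ := by
    rw [norm_vecMulVec, norm_vecMulVec, mul_div_mul_right _ _ hb0]
  rw [e2, Real.log_div (by linarith) hpos.ne',
    Real.log_div (by rw [norm_vecMulVec]; exact p0.ne') (by rw [norm_vecMulVec]; exact p1.ne')]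
  have a0 := abs_le.1 k0
  have a1 := abs_le.1 k1
  have h4 : 2 * ‖N‖ / ‖h‖ ≤ 6 * ‖N‖ / ‖P * h‖ := by
    rw [div_le_div_iff₀ (by linarith) hpos]
    nlinarith
  have h5 : 6 * ‖N‖ / ‖P * h‖ + 2 * (3 * ‖N‖) / ‖P * h‖ ≤ 16 * (‖N‖ / ‖P * h‖) := by
    rw [← add_div, mul_div_assoc']
    exact div_le_div_of_nonneg_right (by linarith) hpos.le
  rw [abs_le]
  constructor <;> linarith [a0.1, a0.2, a1.1, a1.2]

/-- A step changes the logarithmic defect by at most twice the logarithm of its size. -/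
theorem step_crude {P A τ τ' : M3 k} {M : ℝ} (hττ' : τ * τ' = 1) (hτ : 3 * ‖τ‖ ≤ M)
    (hτ' : 3 * ‖τ'‖ ≤ M)
    (hA : 0 < ‖A‖) (hPA : 0 < ‖P * A‖) (hM : 0 < M) :
    |Real.log (‖A * τ‖ / ‖P * (A * τ)‖) - Real.log (‖A‖ / ‖P * A‖)| ≤ 2 * Real.log M := by
  have back : ∀ X : M3 k, ‖X‖ ≤ ‖X * τ‖ * M := fun X => by
    refine le_trans (le_of_eq (congrArg norm (show X = X * τ * τ' by
      rw [mul_assoc, hττ', mul_one]))) ?_
    exact (norm_mul_le3 _ _).trans
      ((le_of_eq (mul_left_comm _ _ _)).trans (mul_le_mul_of_nonneg_left hτ' (norm_nonneg _)))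
  have fwd : ∀ X : M3 k, ‖X * τ‖ ≤ ‖X‖ * M := fun X => (norm_mul_le3 _ _).trans
    ((le_of_eq (mul_left_comm _ _ _)).trans (mul_le_mul_of_nonneg_left hτ (norm_nonneg _)))
  have hb : ‖P * A‖ ≤ ‖P * (A * τ)‖ * M := by rw [← mul_assoc]; exact back _
  have hAt : 0 < ‖A * τ‖ := pos_of_mul_pos_left (hA.trans_le (back A)) hM.le
  have hPAt : 0 < ‖P * (A * τ)‖ := pos_of_mul_pos_left (hPA.trans_le hb) hM.le
  rw [Real.log_div hAt.ne' hPAt.ne', Real.log_div hA.ne' hPA.ne']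
  have l1 := Real.log_le_log hAt (fwd A)
  have l2 := Real.log_le_log hA (back A)
  have l3 := Real.log_le_log hPAt (show ‖P * (A * τ)‖ ≤ ‖P * A‖ * M by
    rw [← mul_assoc]; exact fwd _)
  have l4 := Real.log_le_log hPA hb
  rw [Real.log_mul (by positivity) hM.ne'] at l1 l2 l3 l4
  rw [abs_le]
  constructor <;> linarith

/-- A step changes the logarithmic defect little at a matrix near a rank one matrix. -/
theorem step_fine {P A τ τ' N : M3 k} {u r : Fin 3 → k} {M ε : ℝ} (hττ' : τ * τ' = 1)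
    (hτ : 3 * ‖τ‖ ≤ M) (hτ' : 3 * ‖τ'‖ ≤ M) (hM : 1 ≤ M) (hP : ‖P‖ ≤ 1) (hA : A = vecMulVec u r + N)
    (hPA : 0 < ‖P * A‖) (hN : ‖N‖ ≤ 9 * (ε * ‖P * A‖)) (hsm : 72 * M ^ 2 * ε ≤ 1) :
    |Real.log (‖A * τ‖ / ‖P * (A * τ)‖) - Real.log (‖A‖ / ‖P * A‖)| ≤ 288 * M ^ 2 * ε := by
  have hε0 : 0 ≤ ε := nonneg_of_mul_nonneg_left
    (show 0 ≤ ε * ‖P * A‖ by linarith [norm_nonneg N]) hPA
  have hM2 : 1 ≤ M ^ 2 := one_le_pow₀ hM
  have hε : ε ≤ M ^ 2 * ε := le_mul_of_one_le_left hε0 hM2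
  have hback : ‖P * A‖ ≤ ‖P * (A * τ)‖ * M := by
    refine le_trans (le_of_eq (congrArg norm (show P * A = P * (A * τ) * τ' by
      rw [← mul_assoc, mul_assoc, hττ', mul_one]))) ?_
    exact (norm_mul_le3 _ _).trans
      ((le_of_eq (mul_left_comm _ _ _)).trans (mul_le_mul_of_nonneg_left hτ' (norm_nonneg _)))
  have hPAt : 0 < ‖P * (A * τ)‖ := pos_of_mul_pos_left (hPA.trans_le hback) (by linarith)
  have e2 : A * τ = vecMulVec u (r ᵥ* τ) + N * τ := by
    rw [hA, add_mul, vecMulVec_mul]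
  have hNτ : ‖N * τ‖ ≤ 9 * M ^ 2 * ε * ‖P * (A * τ)‖ := by
    refine (((norm_mul_le3 _ _).trans (le_of_eq (mul_left_comm _ _ _))).trans
      (mul_le_mul hN hτ (by positivity) (by positivity))).trans ?_
    refine (mul_le_mul_of_nonneg_right (mul_le_mul_of_nonneg_left
      (mul_le_mul_of_nonneg_left hback hε0) (by norm_num)) (by linarith)).trans (le_of_eq ?_)
    ring
  have hs1 : 8 * ‖N‖ ≤ ‖P * A‖ := by
    have := mul_le_mul_of_nonneg_right (show 72 * ε ≤ 1 by linarith) hPA.le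
    linarith
  have hs2 : 8 * ‖N * τ‖ ≤ ‖P * (A * τ)‖ := by
    have := mul_le_mul_of_nonneg_right hsm hPAt.le
    linarith
  have k1 := log_defect_le (P := P) (N := N) (u := u) (b := r) hP (hA ▸ hs1) (hA ▸ hPA)
  have k2 := log_defect_le (P := P) (N := N * τ) (u := u) (b := r ᵥ* τ) hP (e2 ▸ hs2) (e2 ▸ hPAt)
  rw [← hA] at k1
  rw [← e2] at k2
  have b1 : ‖N‖ / ‖P * A‖ ≤ 9 * ε := by rw [div_le_iff₀ hPA]; linarith
  have b2 : ‖N * τ‖ / ‖P * (A * τ)‖ ≤ 9 * M ^ 2 * ε := (div_le_iff₀ hPAt).2 hNτ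
  rw [abs_le] at k1 k2 ⊢
  constructor <;> linarith

/-! ### The representations -/

variable {Γ : Type} [Group Γ] {ρ : Γ →* SL(3, k)}

theorem rep_mul (s : Bool) (g h : Γ) : rep ρ s (g * h) = rep ρ s g * rep ρ s h := by
  cases s
  · simp [rep]
  · simp [rep, Matrix.transpose_mul]

theorem rep_one (s : Bool) : rep ρ s (1 : Γ) = 1 := by
  cases s <;> simp [rep]

theorem rep_adjugate (s : Bool) (g : Γ) : (adjugate (rep ρ s g))ᵀ = rep ρ (!s) g := by
  cases s
  · simp [rep, map_inv, Matrix.SpecialLinearGroup.coe_inv]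
  · simp [rep, map_inv, Matrix.SpecialLinearGroup.coe_inv, ← adjugate_transpose,
      adjugate_adjugate]

theorem mul_rep_ne_zero {P : M3 k} (hP : P ≠ 0) (s : Bool) (g : Γ) : P * rep ρ s g ≠ 0 := fun h => by
  refine hP ?_
  have : P * rep ρ s g * rep ρ s g⁻¹ = 0 := by rw [h, zero_mul]
  rwa [mul_assoc, ← rep_mul, mul_inv_cancel, rep_one, mul_one] at this

theorem norm_rep_pos (s : Bool) (g : Γ) : 0 < ‖rep ρ s g‖ :=
  norm_pos_iff.2 (by simpa using mul_rep_ne_zero (P := (1 : M3 k)) one_ne_zero s g)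

end Cells

namespace Env

open Cells

variable {Γ O ι : Type} [Group Γ] [Fintype ι] (E : Env k Γ O ι)

theorem exp_m (s : Bool) (g : Γ) : Real.exp (E.m s g) = ‖rep E.ρ s g‖ :=
  Real.exp_log (norm_rep_pos s g)

theorem exp_L {Q : M3 k} (hQ : Q ≠ 0) (s : Bool) (g : Γ) :
    Real.exp (E.L Q s g) = ‖rep E.ρ s g‖ / ‖Q * rep E.ρ s g‖ :=
  Real.exp_log (div_pos (norm_rep_pos s g) (norm_pos_iff.2 (mul_rep_ne_zero hQ s g)))

theorem crossM_ne_zero {x : Fin 3 → k} (hx : IsUnit3 x) : crossM x ≠ 0 := fun h => by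
  have := norm_crossM hx
  rw [h, norm_zero] at this
  exact zero_ne_one this

theorem rowM_ne_zero {x : Fin 3 → k} (hx : IsUnit3 x) : rowM x ≠ 0 := fun h => by
  have := norm_rowM hx
  rw [h, norm_zero] at this
  exact zero_ne_one this

theorem norm_crossM_mul_le {x : Fin 3 → k} (hx : IsUnit3 x) (A : M3 k) :
    ‖crossM x * A‖ ≤ 3 * ‖A‖ :=
  (norm_mul_le3 _ _).trans_eq (by rw [norm_crossM hx, one_mul])

/-- The depth in a cell lies between zero and the simple root, up to constants. -/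
theorem gap_cell_le {x : Fin 3 → k} (hx : IsUnit3 x) (s : Bool) (g : Γ) :
    -Real.log 3 ≤ E.L (crossM x) s g ∧
      E.L (crossM x) s g ≤ E.gap s g + Real.log 4 := by
  set A := rep E.ρ s g with hA
  have hPpos : 0 < ‖crossM x * A‖ := norm_pos_iff.2 (mul_rep_ne_zero (crossM_ne_zero hx) s g)
  constructor
  · rw [← Real.exp_le_exp, Real.exp_neg, Real.exp_log three_pos, E.exp_L (crossM_ne_zero hx),
      le_div_iff₀ hPpos, inv_mul_le_iff₀ three_pos]
    exact norm_crossM_mul_le hx A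
  have hco : ∀ i, ‖col3 (rep E.ρ (!s) g) i‖ ≤ 4 * (‖A‖ * ‖crossM x * A‖) := fun i => by
    rw [← rep_adjugate, adjugate_row]
    refine (norm_cross_le_of_unit hx _ _).trans ?_
    rw [← crossM_col, ← crossM_col]
    have := mul_le_mul (norm_col_le A (i + 1)) (norm_col_le (crossM x * A) (i + 2))
      (norm_nonneg _) (norm_nonneg _)
    have := mul_le_mul (norm_col_le (crossM x * A) (i + 1)) (norm_col_le A (i + 2))
      (norm_nonneg _) (norm_nonneg _)
    linarith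
  have h := norm_le_of_cols _ (by positivity) hco
  rw [← Real.exp_le_exp, Real.exp_add, gap, Real.exp_sub, two_mul, Real.exp_add, E.exp_m,
    E.exp_m, Real.exp_log (by norm_num), E.exp_L (crossM_ne_zero hx), div_mul_eq_mul_div,
    div_le_div_iff₀ hPpos (norm_rep_pos _ _)]
  calc ‖A‖ * ‖rep E.ρ (!s) g‖ ≤ ‖A‖ * (4 * (‖A‖ * ‖crossM x * A‖)) :=
        mul_le_mul_of_nonneg_left h (norm_nonneg _)
    _ = ‖A‖ * ‖A‖ * 4 * ‖crossM x * A‖ := by ring

/-- A covector small on an element gives depth on the other side. -/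
theorem j_row_le {x : Bool → Fin 3 → k} (hx : IsFlag x) (s : Bool) (g : Γ) :
    E.j x s g ≤ E.gap s g + E.ell x (!s) g + Real.log 2 := by
  have hu := hx.1 s
  have he : E.ell x (!s) g = E.L (crossM (x s)) (!s) g := by rw [ell, Bool.not_not]
  rw [he, j]
  set A := rep E.ρ s g with hA
  set B := rep E.ρ (!s) g with hB
  have hRpos : 0 < ‖rowM (x s) * A‖ := norm_pos_iff.2 (mul_rep_ne_zero (rowM_ne_zero hu) s g)
  have hPpos : 0 < ‖crossM (x s) * B‖ :=
    norm_pos_iff.2 (mul_rep_ne_zero (crossM_ne_zero hu) (!s) g)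
  have hcol : ∀ i, ‖col3 (crossM (x s) * B) i‖ ≤ 2 * (‖A‖ * ‖rowM (x s) * A‖) := fun i => by
    rw [crossM_col, hB, ← rep_adjugate, adjugate_row, cross_cross_eq, two_mul]
    refine (norm_sub_le _ _).trans (add_le_add ?_ ?_) <;>
    · rw [norm_smul, mul_comm, ← rowM_mul]
      exact mul_le_mul (norm_col_le A _) (norm_apply_le _ _ _) (norm_nonneg _) (norm_nonneg _)
  have h := norm_le_of_cols _ (by positivity) hcol
  have hB0 : 0 < ‖B‖ := norm_rep_pos _ _
  rw [← Real.exp_le_exp, Real.exp_add, Real.exp_add, gap, Real.exp_sub, two_mul, Real.exp_add,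
    E.exp_m, E.exp_m, Real.exp_log (by norm_num), E.exp_L (rowM_ne_zero hu),
    E.exp_L (crossM_ne_zero hu), ← hA, ← hB]
  rw [show ‖A‖ * ‖A‖ / ‖B‖ * (‖B‖ / ‖crossM (x s) * B‖) * 2
      = ‖A‖ * ‖A‖ * 2 / ‖crossM (x s) * B‖ by field_simp, div_le_div_iff₀ hRpos hPpos]
  calc ‖A‖ * ‖crossM (x s) * B‖ ≤ ‖A‖ * (2 * (‖A‖ * ‖rowM (x s) * A‖)) :=
        mul_le_mul_of_nonneg_left h (norm_nonneg _)
    _ = ‖A‖ * ‖A‖ * 2 * ‖rowM (x s) * A‖ := by ring

/-- The identity has depth at most zero in every cell. -/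
theorem ell_one_le {x : Bool → Fin 3 → k} (hx : IsFlag x) (s : Bool) : E.ell x s 1 ≤ 0 := by
  rw [ell, L, rep_one, mul_one, norm_crossM (hx.1 (!s)), div_one]
  refine Real.log_nonpos (norm_nonneg _) ((norm_le_iff zero_le_one).2 fun i j => ?_)
  rw [one_apply]
  split_ifs <;> simp

/-- A step moves the depth in a cell by the defect of the rank one split. -/
theorem step_le (t : Γ) :
    ∃ C, 0 ≤ C ∧ ∀ x : Fin 3 → k, IsUnit3 x → ∀ (s : Bool) (g : Γ),
      |E.L (crossM x) s (g * t) - E.L (crossM x) s g| ≤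
        C * Real.exp (E.L (crossM x) s g - E.gap s g) := by
  obtain ⟨M, hM1, hM⟩ : ∃ M : ℝ, 1 ≤ M ∧ ∀ s : Bool,
      3 * ‖rep E.ρ s t‖ ≤ M ∧ 3 * ‖rep E.ρ s t⁻¹‖ ≤ M := by
    refine ⟨1 + 3 * (‖rep E.ρ false t‖ + ‖rep E.ρ true t‖ + ‖rep E.ρ false t⁻¹‖ +
      ‖rep E.ρ true t⁻¹‖), ?_, fun s => ?_⟩
    · linarith [norm_nonneg (rep E.ρ false t), norm_nonneg (rep E.ρ true t),
        norm_nonneg (rep E.ρ false t⁻¹), norm_nonneg (rep E.ρ true t⁻¹)]
    · constructor <;> cases s <;>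
        linarith [norm_nonneg (rep E.ρ false t), norm_nonneg (rep E.ρ true t),
          norm_nonneg (rep E.ρ false t⁻¹), norm_nonneg (rep E.ρ true t⁻¹)]
  have hlM := Real.log_nonneg hM1
  set ε₀ : ℝ := 1 / (72 * M ^ 2)
  refine ⟨288 * M ^ 2 + 2 * Real.log M / ε₀, by positivity, fun x hx s g => ?_⟩
  set P := crossM x with hP
  set A := rep E.ρ s g with hA
  obtain ⟨hτ1, hτ2⟩ := hM s
  have hττ : rep E.ρ s t * rep E.ρ s t⁻¹ = 1 := by
    rw [← rep_mul, mul_inv_cancel, rep_one]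
  have hPA : 0 < ‖P * A‖ := norm_pos_iff.2 (mul_rep_ne_zero (crossM_ne_zero hx) s g)
  have hA0 : 0 < ‖A‖ := norm_rep_pos s g
  have hexp : Real.exp (E.L P s g - E.gap s g) = ‖rep E.ρ (!s) g‖ / (‖A‖ * ‖P * A‖) := by
    rw [Real.exp_sub, E.exp_L (crossM_ne_zero hx), gap, Real.exp_sub, two_mul, Real.exp_add,
      E.exp_m, E.exp_m, ← hA, ← hP]
    field_simp
  rw [hexp, L, L, rep_mul, ← hA]
  set ε := ‖rep E.ρ (!s) g‖ / (‖A‖ * ‖P * A‖) with hε
  have hε0 : 0 ≤ ε := by positivity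
  rcases le_or_gt ε₀ ε with hbig | hsm
  · refine (step_crude hττ hτ1 hτ2 hA0 hPA (by linarith)).trans (le_trans ?_
      (mul_le_mul_of_nonneg_right (le_add_of_nonneg_left (by positivity)) hε0))
    rw [div_mul_eq_mul_div, le_div_iff₀ (show (0:ℝ) < ε₀ by positivity)]
    exact mul_le_mul_of_nonneg_left hbig (by positivity)
  obtain ⟨u, r, N, hsplit, hN⟩ := rank_one_split A (norm_pos_iff.1 hA0)
  rw [rep_adjugate] at hN
  refine (step_fine hττ hτ1 hτ2 hM1 (norm_crossM hx).le hsplit hPA ?_ ?_).trans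
    (mul_le_mul_of_nonneg_right (le_add_of_nonneg_right (by positivity)) hε0)
  · rw [show ε * ‖P * A‖ = ‖rep E.ρ (!s) g‖ / ‖A‖ by rw [hε]; field_simp, mul_div_assoc',
      le_div_iff₀ hA0]
    exact hN.trans (le_mul_of_one_le_left (norm_nonneg _) (by norm_num))
  · rw [lt_div_iff₀ (by positivity)] at hsm
    linarith

/-- Cells that share a deep point are comparable. -/
theorem close_le {w w' : Fin 3 → k} (hw : IsUnit3 w) (hw' : IsUnit3 w') (s : Bool) (y y' : Γ)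
    (n : ℝ) (h1 : n ≤ E.L (crossM w) s y) (h2 : n ≤ E.L (crossM w') s y)
    (h3 : n ≤ E.L (crossM w') s y') : n - Real.log 8 ≤ E.L (crossM w) s y' := by
  have small : ∀ {z : Fin 3 → k}, IsUnit3 z → ∀ g : Γ, n ≤ E.L (crossM z) s g →
      ‖crossM z * rep E.ρ s g‖ ≤ Real.exp (-n) * ‖rep E.ρ s g‖ := fun {z} hz g h => by
    have := Real.exp_le_exp.2 h
    rw [E.exp_L (crossM_ne_zero hz), le_div_iff₀ (norm_pos_iff.2
      (mul_rep_ne_zero (crossM_ne_zero hz) s g))] at this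
    rw [Real.exp_neg, le_inv_mul_iff₀ (Real.exp_pos n)]
    exact this
  set e := Real.exp (-n) with he
  have he0 : 0 < e := Real.exp_pos _
  rcases lt_or_ge 1 (2 * e) with hbig | hsm
  · have hn : n ≤ Real.log 2 := by
      rw [← Real.exp_le_exp, Real.exp_log (by norm_num)]
      rw [he, Real.exp_neg, lt_mul_inv_iff₀ (Real.exp_pos n), one_mul] at hbig
      exact hbig.le
    have h4 : Real.log 2 + Real.log 3 ≤ Real.log 8 := by
      rw [← Real.log_mul two_ne_zero three_ne_zero]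
      exact Real.log_le_log (by norm_num) (by norm_num)
    linarith [(E.gap_cell_le hw s y').1]
  obtain ⟨j, hj⟩ := exists_col_large (rep E.ρ s y)
  set c := col3 (rep E.ρ s y) j with hc
  have hc0 : 0 < ‖c‖ := (norm_rep_pos (ρ := E.ρ) s y).trans_le hj
  have deep : ∀ {z : Fin 3 → k}, IsUnit3 z → n ≤ E.L (crossM z) s y → ‖z ⨯₃ c‖ ≤ e * ‖c‖ :=
    fun {z} hz h => by
      rw [hc, ← crossM_col]
      exact (norm_col_le _ j).trans ((small hz y h).trans (mul_le_mul_of_nonneg_left hj he0.le))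
  have hq : ∀ z : Fin 3 → k, ‖w ⨯₃ z‖ ≤ 2 * ‖z‖ := fun z =>
    (Pack.norm_cross_le _ _).trans_eq (by rw [show ‖w‖ = 1 from hw, one_mul])
  -- both points are close
  have hww : ‖w ⨯₃ w'‖ ≤ 6 * e := by
    obtain ⟨a, r, hsplit, -, hr⟩ := exists_split hw' c
    have hr' : ‖r‖ ≤ e * ‖c‖ := hr.trans (deep hw' h2)
    have ha : ‖c‖ ≤ 2 * ‖a‖ := by
      have h := (le_of_eq (congrArg norm hsplit)).trans (norm_add_le _ _)
      rw [norm_smul, show ‖w'‖ = 1 from hw'] at h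
      nlinarith
    have e1 : a • (w ⨯₃ w') = w ⨯₃ c - w ⨯₃ r := by
      rw [hsplit, map_add, map_smul, add_sub_cancel_right]
    have h := (le_of_eq (congrArg norm e1)).trans (norm_sub_le _ _)
    rw [norm_smul] at h
    have h' := (hq r).trans (mul_le_mul_of_nonneg_left hr' zero_le_two)
    have h'' := mul_le_mul_of_nonneg_right ha (norm_nonneg (w ⨯₃ w'))
    exact le_of_mul_le_mul_left (by linarith [deep hw h1] : ‖c‖ * ‖w ⨯₃ w'‖ ≤ ‖c‖ * (6 * e)) hc0
  have hcol : ∀ l, ‖col3 (crossM w * rep E.ρ s y') l‖ ≤ 8 * e * ‖rep E.ρ s y'‖ := fun l => by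
    rw [crossM_col]
    obtain ⟨a, r, hsplit, ha, hr⟩ := exists_split hw' (col3 (rep E.ρ s y') l)
    have hr' : ‖r‖ ≤ e * ‖rep E.ρ s y'‖ := by
      refine hr.trans ?_
      rw [← crossM_col]
      exact (norm_col_le _ l).trans (small hw' y' h3)
    rw [hsplit, map_add, map_smul]
    refine (norm_add_le _ _).trans ?_
    rw [norm_smul]
    have t1 := mul_le_mul (ha.trans (norm_col_le _ l)) hww (norm_nonneg _) (norm_nonneg _)
    have t2 := (hq r).trans (mul_le_mul_of_nonneg_left hr' zero_le_two)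
    linarith
  have h := norm_le_of_cols _ (by positivity) hcol
  rw [← Real.exp_le_exp, Real.exp_sub, Real.exp_log (by norm_num),
    E.exp_L (crossM_ne_zero hw), div_le_div_iff₀ (by norm_num)
      (norm_pos_iff.2 (mul_rep_ne_zero (crossM_ne_zero hw) s y'))]
  have h' := mul_le_mul_of_nonneg_left h (Real.exp_pos n).le
  have hee : Real.exp n * e = 1 := by rw [he, ← Real.exp_add]; simp
  linear_combination h' + 8 * ‖rep E.ρ s y'‖ * hee

/-- All estimates at one element with one constant. -/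
theorem exists_cells [Fintype O] : ∃ C, 0 ≤ C ∧
    (∀ x : Fin 3 → k, IsUnit3 x → ∀ s g,
      -C ≤ E.L (crossM x) s g ∧ E.L (crossM x) s g ≤ E.gap s g + C) ∧
    (∀ x, IsFlag x → ∀ s g, E.j x s g ≤ E.gap s g + E.ell x (!s) g + C) ∧
    (∀ x, IsFlag x → ∀ s, E.ell x s 1 ≤ C) ∧
    (∀ x : Fin 3 → k, IsUnit3 x → ∀ (s : Bool) (g : Γ) (o : O) (i : ι),
      |E.L (crossM x) s (g * (E.nb (1, o) i).1) - E.L (crossM x) s g| ≤
        C * Real.exp (E.L (crossM x) s g - E.gap s g)) ∧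
    ∀ w w' : Fin 3 → k, IsUnit3 w → IsUnit3 w' → ∀ (s : Bool) (y y' : Γ) (n : ℝ),
      n ≤ E.L (crossM w) s y → n ≤ E.L (crossM w') s y → n ≤ E.L (crossM w') s y' →
        n - C ≤ E.L (crossM w) s y' := by
  choose Cf hC0 hCf using fun q : O × ι => E.step_le (E.nb (1, q.1) q.2).1
  have hS : 0 ≤ ∑ q, Cf q := sum_nonneg fun q _ => hC0 q
  have hl : ∀ r : ℝ, 1 ≤ r → r ≤ 8 → Real.log r ≤ Real.log 8 := fun r h h' =>
    Real.log_le_log (by linarith) h'
  have h2 := hl 2 (by norm_num) (by norm_num)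
  have h3 := hl 3 (by norm_num) (by norm_num)
  have h4 := hl 4 (by norm_num) (by norm_num)
  have h8 : 0 ≤ Real.log 8 := Real.log_nonneg (by norm_num)
  refine ⟨Real.log 8 + ∑ q, Cf q, by linarith, fun x hx s g => ?_, fun x hx s g => ?_,
    fun x hx s => ?_, fun x hx s g o i => ?_, fun w w' hw hw' s y y' n a b c => ?_⟩
  · have := E.gap_cell_le hx s g; constructor <;> linarith
  · have := E.j_row_le hx s g; linarith
  · have := E.ell_one_le hx s; linarith
  · exact (hCf (o, i) x hx s g).trans (mul_le_mul_of_nonneg_right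
      ((single_le_sum (fun q _ => hC0 q) (mem_univ (o, i))).trans
        (le_add_of_nonneg_left h8)) (Real.exp_pos _).le)
  · have := E.close_le hw hw' s y y' n a b c; linarith

end Env

end Vale.Agent.P165.SL
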