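import Vale.Agent.P165.SL.Base
import Vale.Agent.P165.SL.Pack

/-!
# Boundedly many candidates of given sizes, and their weighted count
-/

namespace Vale.Agent.P165.SL

open Finset Matrix
open scoped Matrix.Norms.Elementwise MatrixGroups

variable {k : Type} [NontriviallyNormedField k]

theorem norm_sl_pos (a : SL(3, k)) : 0 < ‖(a : M3 k)‖ := by
  refine norm_pos_iff.2 fun h => ?_
  have h' := a.2
  rw [h, det_zero] at h'
  exact zero_ne_one h'

theorem geom_le {r : ℝ} (h0 : 0 ≤ r) (h1 : r < 1) (s : Finset ℕ) :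
    ∑ k ∈ s, r ^ k ≤ 1 / (1 - r) := by
  obtain ⟨K, hK⟩ : ∃ K, s ⊆ range K :=
    ⟨s.sup id + 1, fun k hk => mem_range.2 (Nat.lt_succ_of_le (le_sup (f := id) hk))⟩
  refine (sum_le_sum_of_subset_of_nonneg hK fun k _ _ => pow_nonneg h0 k).trans ?_
  rw [le_div_iff₀ (by linarith)]
  have h := geom_sum_mul r K
  nlinarith [pow_nonneg h0 K]

namespace Env

variable {Γ O ι : Type} [Group Γ] [Fintype ι] (E : Env k Γ O ι)

theorem exp_m_false (g : Γ) : Real.exp (E.m false g) = ‖(E.ρ g : M3 k)‖ :=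
  Real.exp_log (norm_sl_pos (E.ρ g))

theorem exp_m_true (g : Γ) : Real.exp (E.m true g) = ‖(E.ρ g⁻¹ : M3 k)‖ := by
  rw [m, show rep E.ρ true g = (E.ρ g⁻¹ : M3 k)ᵀ from rfl, norm_transpose]
  exact Real.exp_log (norm_sl_pos _)

theorem coe_mul (g h : Γ) : (E.ρ (g * h) : M3 k) = (E.ρ g : M3 k) * (E.ρ h : M3 k) := by
  rw [map_mul]
  rfl

theorem coe_mul_inv (g : Γ) : (E.ρ g : M3 k) * (E.ρ g⁻¹ : M3 k) = 1 := by
  rw [← coe_mul, mul_inv_cancel, map_one]
  rfl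

/-- A candidate has multiplicative sizes. -/
theorem cand_norm {A : ℝ} {y z : Γ} (hc : E.Cand A y z) : ∃ σ ∈ E.F,
    ‖(E.ρ z : M3 k)‖ * ‖(E.ρ z⁻¹ : M3 k) * (E.ρ y : M3 k)‖ ≤
        3 * ‖(E.ρ σ : M3 k)‖ * Real.exp A * ‖(E.ρ y : M3 k)‖ ∧
      ‖(E.ρ z⁻¹ : M3 k)‖ * ‖(E.ρ y⁻¹ : M3 k) * (E.ρ z : M3 k)‖ ≤
        3 * ‖(E.ρ σ⁻¹ : M3 k)‖ * Real.exp A * ‖(E.ρ y⁻¹ : M3 k)‖ := by
  obtain ⟨h, ⟨σ, hσ, rfl⟩, hm⟩ := hc
  refine ⟨σ, hσ, ?_, ?_⟩
  · rw [← coe_mul, show z⁻¹ * (z * σ * h) = σ * h by group, coe_mul E σ h]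
    refine (mul_le_mul_of_nonneg_left (Pack.norm_mul_le_three _ _) (norm_nonneg _)).trans ?_
    have e : ‖(E.ρ z : M3 k)‖ * ‖(E.ρ h : M3 k)‖ ≤ Real.exp A * ‖(E.ρ (z * σ * h) : M3 k)‖ := by
      rw [← exp_m_false, ← exp_m_false, ← exp_m_false, ← Real.exp_add, ← Real.exp_add]
      exact Real.exp_le_exp.2 (by linarith [(abs_le.1 (hm false)).1])
    linarith [mul_le_mul_of_nonneg_left e (norm_nonneg (E.ρ σ : M3 k))]
  · rw [← coe_mul, show (z * σ * h)⁻¹ * z = h⁻¹ * σ⁻¹ by group, coe_mul E h⁻¹ σ⁻¹]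
    refine (mul_le_mul_of_nonneg_left (Pack.norm_mul_le_three _ _) (norm_nonneg _)).trans ?_
    have e : ‖(E.ρ z⁻¹ : M3 k)‖ * ‖(E.ρ h⁻¹ : M3 k)‖ ≤
        Real.exp A * ‖(E.ρ (z * σ * h)⁻¹ : M3 k)‖ := by
      rw [← exp_m_true, ← exp_m_true, ← exp_m_true, ← Real.exp_add, ← Real.exp_add]
      exact Real.exp_le_exp.2 (by linarith [(abs_le.1 (hm true)).1])
    linarith [mul_le_mul_of_nonneg_left e (norm_nonneg (E.ρ σ⁻¹ : M3 k))]

/-- Boundedly many candidates of one element have given sizes. -/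
theorem pack_ok : E.PackOK := by
  classical
  intro A
  set S := ∑ σ ∈ E.F, 3 * (‖(E.ρ σ : M3 k)‖ + ‖(E.ρ σ⁻¹ : M3 k)‖)
  have hS : 0 ≤ S := sum_nonneg fun σ _ => by positivity
  set B := max A 0
  set C := Real.exp (2 * B) * (1 + S)
  have hC1 : 1 ≤ C :=
    one_le_mul_of_one_le_of_one_le (Real.one_le_exp (by positivity)) (by linarith)
  refine ⟨(E.discrete (Pack.packC C)).toFinset.card, fun y M Z hZ => ?_⟩
  rcases Z.eq_empty_or_nonempty with rfl | ⟨z₀, h₀⟩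
  · exact Nat.zero_le _
  have hA : A ≤ B := le_max_left _ _
  have hone : ∀ z ∈ Z,
      ‖(E.ρ z : M3 k)‖ * ‖(E.ρ z⁻¹ : M3 k) * (E.ρ y : M3 k)‖ ≤ C * ‖(E.ρ y : M3 k)‖ ∧
        ‖(E.ρ z⁻¹ : M3 k)‖ * ‖(E.ρ y⁻¹ : M3 k) * (E.ρ z : M3 k)‖ ≤
          C * ‖(E.ρ y⁻¹ : M3 k)‖ := fun z hz => by
    obtain ⟨σ, hσ, h1, h2⟩ := E.cand_norm (hZ z hz).1
    have hs : 3 * (‖(E.ρ σ : M3 k)‖ + ‖(E.ρ σ⁻¹ : M3 k)‖) ≤ S :=
      single_le_sum (f := fun σ => 3 * (‖(E.ρ σ : M3 k)‖ + ‖(E.ρ σ⁻¹ : M3 k)‖))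
        (fun σ _ => by positivity) hσ
    have he : Real.exp A ≤ Real.exp (2 * B) :=
      Real.exp_le_exp.2 (by linarith [le_max_right A 0])
    have key : ∀ t, 0 ≤ t → t ≤ S → t * Real.exp A ≤ C := fun t t0 tS =>
      (mul_le_mul (by linarith : t ≤ 1 + S) he (Real.exp_pos _).le (by linarith)).trans
        (le_of_eq (mul_comm _ _))
    constructor
    · refine h1.trans (mul_le_mul_of_nonneg_right (key _ (by positivity) ?_) (norm_nonneg _))
      linarith [norm_nonneg (E.ρ σ⁻¹ : M3 k)]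
    · refine h2.trans (mul_le_mul_of_nonneg_right (key _ (by positivity) ?_) (norm_nonneg _))
      linarith [norm_nonneg (E.ρ σ : M3 k)]
  have comp : ∀ z ∈ Z, ∀ z' ∈ Z, ‖(E.ρ z' : M3 k)‖ ≤ C * ‖(E.ρ z : M3 k)‖ ∧
      ‖(E.ρ z'⁻¹ : M3 k)‖ ≤ C * ‖(E.ρ z⁻¹ : M3 k)‖ := fun z hz z' hz' => by
    have hd : ∀ s, Real.exp (E.m s z') ≤ C * Real.exp (E.m s z) := fun s => by
      refine le_trans ?_ (mul_le_mul_of_nonneg_right
        (le_mul_of_one_le_right (Real.exp_pos _).le (by linarith : (1 : ℝ) ≤ 1 + S))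
        (Real.exp_pos _).le)
      rw [← Real.exp_add]
      exact Real.exp_le_exp.2 (by
        linarith [(abs_le.1 ((hZ z hz).2 s)).1, (abs_le.1 ((hZ z' hz').2 s)).2])
    exact ⟨by simpa only [exp_m_false] using hd false, by simpa only [exp_m_true] using hd true⟩
  refine card_le_card_of_injOn (fun z => z₀⁻¹ * z) (fun z hz => ?_)
    fun a _ b _ h => mul_left_cancel h
  obtain ⟨a1, a2⟩ := hone z₀ h₀
  obtain ⟨b1, b2⟩ := hone z hz
  obtain ⟨c1, c2⟩ := comp z₀ h₀ z hz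
  obtain ⟨c1', c2'⟩ := comp z hz z₀ h₀
  have h := Pack.norm_div_le hC1 (E.coe_mul_inv z₀) (E.coe_mul_inv z) (E.coe_mul_inv y)
    (E.ρ z₀).2 (E.ρ z).2 a1 a2 b1 b2 c1 c1' c2' c2
  rw [← coe_mul] at h
  rw [mem_coe, Set.Finite.mem_toFinset]
  exact h

/-- Weighted candidates: two independent linear coordinates give two geometric sums. -/
theorem count_ok : E.CountOK := by
  classical
  intro A a b hD
  set D := a false * b true - a true * b false
  set B := max A ((|a false| + |a true| + |b false| + |b true|) / |D|)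
  obtain ⟨N, hN⟩ := E.pack_ok B
  refine ⟨4 * N, by positivity, fun y a₀ b₀ α γ hα hα1 hγ hγ1 Z hZ => ?_⟩
  set u : Γ → ℝ := fun z => a false * E.m false z + a true * E.m true z + a₀
  set v : Γ → ℝ := fun z => b false * E.m false z + b true * E.m true z + b₀
  set key : Γ → ℕ × ℕ := fun z => (⌊u z⌋₊, ⌊v z⌋₊)
  set f : Γ → ℝ := fun z => Real.exp (-(α * u z) - γ * v z)
  show ∑ z ∈ Z, f z ≤ _
  have hfib : ∀ k ∈ Z.image key, ∑ z ∈ Z.filter (fun z => key z = k), f z ≤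
      N * (Real.exp (-α) ^ k.1 * Real.exp (-γ) ^ k.2) := by
    intro k _
    refine (sum_le_card_nsmul _ _ (Real.exp (-α) ^ k.1 * Real.exp (-γ) ^ k.2) fun z hz => ?_).trans ?_
    · obtain ⟨hzZ, rfl⟩ := mem_filter.1 hz
      rw [← Real.exp_nat_mul, ← Real.exp_nat_mul, ← Real.exp_add]
      refine Real.exp_le_exp.2 ?_
      have h1 := mul_le_mul_of_nonneg_left (Nat.floor_le (hZ z hzZ).2.1) hα.le
      have h2 := mul_le_mul_of_nonneg_left (Nat.floor_le (hZ z hzZ).2.2) hγ.le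
      simp only [key, u, v] at h1 h2 ⊢
      linarith
    rw [nsmul_eq_mul]
    refine mul_le_mul_of_nonneg_right (Nat.cast_le.2 ?_) (by positivity)
    rcases (Z.filter fun z => key z = k).eq_empty_or_nonempty with he | ⟨z₁, hz₁⟩
    · simp [he]
    refine hN y (fun s => E.m s z₁) _ fun z hz => ⟨?_, fun s => ?_⟩
    · obtain ⟨⟨h, hh, hm⟩, -⟩ := hZ z (mem_filter.1 hz).1
      exact ⟨h, hh, fun s => (hm s).trans (le_max_left _ _)⟩
    · obtain ⟨hzZ, rfl⟩ := mem_filter.1 hz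
      obtain ⟨hz1Z, hk⟩ := mem_filter.1 hz₁
      simp only [key, Prod.mk.injEq] at hk
      have near : ∀ {s t : ℝ}, 0 ≤ s → 0 ≤ t → ⌊t⌋₊ = ⌊s⌋₊ → |s - t| ≤ 1 := fun {s t} hs ht e => by
        have e1 := Nat.floor_le hs
        have e2 := Nat.lt_floor_add_one s
        have e3 := Nat.floor_le ht
        have e4 := Nat.lt_floor_add_one t
        rw [e] at e3 e4
        exact abs_le.2 ⟨by linarith, by linarith⟩
      have hu := near (hZ z hzZ).2.1 (hZ z₁ hz1Z).2.1 hk.1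
      have hv := near (hZ z hzZ).2.2 (hZ z₁ hz1Z).2.2 hk.2
      refine le_trans ?_ (le_max_right _ _)
      rw [le_div_iff₀ (abs_pos.2 hD)]
      set du := u z - u z₁
      set dv := v z - v z₁
      have hmul : ∀ {c d : ℝ}, |d| ≤ 1 → |c * d| ≤ |c| := fun {c d} h => by
        rw [abs_mul]; exact mul_le_of_le_one_right (abs_nonneg _) h
      have hb : ∀ {c d c' d' : ℝ}, |d| ≤ 1 → |d'| ≤ 1 → |c * d - c' * d'| ≤ |c| + |c'| :=
        fun h h' => (abs_sub _ _).trans (add_le_add (hmul h) (hmul h'))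
      rw [← abs_mul]
      cases s
      · have e : (E.m false z - E.m false z₁) * D = b true * du - a true * dv := by
          simp only [du, dv, u, v, D]; ring
        rw [e]
        exact (hb hu hv).trans (by linarith [abs_nonneg (a false), abs_nonneg (b false)])
      · have e : (E.m true z - E.m true z₁) * D = a false * dv - b false * du := by
          simp only [du, dv, u, v, D]; ring
        rw [e]
        exact (hb hv hu).trans (by linarith [abs_nonneg (a true), abs_nonneg (b true)])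
  rw [← sum_fiberwise_of_maps_to (fun z hz => mem_image_of_mem key hz) f]
  refine (sum_le_sum hfib).trans ?_
  rw [← mul_sum]
  have hgeo : ∀ {x : ℝ}, 0 < x → x ≤ 1 → ∀ T : Finset ℕ, ∑ k ∈ T, Real.exp (-x) ^ k ≤ 2 / x := by
    intro x hx hx1 T
    have hlt : Real.exp (-x) < 1 := Real.exp_lt_one_iff.2 (by linarith)
    refine (geom_le (Real.exp_pos _).le hlt T).trans ?_
    rw [div_le_div_iff₀ (by linarith) hx]
    have h := Real.add_one_le_exp x
    have e : Real.exp (-x) * Real.exp x = 1 := by rw [← Real.exp_add]; simp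
    nlinarith [Real.exp_pos (-x)]
  refine (mul_le_mul_of_nonneg_left ((sum_le_sum_of_subset_of_nonneg
    (t := (Z.image key).image Prod.fst ×ˢ (Z.image key).image Prod.snd) (fun k hk => mem_product.2
      ⟨mem_image_of_mem _ hk, mem_image_of_mem _ hk⟩) fun _ _ _ => by positivity).trans
    (le_of_eq_of_le (by rw [sum_product, ← sum_mul_sum])
      (mul_le_mul (hgeo hα hα1 _) (hgeo hγ hγ1 _) (sum_nonneg fun _ _ => by positivity)
        (by positivity)))) (Nat.cast_nonneg N)).trans (le_of_eq ?_)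
  field_simp
  ring

end Env

end Vale.Agent.P165.SL
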