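import Vale.Agent.P165.SL.Instance

/-!
# P165, SL route: frames for strongly irreducible images

Some minimal prime over the ideal of the image is fixed by a subgroup of finite index under both
translations. A condition `r g u ≠ 0` failing identically on it would, by irreducibility, make the
determinant vanish there, so one element of the group meets any finitely many conditions.
-/

namespace Vale.Agent.P165.SL

open Matrix
open scoped Matrix.Norms.Elementwise MatrixGroups

/-- No subgroup of finite index fixes a proper nonzero subspace. -/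
def StrongIrred {k Γ : Type} [Field k] [Group Γ] (ρ : Γ →* SL(3, k)) : Prop :=
  ∀ H : Subgroup Γ, H.FiniteIndex → ∀ U : Submodule k (Fin 3 → k),
    (∀ h ∈ H, ∀ x ∈ U, (ρ h : Matrix (Fin 3) (Fin 3) k) *ᵥ x ∈ U) → U = ⊥ ∨ U = ⊤

section Generic

variable {k : Type} [Field k] {Γ : Type} [Group Γ] (ρ : Γ →* SL(3, k))

/-- The generic matrix. -/
noncomputable def genMat : Matrix (Fin 3) (Fin 3) (MvPolynomial (Fin 3 × Fin 3) k) :=
  Matrix.of fun a b => MvPolynomial.X (a, b)

/-- The value of a polynomial at the image of an element. -/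
noncomputable def valAt (g : Γ) : MvPolynomial (Fin 3 × Fin 3) k →+* k :=
  MvPolynomial.eval fun e => (ρ g : Matrix (Fin 3) (Fin 3) k) e.1 e.2

/-- The polynomials vanishing on the image. -/
noncomputable def imIdeal : Ideal (MvPolynomial (Fin 3 × Fin 3) k) :=
  ⨅ g, RingHom.ker (valAt ρ g)

/-- Substitution of a matrix of polynomials. -/
noncomputable def substMat (M : Matrix (Fin 3) (Fin 3) (MvPolynomial (Fin 3 × Fin 3) k)) :
    MvPolynomial (Fin 3 × Fin 3) k →ₐ[k] MvPolynomial (Fin 3 × Fin 3) k :=
  MvPolynomial.bind₁ fun e => M e.1 e.2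

/-- Left translation of polynomials. -/
noncomputable def transL (γ : Γ) :=
  substMat ((ρ γ : Matrix (Fin 3) (Fin 3) k).map MvPolynomial.C * genMat)

/-- Right translation of polynomials. -/
noncomputable def transR (γ : Γ) :=
  substMat (genMat * (ρ γ : Matrix (Fin 3) (Fin 3) k).map MvPolynomial.C)

theorem genMat_map (g : Γ) : genMat.map (valAt ρ g) = (ρ g : Matrix (Fin 3) (Fin 3) k) := by
  ext a b; simp [genMat, valAt]

theorem const_map (A : Matrix (Fin 3) (Fin 3) k) (g : Γ) :
    (A.map MvPolynomial.C).map (valAt ρ g) = A := by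
  ext a b; simp [valAt]

theorem valAt_substMat (M : Matrix (Fin 3) (Fin 3) (MvPolynomial (Fin 3 × Fin 3) k)) (g h : Γ)
    (hM : M.map (valAt ρ g) = (ρ h : Matrix (Fin 3) (Fin 3) k))
    (f : MvPolynomial (Fin 3 × Fin 3) k) : valAt ρ g (substMat M f) = valAt ρ h f := by
  rw [valAt, substMat, MvPolynomial.eval, MvPolynomial.eval₂Hom_bind₁, valAt]
  congr 1
  · congr 1
    funext e
    rw [← hM]; rfl

theorem valAt_transL (γ g : Γ) (f : MvPolynomial (Fin 3 × Fin 3) k) :
    valAt ρ g (transL ρ γ f) = valAt ρ (γ * g) f :=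
  valAt_substMat ρ _ g _ (by rw [Matrix.map_mul, const_map, genMat_map, map_mul]; rfl) f

theorem valAt_transR (γ g : Γ) (f : MvPolynomial (Fin 3 × Fin 3) k) :
    valAt ρ g (transR ρ γ f) = valAt ρ (g * γ) f :=
  valAt_substMat ρ _ g _ (by rw [Matrix.map_mul, const_map, genMat_map, map_mul]; rfl) f

/-- A family of endomorphisms composing as the group, and keeping an ideal, permutes the minimal
primes over it; a subgroup of finite index fixes each. -/
theorem exists_fix {R : Type} [CommRing R] [IsNoetherianRing R] (I : Ideal R) (T : Γ → R →+* R)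
    (h1 : T 1 = RingHom.id R) (hT : ∀ a b, T (a * b) = (T b).comp (T a))
    (hI : ∀ a, I.comap (T a) = I) :
    ∃ K : Subgroup Γ, K.FiniteIndex ∧ ∀ a ∈ K, ∀ P ∈ I.minimalPrimes, P.comap (T a) = P := by
  have hcomp : ∀ (a b : Γ) (P : Ideal R), (P.comap (T b)).comap (T a) = P.comap (T (a * b)) :=
    fun a b P => by rw [Ideal.comap_comap, hT]
  have hone : ∀ P : Ideal R, P.comap (T 1) = P := fun P => by rw [h1, Ideal.comap_id]
  have hmem : ∀ a, ∀ P ∈ I.minimalPrimes, P.comap (T a) ∈ I.minimalPrimes := by
    rintro a P ⟨⟨hP, hIP⟩, hmin⟩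
    refine ⟨⟨hP.comap _, (hI a).symm.le.trans (Ideal.comap_mono hIP)⟩, fun Q hQ hle => ?_⟩
    have h2 : P ≤ Q.comap (T a⁻¹) := hmin
      ⟨hQ.1.comap _, (hI a⁻¹).symm.le.trans (Ideal.comap_mono hQ.2)⟩
      ((Ideal.comap_mono hle).trans_eq (by rw [hcomp, inv_mul_cancel, hone]))
    exact (Ideal.comap_mono h2).trans_eq (by rw [hcomp, mul_inv_cancel, hone])
  let T' : Γ → ↥I.minimalPrimes → ↥I.minimalPrimes := fun a P => ⟨_, hmem a P P.2⟩
  let π : Γ →* Equiv.Perm ↥I.minimalPrimes :=
    { toFun := fun a => ⟨T' a, T' a⁻¹,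
        fun P => Subtype.ext ((hcomp _ _ _).trans (by rw [inv_mul_cancel, hone])),
        fun P => Subtype.ext ((hcomp _ _ _).trans (by rw [mul_inv_cancel, hone]))⟩
      map_one' := Equiv.ext fun P => Subtype.ext (hone _)
      map_mul' := fun a b => Equiv.ext fun P => Subtype.ext (hcomp a b _).symm }
  have : Finite ↥I.minimalPrimes := (Ideal.finite_minimalPrimes_of_isNoetherianRing R I).to_subtype
  refine ⟨π.ker, inferInstance, fun a ha P hP => ?_⟩
  exact congrArg Subtype.val (Equiv.ext_iff.1 (MonoidHom.mem_ker.1 ha) ⟨P, hP⟩)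

theorem transL_one : (transL ρ 1).toRingHom = RingHom.id _ := by
  refine MvPolynomial.ringHom_ext (fun c => by simp [transL, substMat]) fun e => ?_
  simp [transL, substMat, genMat, Matrix.map_one _ (map_zero MvPolynomial.C) (map_one MvPolynomial.C)]

theorem transR_one : (transR ρ 1).toRingHom = RingHom.id _ := by
  refine MvPolynomial.ringHom_ext (fun c => by simp [transR, substMat]) fun e => ?_
  simp [transR, substMat, genMat, Matrix.map_one _ (map_zero MvPolynomial.C) (map_one MvPolynomial.C)]

theorem transL_gen (γ : Γ) : (genMat (k := k)).map (transL ρ γ) =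
    (ρ γ : Matrix (Fin 3) (Fin 3) k).map MvPolynomial.C * genMat := by
  ext a b; simp [transL, substMat, genMat]

theorem transR_gen (γ : Γ) : (genMat (k := k)).map (transR ρ γ) =
    genMat * (ρ γ : Matrix (Fin 3) (Fin 3) k).map MvPolynomial.C := by
  ext a b; simp [transR, substMat, genMat]

theorem map_const {F : MvPolynomial (Fin 3 × Fin 3) k →ₐ[k] MvPolynomial (Fin 3 × Fin 3) k}
    (A : Matrix (Fin 3) (Fin 3) k) : (A.map MvPolynomial.C).map F = A.map MvPolynomial.C := by
  ext a b; simp

theorem transL_mul (a b : Γ) :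
    (transL ρ (a * b)).toRingHom = ((transL ρ b).toRingHom).comp (transL ρ a).toRingHom := by
  refine MvPolynomial.ringHom_ext (fun c => by simp [transL, substMat]) fun e => ?_
  have h : (genMat (k := k)).map (transL ρ (a * b)) =
      ((genMat (k := k)).map (transL ρ a)).map (transL ρ b) := by
    rw [transL_gen, transL_gen, Matrix.map_mul, map_const, transL_gen, ← Matrix.mul_assoc,
      ← Matrix.map_mul, map_mul]; rfl
  simpa [genMat] using congrFun (congrFun h e.1) e.2

theorem transR_mul (a b : Γ) :
    (transR ρ (a * b)).toRingHom = ((transR ρ a).toRingHom).comp (transR ρ b).toRingHom := by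
  refine MvPolynomial.ringHom_ext (fun c => by simp [transR, substMat]) fun e => ?_
  have h : (genMat (k := k)).map (transR ρ (a * b)) =
      ((genMat (k := k)).map (transR ρ b)).map (transR ρ a) := by
    rw [transR_gen, transR_gen, Matrix.map_mul, map_const, transR_gen, Matrix.mul_assoc,
      ← Matrix.map_mul, map_mul]; rfl
  simpa [genMat] using congrFun (congrFun h e.1) e.2

/-- One element of a strongly irreducible group meets finitely many conditions. -/
theorem exists_generic (h : StrongIrred ρ) {κ : Type} [Fintype κ] (tw : κ → Bool)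
    (r u : κ → Fin 3 → k) (hr : ∀ i, r i ≠ 0) (hu : ∀ i, u i ≠ 0) :
    ∃ g : Γ, ∀ i, r i ⬝ᵥ (twist (tw i) (ρ g : Matrix (Fin 3) (Fin 3) k) *ᵥ u i) ≠ 0 := by
  classical
  have hne : imIdeal ρ ≠ ⊤ := fun he => by
    have h1 : (1 : MvPolynomial (Fin 3 × Fin 3) k) ∈ imIdeal ρ := by rw [he]; trivial
    simpa using RingHom.mem_ker.1 ((Ideal.mem_iInf.1 h1) 1)
  have hmem : ∀ f, f ∈ imIdeal ρ ↔ ∀ g, valAt ρ g f = 0 := fun f => by
    simp [imIdeal, RingHom.mem_ker]
  obtain ⟨KL, hKL, fixL⟩ := exists_fix (imIdeal ρ) (fun a => (transL ρ a).toRingHom)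
    (transL_one ρ) (transL_mul ρ) (fun a => by
      ext f
      simp only [Ideal.mem_comap, AlgHom.toRingHom_eq_coe, RingHom.coe_coe, hmem, valAt_transL]
      exact ⟨fun h g => by simpa using h (a⁻¹ * g), fun h g => h _⟩)
  obtain ⟨KR, hKR, fixR⟩ := exists_fix (imIdeal ρ) (fun a => (transR ρ a⁻¹).toRingHom)
    (by rw [inv_one]; exact transR_one ρ)
    (fun a b => by rw [_root_.mul_inv_rev]; exact transR_mul ρ _ _) (fun a => by
      ext f
      simp only [Ideal.mem_comap, AlgHom.toRingHom_eq_coe, RingHom.coe_coe, hmem, valAt_transR]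
      exact ⟨fun h g => by simpa using h (g * a), fun h g => h _⟩)
  obtain ⟨M, hM, hIM⟩ := Ideal.exists_le_maximal _ hne
  have := hM.isPrime
  obtain ⟨P, hP, -⟩ := Ideal.exists_minimalPrimes_le hIM
  have hPp : P.IsPrime := hP.1.1
  -- constants are units and the determinant is one on the image
  have hdet : genMat.det - 1 ∈ P := hP.1.2 ((hmem _).2 fun g => by
    rw [map_sub, map_one, RingHom.map_det, RingHom.mapMatrix_apply, genMat_map]
    simp)
  have key : ∀ x : k, genMat.det * MvPolynomial.C x ∈ P → x = 0 := fun x hx => by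
    by_contra hx0
    refine hPp.ne_top (P.eq_top_of_isUnit_mem ?_ ((isUnit_iff_ne_zero.2 hx0).map MvPolynomial.C))
    have : MvPolynomial.C x =
        genMat.det * MvPolynomial.C x - (genMat.det - 1) * MvPolynomial.C x := by ring
    rw [this]
    exact P.sub_mem hx (P.mul_mem_right _ hdet)
  let Tw : Bool → Matrix (Fin 3) (Fin 3) (MvPolynomial (Fin 3 × Fin 3) k) :=
    fun b => cond b (adjugate genMat)ᵀ genMat
  let form : Bool → (Fin 3 → k) → (Fin 3 → k) → MvPolynomial (Fin 3 × Fin 3) k :=
    fun b r u => (fun a => MvPolynomial.C (r a)) ⬝ᵥ (Tw b *ᵥ fun a => MvPolynomial.C (u a))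
  have hev : ∀ b r u g, valAt ρ g (form b r u) =
      r ⬝ᵥ (twist b (ρ g : Matrix (Fin 3) (Fin 3) k) *ᵥ u) := by
    intro b r u g
    have hTw : (Tw b).map (valAt ρ g) = twist b (ρ g : Matrix (Fin 3) (Fin 3) k) := by
      cases b
      · exact genMat_map ρ g
      · show ((adjugate genMat)ᵀ).map (valAt ρ g) = _
        rw [transpose_map, ← RingHom.mapMatrix_apply, RingHom.map_adjugate,
          RingHom.mapMatrix_apply, genMat_map]
        rfl
    rw [← hTw]
    simp [form, dotProduct, mulVec, valAt]
  have hform : ∀ b r u, r ≠ 0 → u ≠ 0 → form b r u ∉ P := by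
    intro b r u hr hu hin
    cases b
    · let U : Submodule k (Fin 3 → k) :=
        { carrier := {v | form false r v ∈ P}
          add_mem' := fun {v w} hv hw => by
            have : form false r (v + w) = form false r v + form false r w := by
              simp only [form, ← dotProduct_add, ← mulVec_add]
              congr 2; ext a; simp
            simpa [this] using P.add_mem hv hw
          zero_mem' := by simp [form, mulVec, dotProduct]
          smul_mem' := fun c v hv => by
            have : form false r (c • v) = MvPolynomial.C c * form false r v := by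
              simp only [form, ← smul_eq_mul, ← dotProduct_smul, ← mulVec_smul]
              congr 2; ext a; simp
            simpa [this] using P.mul_mem_left _ hv }
      have hU : U = ⊤ := by
        refine (h KR hKR U fun a ha v hv => ?_).resolve_left fun hb => hu (by
          have : u ∈ U := hin
          rw [hb] at this
          exact (Submodule.mem_bot k).1 this)
        have e : transR ρ a (form false r v) =
            form false r ((ρ a : Matrix (Fin 3) (Fin 3) k) *ᵥ v) := by
          simp [form, Tw, dotProduct, mulVec, transR, substMat, genMat, Fin.sum_univ_three,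
            Matrix.mul_apply]
          ring
        have hfix := fixR a⁻¹ (KR.inv_mem ha) P hP
        simp only [inv_inv] at hfix
        have hv' : form false r v ∈ P.comap (transR ρ a).toRingHom := hfix.symm ▸ hv
        show form false r ((ρ a : Matrix (Fin 3) (Fin 3) k) *ᵥ v) ∈ P
        rw [← e]
        exact hv'
      have hall : ∀ v : Fin 3 → k, form false r v ∈ P := fun v => by
        show v ∈ U
        rw [hU]; trivial
      refine hr (funext fun a => key (r a) ?_)
      have e : genMat.det * MvPolynomial.C (r a) =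
          ((fun a => MvPolynomial.C (r a)) ᵥ* genMat ᵥ* adjugate genMat) a := by
        rw [vecMul_vecMul, mul_adjugate, vecMul_smul, vecMul_one]; rfl
      rw [e]
      simp only [vecMul, dotProduct]
      refine P.sum_mem fun b _ => P.mul_mem_right _ ?_
      have := hall (Pi.single b 1)
      simpa [form, Tw, dotProduct, mulVec, vecMul, Pi.single_apply, apply_ite] using this
    · let U : Submodule k (Fin 3 → k) :=
        { carrier := {v | form true v u ∈ P}
          add_mem' := fun {v w} hv hw => by
            have : form true (v + w) u = form true v u + form true w u := by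
              simp only [form, ← add_dotProduct]
              congr 1; ext a; simp
            simpa [this] using P.add_mem hv hw
          zero_mem' := by simp [form, dotProduct]
          smul_mem' := fun c v hv => by
            have : form true (c • v) u = MvPolynomial.C c * form true v u := by
              simp only [form, ← smul_eq_mul, ← smul_dotProduct]
              congr 1; ext a; simp
            simpa [this] using P.mul_mem_left _ hv }
      have hU : U = ⊤ := by
        refine (h KL hKL U fun a ha v hv => ?_).resolve_left fun hb => hr (by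
          have : r ∈ U := hin
          rw [hb] at this
          exact (Submodule.mem_bot k).1 this)
        have hA : adjugate (ρ a⁻¹ : Matrix (Fin 3) (Fin 3) k) = (ρ a : Matrix (Fin 3) (Fin 3) k) := by
          have h' := Matrix.SpecialLinearGroup.coe_inv (ρ a⁻¹)
          rw [← map_inv, inv_inv] at h'
          exact h'.symm
        have e : transL ρ a⁻¹ (form true v u) =
            form true ((ρ a : Matrix (Fin 3) (Fin 3) k) *ᵥ v) u := by
          have h1 : (Tw true).map (transL ρ a⁻¹) =
              ((ρ a : Matrix (Fin 3) (Fin 3) k).map MvPolynomial.C)ᵀ * Tw true := by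
            show ((adjugate genMat)ᵀ).map (transL ρ a⁻¹) = _
            rw [transpose_map]
            have := AlgHom.map_adjugate (transL ρ a⁻¹) (genMat (k := k))
            simp only [AlgHom.mapMatrix_apply] at this
            rw [this, transL_gen, adjugate_mul_distrib, transpose_mul]
            congr 2
            rw [← RingHom.mapMatrix_apply, ← RingHom.map_adjugate, hA]
            rfl
          have h2 : transL ρ a⁻¹ (form true v u) = (fun i => MvPolynomial.C (v i)) ⬝ᵥ
              (((Tw true).map (transL ρ a⁻¹)) *ᵥ fun i => MvPolynomial.C (u i)) := by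
            simp [form, dotProduct, mulVec]
          rw [h2, h1, ← mulVec_mulVec, dotProduct_mulVec, vecMul_transpose]
          congr 1
          ext i
          simp [mulVec, dotProduct]
        have hv' : form true v u ∈ P.comap (transL ρ a⁻¹).toRingHom :=
          (fixL a⁻¹ (KL.inv_mem ha) P hP).symm ▸ hv
        show form true ((ρ a : Matrix (Fin 3) (Fin 3) k) *ᵥ v) u ∈ P
        rw [← e]
        exact hv'
      have hall : ∀ v : Fin 3 → k, form true v u ∈ P := fun v => by
        show v ∈ U
        rw [hU]; trivial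
      refine hu (funext fun a => key (u a) ?_)
      have e : genMat.det * MvPolynomial.C (u a) =
          (genMatᵀ *ᵥ (Tw true *ᵥ fun a => MvPolynomial.C (u a))) a := by
        rw [mulVec_mulVec]
        show _ = ((genMatᵀ * (adjugate genMat)ᵀ) *ᵥ _) a
        rw [← transpose_mul, adjugate_mul, transpose_smul, transpose_one, smul_mulVec, one_mulVec]
        rfl
      rw [e]
      simp only [mulVec, dotProduct]
      refine P.sum_mem fun b _ => P.mul_mem_left _ ?_
      have := hall (Pi.single b 1)
      simpa [form, dotProduct, mulVec, Pi.single_apply, apply_ite] using this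
  have hprod : ∏ i, form (tw i) (r i) (u i) ∉ P := fun hp => by
    obtain ⟨i, -, hi⟩ := hPp.prod_mem_iff.1 hp
    exact hform _ _ _ (hr i) (hu i) hi
  obtain ⟨g, hg⟩ := not_forall.1 fun hall => hprod (hP.1.2 ((hmem _).2 hall))
  exact ⟨g, fun i hi => hg (by
    rw [map_prod]; exact Finset.prod_eq_zero (Finset.mem_univ i) ((hev _ _ _ g).trans hi))⟩

/-- A strongly irreducible group is infinite. -/
theorem infinite_of_irred (h : StrongIrred ρ) : Infinite Γ := by
  by_contra hfin
  rw [not_infinite_iff_finite] at hfin
  have hne : (Pi.single 0 1 : Fin 3 → k) ≠ 0 := by simp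
  rcases h ⊥ inferInstance (Submodule.span k {Pi.single 0 1}) (fun g hg x hx => by
    rw [Subgroup.mem_bot.1 hg]; simpa using hx) with e | e
  · exact hne (Submodule.span_singleton_eq_bot.1 e)
  · have h1 : (Pi.single 1 1 : Fin 3 → k) ∈ Submodule.span k {Pi.single 0 1} := by rw [e]; trivial
    obtain ⟨c, hc⟩ := Submodule.mem_span_singleton.1 h1
    simpa using congrFun hc 1

end Generic

section Frames

variable {k : Type} [NontriviallyNormedField k] [ProperSpace k] {Γ : Type} [Group Γ]
  (ρ : Γ →* SL(3, k))

/-- A representation whose image meets every eight conditions has frames. -/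
theorem frames_of_generic
    (hgen : ∀ r u : Bool × Fin 4 → Fin 3 → k, (∀ i, r i ≠ 0) → (∀ i, u i ≠ 0) →
      ∃ g : Γ, ∀ i, r i ⬝ᵥ (twist i.1 (ρ g : M3 k) *ᵥ u i) ≠ 0) : FramesOK ρ := by
  classical
  obtain ⟨F, c, hc, hFS, hF⟩ := exists_frames (S := Set.range fun g => (ρ g : M3 k))
    (fun i : Bool × Fin 4 => twist i.1) (fun r u hr hu => by
      obtain ⟨g, hg⟩ := hgen r u hr hu
      exact ⟨_, ⟨g, rfl⟩, hg⟩)
  choose pre hpre using fun g : F => hFS g.2
  refine ⟨Finset.univ.image pre, c, hc, fun Q z h => ?_⟩
  let X : Bool × Fin 4 → M3 k := fun i => Q i.1 i.2 * rep ρ i.1 z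
  let Y : Bool × Fin 4 → M3 k := fun i => rep ρ i.1 h
  choose a a' ha using fun i => Pack.exists_norm_entry (X i)
  choose b' b hb using fun i => Pack.exists_norm_entry (Y i)
  obtain ⟨g, hg, hbd⟩ := hF (fun i => fun l => X i (a i) l) (fun i => fun l => Y i l (b i))
  refine ⟨pre ⟨g, hg⟩, Finset.mem_image_of_mem _ (Finset.mem_univ _), fun s i => ?_⟩
  set r : Fin 3 → k := fun l => X (s, i) (a (s, i)) l
  set u : Fin 3 → k := fun l => Y (s, i) l (b (s, i))
  have hX : ‖X (s, i)‖ ≤ ‖r‖ := (ha (s, i)).trans_le (norm_le_pi_norm r _)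
  have hY : ‖Y (s, i)‖ ≤ ‖u‖ := (hb (s, i)).trans_le (norm_le_pi_norm u _)
  have hentry : r ⬝ᵥ (twist s g *ᵥ u) =
      (X (s, i) * (twist s g * Y (s, i))) (a (s, i)) (b (s, i)) := rfl
  calc c * (‖X (s, i)‖ * ‖Y (s, i)‖) ≤ c * (‖r‖ * ‖u‖) :=
        mul_le_mul_of_nonneg_left (mul_le_mul hX hY (norm_nonneg _) (norm_nonneg _)) hc.le
    _ ≤ ‖r ⬝ᵥ (twist s g *ᵥ u)‖ := hbd (s, i)
    _ ≤ ‖X (s, i) * (twist s g * Y (s, i))‖ := hentry ▸ abs_entry_le _ _ _
    _ = ‖Q s i * rep ρ s (z * pre ⟨g, hg⟩ * h)‖ := by
        have hp : (ρ (pre ⟨g, hg⟩) : M3 k) = g := hpre ⟨g, hg⟩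
        rw [rep_mul, rep_mul, rep_eq_twist ρ s (pre ⟨g, hg⟩), hp]
        simp only [X, Y, Matrix.mul_assoc]

/-- A strongly irreducible representation has frames. -/
theorem frames_of_irred (h : StrongIrred ρ) : FramesOK ρ :=
  frames_of_generic ρ fun r u hr hu => by
    obtain ⟨g, hg⟩ := exists_generic (κ := Bool × Fin 4) ρ h Prod.fst r u hr hu
    exact ⟨g, hg⟩

end Frames

end Vale.Agent.P165.SL
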