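import Vale.Agent.P165.SL.Irreducible
import Vale.Agent.P165.GL2.Linear
import Vale.Agent.P165.FF.Transport
import Vale.Agent.P165.TL.Main

/-!
# P165, SL route: reducible images

A subgroup of finite index fixing a line or a plane has, after passing to the contragredient if
necessary, an image in `GL₂` on the quotient by a line; it is virtually solvable only if the whole
image is. Phases pass from a subgroup of finite index to the group.
-/

namespace Vale.Agent.P165.SL

open Matrix
open scoped MatrixGroups

variable {k : Type} [Field k]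

/-- The matrices of determinant one keeping a line. -/
def lineStab (x : Fin 3 → k) : Submonoid SL(3, k) where
  carrier := {g | ∃ c : k, (g : Matrix (Fin 3) (Fin 3) k) *ᵥ x = c • x}
  one_mem' := ⟨1, by simp⟩
  mul_mem' := by
    rintro g h ⟨c, hc⟩ ⟨d, hd⟩
    refine ⟨d * c, ?_⟩
    show ((g : Matrix (Fin 3) (Fin 3) k) * (h : Matrix (Fin 3) (Fin 3) k)) *ᵥ x = _
    rw [← mulVec_mulVec, hd, mulVec_smul, hc, smul_smul]

/-- A group of matrices keeping a line is solvable if its action on the quotient is. -/
theorem exists_block {x : Fin 3 → k} (hx : x ≠ 0) {H : Type} [Group H] (σ : H →* SL(3, k))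
    (hσ : ∀ h, σ h ∈ lineStab x) :
    ∃ ψ : H →* GL (Fin 2) k, ∀ S : Subgroup H, Group.IsSolvable (S.map ψ) →
      Group.IsSolvable (S.map σ) := by
  classical
  choose c hc using hσ
  let χ₀ : H →* k :=
    { toFun := c
      map_one' := by
        have h := hc 1
        rw [map_one] at h
        replace h : (1 : Matrix (Fin 3) (Fin 3) k) *ᵥ x = c 1 • x := h
        rw [one_mulVec] at h
        exact smul_left_injective k hx (h.symm.trans (one_smul k x).symm)
      map_mul' := fun a b => by
        have h := hc (a * b)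
        rw [map_mul] at h
        replace h : ((σ a : Matrix (Fin 3) (Fin 3) k) * (σ b : Matrix (Fin 3) (Fin 3) k)) *ᵥ x =
          c (a * b) • x := h
        rw [← mulVec_mulVec, hc, mulVec_smul, hc, smul_smul] at h
        exact (smul_left_injective k hx h).symm.trans (mul_comm _ _) }
  set L : Submodule k (Fin 3 → k) := Submodule.span k {x}
  let f : H → (Fin 3 → k) →ₗ[k] (Fin 3 → k) :=
    fun h => (σ h : Matrix (Fin 3) (Fin 3) k).mulVecLin
  have hL : ∀ h, L ≤ L.comap (f h) := fun h => by
    rw [Submodule.span_singleton_le_iff_mem, Submodule.mem_comap]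
    show (σ h : Matrix (Fin 3) (Fin 3) k) *ᵥ x ∈ L
    rw [hc]
    exact Submodule.smul_mem _ _ (Submodule.mem_span_singleton_self x)
  let q : H →* Module.End k ((Fin 3 → k) ⧸ L) :=
    { toFun := fun h => Submodule.mapQ L L (f h) (hL h)
      map_one' := by
        refine Submodule.linearMap_qext L (LinearMap.ext fun y => ?_)
        simp [f]
      map_mul' := fun a b => by
        refine Submodule.linearMap_qext L (LinearMap.ext fun y => ?_)
        simp [f, mulVec_mulVec] }
  have hdim : Module.finrank k ((Fin 3 → k) ⧸ L) = 2 := by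
    have h := Submodule.finrank_quotient_add_finrank L
    rw [finrank_span_singleton hx, Module.finrank_fintype_fun_eq_card, Fintype.card_fin] at h
    omega
  let b := Module.finBasisOfFinrankEq k ((Fin 3 → k) ⧸ L) hdim
  let ψ : H →* GL (Fin 2) k :=
    ((LinearMap.toMatrixAlgEquiv b).toAlgHom.toRingHom.toMonoidHom.comp q).toHomUnits
  refine ⟨ψ, fun S hS => ?_⟩
  let χ : H →* kˣ := χ₀.toHomUnits
  -- what both homomorphisms forget commutes
  have hker : ∀ a, ψ a = 1 → χ a = 1 → ∀ y, (σ a : Matrix (Fin 3) (Fin 3) k) *ᵥ y - y ∈ L ∧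
      (σ a : Matrix (Fin 3) (Fin 3) k) *ᵥ x = x := by
    intro a ha ha' y
    refine ⟨?_, by
      have h1 : c a = 1 := congrArg Units.val ha'
      rw [hc, h1, one_smul]⟩
    have h1 : LinearMap.toMatrixAlgEquiv b (q a) = 1 := congrArg Units.val ha
    have h2 : q a = 1 := (LinearMap.toMatrixAlgEquiv b).injective (h1.trans (map_one _).symm)
    have h3 := congrArg (fun F : Module.End k ((Fin 3 → k) ⧸ L) => F (Submodule.Quotient.mk y)) h2
    simpa [q, f, Submodule.Quotient.eq] using h3
  let Φ : S →* S.map ψ × kˣ :=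
    ((ψ.comp S.subtype).codRestrict (S.map ψ) fun a => Subgroup.mem_map_of_mem ψ a.2).prod
      (χ.comp S.subtype)
  let Ψ : S →* SL(3, k) := σ.comp S.subtype
  have hrange : Ψ.range = S.map σ := by
    ext g
    simp [Ψ, MonoidHom.mem_range, Subgroup.mem_map]
  rw [← hrange]
  let Λ : S →* SL(3, k) × (S.map ψ × kˣ) := Ψ.prod Φ
  let g : Λ.range →* S.map ψ × kˣ := (MonoidHom.snd _ _).comp Λ.range.subtype
  have : Group.IsSolvable g.ker := Group.isSolvable_of_comm fun u v => by
    obtain ⟨⟨u, a, rfl⟩, ha⟩ := u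
    obtain ⟨⟨v, b, rfl⟩, hb⟩ := v
    have ha0 : Φ a = 1 := MonoidHom.mem_ker.1 ha
    have hb0 : Φ b = 1 := MonoidHom.mem_ker.1 hb
    have ha' := hker a (congrArg Subtype.val (congrArg Prod.fst ha0)) (congrArg Prod.snd ha0)
    have hb' := hker b (congrArg Subtype.val (congrArg Prod.fst hb0)) (congrArg Prod.snd hb0)
    refine Subtype.ext (Subtype.ext (Prod.ext ?_ (by show Φ a * Φ b = Φ b * Φ a; rw [ha0, hb0])))
    show Ψ a * Ψ b = Ψ b * Ψ a
    refine Subtype.ext (Matrix.ext_of_mulVec_single fun i => ?_)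
    set y : Fin 3 → k := Pi.single i 1
    show ((σ a : Matrix (Fin 3) (Fin 3) k) * (σ b : Matrix (Fin 3) (Fin 3) k)) *ᵥ y =
      ((σ b : Matrix (Fin 3) (Fin 3) k) * (σ a : Matrix (Fin 3) (Fin 3) k)) *ᵥ y
    rw [← mulVec_mulVec, ← mulVec_mulVec]
    obtain ⟨s, hs⟩ := Submodule.mem_span_singleton.1 (hb' y).1
    obtain ⟨t, ht⟩ := Submodule.mem_span_singleton.1 (ha' y).1
    rw [eq_add_of_sub_eq' hs.symm, eq_add_of_sub_eq' ht.symm, mulVec_add, mulVec_add, mulVec_smul,
      mulVec_smul, (ha' y).2, (hb' y).2, eq_add_of_sub_eq' hs.symm, eq_add_of_sub_eq' ht.symm]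
    abel
  have : Group.IsSolvable Λ.range :=
    Group.isSolvable_of_ker_le_range g.ker.subtype g (by rw [Subgroup.range_subtype])
  have hsurj : Function.Surjective (((MonoidHom.fst _ _).comp Λ.range.subtype).codRestrict Ψ.range
      (by rintro ⟨_, a, rfl⟩; exact ⟨a, rfl⟩)) := by
    rintro ⟨_, a, rfl⟩
    exact ⟨⟨_, a, rfl⟩, rfl⟩
  exact Group.isSolvable_of_surjective hsurj

/-- A group whose image is neither virtually solvable nor strongly irreducible maps, on a subgroup
of finite index, to `GL₂` with an image that is not virtually solvable. -/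
theorem exists_GL2_of_reducible {Γ : Type} [Group Γ] (ρ : Γ →* SL(3, k))
    (hred : ¬ StrongIrred ρ)
    (hns : ∀ S : Subgroup Γ, S.FiniteIndex → ¬ Group.IsSolvable (S.map ρ)) :
    ∃ (H : Subgroup Γ) (ψ : H →* GL (Fin 2) k), H.FiniteIndex ∧ GL2.NotVS ψ := by
  classical
  simp only [StrongIrred, not_forall, not_or] at hred
  obtain ⟨H, hH, U, hinv, hbot, htop⟩ := hred
  -- some homomorphism with the same kernel keeps a line
  obtain ⟨σ, x, hx, hσ, hinj⟩ : ∃ (σ : H →* SL(3, k)) (x : Fin 3 → k), x ≠ 0 ∧
      (∀ h, σ h ∈ lineStab x) ∧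
      ∀ S : Subgroup H, Group.IsSolvable (S.map σ) → Group.IsSolvable (S.map (ρ.comp H.subtype)) := by
    obtain ⟨v, hv, hv0⟩ := U.ne_bot_iff.1 hbot
    by_cases hline : U = Submodule.span k {v}
    · refine ⟨ρ.comp H.subtype, v, hv0, fun h => ?_, fun S hS => hS⟩
      have := hinv h h.2 v hv
      rw [hline, Submodule.mem_span_singleton] at this
      obtain ⟨c, hc⟩ := this
      exact ⟨c, hc.symm⟩
    -- two independent vectors in the plane
    obtain ⟨w, hw, hwv⟩ : ∃ w ∈ U, w ∉ Submodule.span k {v} :=
      SetLike.exists_of_lt (lt_of_le_of_ne ((Submodule.span_singleton_le_iff_mem _ _).2 hv)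
        (Ne.symm hline))
    have hli : LinearIndependent k ![v, w] := by
      rw [LinearIndependent.pair_iff' hv0]
      exact fun a ha => hwv (Submodule.mem_span_singleton.2 ⟨a, ha⟩)
    have hU : U = Submodule.span k (Set.range ![v, w]) := by
      refine (Submodule.eq_of_le_of_finrank_le ?_ ?_).symm
      · rw [Submodule.span_le]
        rintro _ ⟨i, rfl⟩
        fin_cases i <;> assumption
      · rw [finrank_span_eq_card hli, Fintype.card_fin]
        have := Submodule.finrank_lt htop
        rw [Module.finrank_fintype_fun_eq_card, Fintype.card_fin] at this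
        omega
    have hnz : crossProduct v w ≠ 0 := crossProduct_ne_zero_iff_linearIndependent.2 hli
    let σ₀ : H →* SL(3, k) :=
      { toFun := fun h => Matrix.SpecialLinearGroup.transpose ((ρ h)⁻¹)
        map_one' := by
          apply Subtype.ext
          simp
        map_mul' := fun a b => by
          apply Subtype.ext
          simp [Matrix.transpose_mul] }
    refine ⟨σ₀, crossProduct v w, hnz, fun h => ?_, fun S hS => ?_⟩
    · have key : ∀ A : Matrix (Fin 3) (Fin 3) k, crossProduct (A *ᵥ v) (A *ᵥ w) =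
          (adjugate A)ᵀ *ᵥ crossProduct v w := by
        intro A
        ext i
        fin_cases i <;>
          simp [crossProduct, adjugate_fin_three, mulVec, dotProduct, Fin.sum_univ_three] <;> ring
      have hm : ∀ y ∈ U, ∃ a b : k, a • v + b • w = (ρ h : Matrix (Fin 3) (Fin 3) k) *ᵥ y := by
        intro y hy
        have := hinv h h.2 y hy
        rw [hU, Matrix.range_cons_cons_empty, Submodule.mem_span_pair] at this
        exact this
      obtain ⟨a, b, h1⟩ := hm v hv
      obtain ⟨a', b', h2⟩ := hm w hw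
      refine ⟨a * b' - b * a', ?_⟩
      have h0 : (σ₀ h : Matrix (Fin 3) (Fin 3) k) = (adjugate (ρ h : Matrix (Fin 3) (Fin 3) k))ᵀ :=
        congrArg Matrix.transpose (Matrix.SpecialLinearGroup.coe_inv (ρ h))
      rw [h0, ← key, ← h1, ← h2]
      ext i
      fin_cases i <;> simp [crossProduct] <;> ring
    · let T : SL(3, k) →* SL(3, k) :=
        { toFun := fun g => Matrix.SpecialLinearGroup.transpose g⁻¹
          map_one' := by apply Subtype.ext; simp
          map_mul' := fun a b => by apply Subtype.ext; simp [Matrix.transpose_mul] }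
      have hT : (S.map (ρ.comp H.subtype)).map T = S.map σ₀ := by rw [Subgroup.map_map]; rfl
      have hTi : Function.Injective T := fun a b hab => by
        exact inv_injective (Subtype.ext (transpose_injective (congrArg Subtype.val hab)))
      have : Group.IsSolvable ((S.map (ρ.comp H.subtype)).map T) := by rw [hT]; exact hS
      exact Group.isSolvable_of_isSolvable_injective
        (f := T.subgroupMap (S.map (ρ.comp H.subtype)))
        fun a b h => Subtype.ext (hTi (congrArg Subtype.val h))
  obtain ⟨ψ, hψ⟩ := exists_block hx σ hσ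
  refine ⟨H, ψ, hH, fun S hS hsol => hns (S.map H.subtype) ?_ ?_⟩
  · refine ⟨?_⟩
    rw [Subgroup.index_map_subtype]
    exact mul_ne_zero hS.index_ne_zero hH.index_ne_zero
  · rw [Subgroup.map_map]
    exact hinj S (hψ S hsol)

/-- A nonuniqueness phase passes from a subgroup of finite index to the group. -/
theorem nonuniquePhase_of_finiteIndex {Γ : Type} [Group Γ] (H : Subgroup Γ) [H.FiniteIndex]
    (h : SG.NonuniquePhase H) : SG.NonuniquePhase Γ := by
  classical
  refine ⟨fun V G d hc hd Φ free R cover => ?_, fun Δ _ s hfin hgen ψ hψ hidx => ?_⟩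
  · have : Fintype (Γ ⧸ H) := Subgroup.fintypeQuotientOfFiniteIndex
    refine h.1 V G d hc hd (Φ.comp H.subtype) (fun g v hv => Subtype.ext (free g v hv))
      (Finset.univ.biUnion fun q : Γ ⧸ H => R.image (Φ q.out⁻¹)) fun v => ?_
    obtain ⟨g, hg⟩ := cover v
    refine ⟨⟨(QuotientGroup.mk g : Γ ⧸ H).out⁻¹ * g,
      QuotientGroup.eq.1 (QuotientGroup.out_eq' _)⟩, Finset.mem_biUnion.2 ⟨QuotientGroup.mk g,
        Finset.mem_univ _, Finset.mem_image.2 ⟨_, hg, ?_⟩⟩⟩
    show Φ _ (Φ g v) = Φ (_ * g) v
    rw [map_mul Φ]; rfl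
  · have := h.2 Δ s hfin hgen (ψ.comp H.subtype) (hψ.comp Subtype.val_injective)
    refine this ⟨?_⟩
    rw [MonoidHom.range_comp, Subgroup.range_subtype, Subgroup.index_map_of_injective _ hψ]
    exact mul_ne_zero (‹H.FiniteIndex›).index_ne_zero hidx.index_ne_zero

end Vale.Agent.P165.SL
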