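import Mathlib

/-!
# One good scale for all cells at once

`P t w y` says that the point `y` lies in the cell of depth `t` at `w`. If two cells of depth
`t + c` share a point, every point of the second lies in the cell of depth `t` at the first. The
mass of pairs lying in a common cell decreases in the depth from at most one, so among more than
`1 / ε ^ 2` disjoint ranges `[lo i, hi i + c]` one is good: for every `v` a single `w` carries all
but `ε` of the cell of depth `lo i` at `v` down to depth `hi i`.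
-/

namespace Vale.Agent.P165.SL.Scale

open Finset

variable {Y W : Type*}

open Classical in
/-- One scale that is good for every cell. -/
theorem exists_good_scale [Nonempty W] (U : Finset Y) (m : Y → ℝ) (hm : ∀ y ∈ U, 0 ≤ m y)
    (hm1 : ∑ y ∈ U, m y ≤ 1) (P : ℝ → W → Y → Prop)
    (mono : ∀ ⦃s t : ℝ⦄ ⦃w : W⦄ ⦃y : Y⦄, s ≤ t → P t w y → P s w y) {c : ℝ}
    (link : ∀ ⦃t : ℝ⦄ ⦃w w' : W⦄ ⦃y y' : Y⦄,
      P (t + c) w y → P (t + c) w' y → P (t + c) w' y' → P t w y')
    (lo hi : ℕ → ℝ) (hlh : ∀ i, lo i ≤ hi i + c) (hsep : ∀ i, hi i + c ≤ lo (i + 1))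
    {ε : ℝ} (hε : 0 < ε) {J : ℕ} (hJ : 1 ≤ (J : ℝ) * ε ^ 2) :
    ∃ i < J, ∀ v : W, ∃ w : W,
      ∑ y ∈ U.filter (fun y => P (lo i) v y ∧ ¬ P (hi i) w y), m y ≤ ε := by
  set Cl : ℝ → ℝ := fun t => ∑ y ∈ U, ∑ y' ∈ U,
    if ∃ w, P t w y ∧ P t w y' then m y * m y' else 0 with hCl
  have hanti : ∀ s t, s ≤ t → Cl t ≤ Cl s := by
    intro s t h
    refine sum_le_sum fun y hy => sum_le_sum fun y' hy' => ?_
    by_cases hw : ∃ w, P t w y ∧ P t w y'
    · obtain ⟨w, h1, h2⟩ := hw
      rw [if_pos ⟨w, h1, h2⟩, if_pos ⟨w, mono h h1, mono h h2⟩]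
    · rw [if_neg hw]; split_ifs
      · exact mul_nonneg (hm y hy) (hm y' hy')
      · exact le_rfl
  have hnn : ∀ t, 0 ≤ Cl t := fun t => sum_nonneg fun y hy => sum_nonneg fun y' hy' => by
    split_ifs
    · exact mul_nonneg (hm y hy) (hm y' hy')
    · exact le_rfl
  have hle : ∀ t, Cl t ≤ 1 := fun t => by
    have hsum : 0 ≤ ∑ y ∈ U, m y := sum_nonneg hm
    calc Cl t ≤ ∑ y ∈ U, ∑ y' ∈ U, m y * m y' := sum_le_sum fun y hy => sum_le_sum fun y' hy' => by
          split_ifs
          · exact le_rfl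
          · exact mul_nonneg (hm y hy) (hm y' hy')
      _ = (∑ y ∈ U, m y) * ∑ y ∈ U, m y := (sum_mul_sum U U m m).symm
      _ ≤ 1 := mul_le_one₀ hm1 hsum hm1
  have htel : ∀ k, ∑ i ∈ range k, (Cl (lo i) - Cl (hi i + c)) ≤ Cl (lo 0) - Cl (lo k) := by
    intro k
    induction k with
    | zero => simp
    | succ k ih =>
      rw [sum_range_succ]
      linarith [hanti _ _ (hsep k)]
  by_contra hbad
  push Not at hbad
  have hdrop : ∀ i < J, ε ^ 2 < Cl (lo i) - Cl (hi i + c) := by
    intro i hiJ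
    obtain ⟨v, hv⟩ := hbad i hiJ
    have hw : ∀ y, ∃ w, (∃ u, P (hi i + c) u y) → P (hi i + c) w y := fun y => by
      by_cases h : ∃ u, P (hi i + c) u y
      · exact ⟨h.choose, fun _ => h.choose_spec⟩
      · exact ⟨v, fun h' => absurd h' h⟩
    choose w hw using hw
    set S := U.filter (fun y => P (lo i) v y) with hS
    have hSU : S ⊆ U := filter_subset _ _
    have hmass : ε < ∑ y ∈ S, m y := (hv v).trans_le <|
      sum_le_sum_of_subset_of_nonneg
        (fun y hy => mem_filter.2 ⟨(mem_filter.1 hy).1, (mem_filter.1 hy).2.1⟩)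
        fun y hy _ => hm y (hSU hy)
    have key : ∀ y ∈ U, (if y ∈ S then m y * ε else 0) ≤ ∑ y' ∈ U,
        ((if ∃ u, P (lo i) u y ∧ P (lo i) u y' then m y * m y' else 0) -
          if ∃ u, P (hi i + c) u y ∧ P (hi i + c) u y' then m y * m y' else 0) := by
      intro y hy
      have hpos : ∀ y' ∈ U, 0 ≤ ((if ∃ u, P (lo i) u y ∧ P (lo i) u y' then m y * m y' else 0) -
          if ∃ u, P (hi i + c) u y ∧ P (hi i + c) u y' then m y * m y' else (0 : ℝ)) := by
        intro y' hy'
        by_cases hh : ∃ u, P (hi i + c) u y ∧ P (hi i + c) u y'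
        · obtain ⟨u, h1, h2⟩ := hh
          rw [if_pos ⟨u, mono (hlh i) h1, mono (hlh i) h2⟩, if_pos ⟨u, h1, h2⟩, sub_self]
        · rw [if_neg hh, sub_zero]; split_ifs
          · exact mul_nonneg (hm y hy) (hm y' hy')
          · exact le_rfl
      by_cases hyS : y ∈ S
      · rw [if_pos hyS]
        set T := U.filter (fun y' => P (lo i) v y' ∧ ¬ P (hi i) (w y) y') with hT
        calc m y * ε ≤ m y * ∑ y' ∈ T, m y' :=
              mul_le_mul_of_nonneg_left (hv (w y)).le (hm y hy)
          _ = ∑ y' ∈ T, m y * m y' := mul_sum _ _ _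
          _ = ∑ y' ∈ T,
              ((if ∃ u, P (lo i) u y ∧ P (lo i) u y' then m y * m y' else 0) -
              if ∃ u, P (hi i + c) u y ∧ P (hi i + c) u y' then m y * m y' else 0) := by
            refine sum_congr rfl fun y' hy' => ?_
            obtain ⟨-, h1, h2⟩ := mem_filter.1 hy'
            rw [if_pos ⟨v, (mem_filter.1 hyS).2, h1⟩, if_neg ?_, sub_zero]
            rintro ⟨u, hu, hu'⟩
            exact h2 (link (hw y ⟨u, hu⟩) hu hu')
          _ ≤ _ := sum_le_sum_of_subset_of_nonneg (filter_subset _ _) fun y' hy' _ => hpos y' hy'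
      · rw [if_neg hyS]; exact sum_nonneg hpos
    calc ε ^ 2 < (∑ y ∈ S, m y) * ε := by
          rw [sq]; exact mul_lt_mul_of_pos_right hmass hε
      _ = ∑ y ∈ U, if y ∈ S then m y * ε else 0 := by
          rw [sum_mul, ← sum_filter]
          exact sum_congr (by ext y; simp only [mem_filter]; exact ⟨fun h => ⟨hSU h, h⟩, (·.2)⟩)
            fun _ _ => rfl
      _ ≤ _ := sum_le_sum key
      _ = Cl (lo i) - Cl (hi i + c) := by simp only [hCl, sum_sub_distrib]
  have hne : (range J).Nonempty := nonempty_range_iff.2 fun h => by subst h; norm_num at hJ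
  have := sum_lt_sum_of_nonempty hne fun i hi' => hdrop i (mem_range.1 hi')
  rw [sum_const, card_range, nsmul_eq_mul] at this
  linarith [htel J, hle (lo 0), hnn (lo J)]

end Vale.Agent.P165.SL.Scale
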