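import Vale.Agent.P165.SL.Base
import Vale.Agent.P165.SL.Scale

/-!
# One good scale for the cells of both sides
-/

namespace Vale.Agent.P165.SL

open Finset FF Matrix
open scoped Matrix.Norms.Elementwise MatrixGroups

variable {k : Type} [NontriviallyNormedField k]

/-- The first coordinate vector. -/
theorem isUnit3_e0 : IsUnit3 (Pi.single 0 1 : Fin 3 → k) := by simp [IsUnit3, Pi.norm_single]

namespace Env

variable {Γ O ι : Type} [Group Γ] [Fintype ι] (E : Env k Γ O ι)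

open Classical in
/-- One scale is good for every cell on both sides. -/
theorem scale_ok (he : E.EstOK) : E.ScaleOK := by
  obtain ⟨C, hC⟩ := he
  intro A hA ε hε N₀
  obtain ⟨D, hD⟩ := exists_nat_ge (2 * A + 1 + C)
  obtain ⟨J, hJ⟩ := exists_nat_ge (1 / (ε / 2) ^ 2)
  let Ns : ℕ → ℕ := fun i => Nat.rec N₀ (fun _ n => 3 * n + D) i
  have hstep : ∀ i, Ns i ≤ Ns (i + 1) := fun i => by
    show Ns i ≤ 3 * Ns i + D; omega
  have hmon : Monotone Ns := monotone_nat_of_le_succ hstep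
  refine ⟨Ns J, fun U μ hμ => ?_⟩
  set S := ∑ y ∈ U, μ y with hS
  have hS0 : 0 ≤ S := sum_nonneg fun y _ => hμ y
  rcases eq_or_lt_of_le hS0 with hS1 | hS1
  · refine ⟨N₀, le_rfl, hmon (Nat.zero_le J), fun s v hv => ⟨v, hv, fun U' hU' _ => ?_⟩⟩
    refine (sum_le_sum_of_subset_of_nonneg hU' fun y _ _ => hμ y).trans ?_
    rw [← hS, ← hS1, mul_zero]
  have : Nonempty (Bool × {w : Fin 3 → k // IsUnit3 w}) := ⟨(false, ⟨_, isUnit3_e0⟩)⟩
  have hsum : ∑ ys ∈ U ×ˢ (univ : Finset Bool), μ ys.1 / (2 * S) ≤ 1 := by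
    rw [sum_product]
    simp only [sum_const, card_univ, Fintype.card_bool, nsmul_eq_mul, ← mul_sum, ← sum_div]
    rw [← hS]
    field_simp
    exact le_rfl
  have hJ' : 1 ≤ (J : ℝ) * (ε / 2) ^ 2 := by
    rwa [div_le_iff₀ (by positivity)] at hJ
  let lo : ℕ → ℝ := fun i => ((Nat.cast (Ns i)) : ℝ) - A
  let hi : ℕ → ℝ := fun i => 3 * ((Nat.cast (Ns i)) : ℝ) + A + 1
  obtain ⟨i, hiJ, hgood⟩ := Scale.exists_good_scale (U ×ˢ (univ : Finset Bool))
    (fun ys => μ ys.1 / (2 * S))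
    (fun ys _ => div_nonneg (hμ _) (by linarith)) hsum
    (fun t (w : Bool × {w : Fin 3 → k // IsUnit3 w}) ys =>
      w.1 = ys.2 ∧ t ≤ E.L (crossM w.2.1) w.1 ys.1)
    (fun s t w ys hst h => ⟨h.1, hst.trans h.2⟩) (c := C)
    (fun t w w' ys ys' h1 h2 h3 => by
      obtain ⟨a1, b1⟩ := h1
      obtain ⟨a2, b2⟩ := h2
      obtain ⟨a3, b3⟩ := h3
      have hww : w'.1 = w.1 := a2.trans a1.symm
      rw [hww] at b2 b3
      refine ⟨(a1.trans a2.symm).trans a3, ?_⟩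
      have := hC.close _ _ w.2.2 w'.2.2 w.1 ys.1 ys'.1 (t + C) b1 b2 b3
      linarith)
    lo hi
    (fun i => by
      show ((Nat.cast (Ns i)) : ℝ) - A ≤ 3 * ((Nat.cast (Ns i)) : ℝ) + A + 1 + C
      have := hC.nonneg; have : (0 : ℝ) ≤ Ns i := Nat.cast_nonneg _; linarith)
    (fun i => by
      show 3 * ((Nat.cast (Ns i)) : ℝ) + A + 1 + C ≤ ((3 * Ns i + D : ℕ) : ℝ) - A
      push_cast; linarith)
    (half_pos hε) hJ'
  refine ⟨Ns i, hmon (Nat.zero_le i), hmon hiJ.le, fun s v hv => ?_⟩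
  obtain ⟨⟨s', w, hw⟩, hsw⟩ := hgood (s, ⟨v, hv⟩)
  dsimp only [lo, hi] at hsw
  refine ⟨w, hw, fun U' hU' hcond => ?_⟩
  have hsub : U'.image (fun y => (y, s)) ⊆ (U ×ˢ (univ : Finset Bool)).filter (fun ys =>
      (s = ys.2 ∧ ((Nat.cast (Ns i)) : ℝ) - A ≤ E.L (crossM v) s ys.1) ∧
      ¬(s' = ys.2 ∧ 3 * ((Nat.cast (Ns i)) : ℝ) + A + 1 ≤ E.L (crossM w) s' ys.1)) := by
    intro ys hys
    obtain ⟨y, hy, rfl⟩ := mem_image.1 hys
    refine mem_filter.2 ⟨mem_product.2 ⟨hU' hy, mem_univ _⟩, ⟨rfl, (hcond y hy).1⟩, ?_⟩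
    rintro ⟨rfl, h⟩
    linarith [(hcond y hy).2]
  have h1 : ∑ y ∈ U', μ y / (2 * S) ≤ ε / 2 := by
    refine le_trans (le_of_eq ?_)
      ((sum_le_sum_of_subset_of_nonneg (f := fun ys : Γ × Bool => μ ys.1 / (2 * S)) hsub
        fun ys _ _ => div_nonneg (hμ _) (by linarith)).trans (le_of_eq_of_le (by congr!) hsw))
    rw [sum_image fun a _ b _ h => (Prod.ext_iff.1 h).1]
  rw [← sum_div, div_le_iff₀ (by linarith)] at h1
  linarith

end Env

end Vale.Agent.P165.SL
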